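import Vale.Agent.P205.Full.Plancherel

/-!
# The Beltrami equation on the torus, in coefficient space (P205)
-/

noncomputable section

open scoped ENNReal NNReal ContDiff ComplexConjugate
open Real Complex Filter Topology

namespace Vale.Agent.P205.Beltrami

/-- Multiplier of `∂_z`, `z = u + i v`. -/
def dz (k : Freq) : ℂ := Complex.I / 2 * ((k.1 : ℂ) - Complex.I * k.2)

/-- Multiplier of `∂_z̄`. -/
def dzb (k : Freq) : ℂ := Complex.I / 2 * ((k.1 : ℂ) + Complex.I * k.2)

/-- The Beurling transform of the torus, with `a ↦ -conj a` on constants. -/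
def S (c : Seq) : Seq := fun k => if k = 0 then -conj (c 0) else dz k / dzb k * c k

theorem dzb_ne {k : Freq} (hk : k ≠ 0) : dzb k ≠ 0 := by
  refine mul_ne_zero (by simp) fun h => hk ?_
  have h1 := congrArg Complex.re h
  have h2 := congrArg Complex.im h
  simp at h1 h2
  exact Prod.ext h1 h2

theorem norm_S (c : Seq) (k : Freq) : ‖S c k‖ = ‖c k‖ := by
  simp only [S]
  split_ifs with h
  · simp [h]
  · have : ‖dz k‖ = ‖dzb k‖ := by
      simp only [dz, dzb, norm_mul]
      congr 1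
      rw [← Complex.norm_conj]
      simp
    rw [norm_mul, norm_div, this, div_self (norm_ne_zero_iff.2 (dzb_ne h)), one_mul]

theorem N_S (n : ℕ) (c : Seq) : N n (S c) = N n c := by
  simp only [N, ← ofReal_norm, norm_S]

theorem L2_S (c : Seq) : L2 (S c) = L2 c := by simp only [L2, norm_S]

theorem S_sub (c d : Seq) : S (c - d) = S c - S d := by
  funext k; simp only [S, Pi.sub_apply]; split_ifs
  · simp; ring
  · ring

theorem S_dmul (a : ℝ × ℝ) (c : Seq) : mult (dmul a) (S c) = S (mult (dmul a) c) := by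
  funext k; simp only [S, mult]; split_ifs with h <;> simp [h, dmul]; ring

theorem N0_mult_dmul {c : Seq} (h : Rapid c) (a : ℝ × ℝ) : N 0 (mult (dmul a) c) ≠ ⊤ :=
  rapid_dmul h a 0

theorem rapid_S {c : Seq} (h : Rapid c) : Rapid (S c) := fun n => by rw [N_S]; exact h n

theorem rapid_add {c d : Seq} (hc : Rapid c) (hd : Rapid d) : Rapid (c + d) := fun n =>
  ne_top_of_le_ne_top (ENNReal.add_ne_top.2 ⟨hc n, hd n⟩) (N_add _ _ _)

theorem rapid_conv {c d : Seq} (hc : Rapid c) (hd : Rapid d) : Rapid (conv c d) := fun n => by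
  refine ne_top_of_le_ne_top ?_ (le_trans (N_mono (show n ≤ n + 2 by omega) _)
    (N_conv_le (n + 2) (by omega) c d))
  simp [ENNReal.mul_ne_top, hc _, hd _]

theorem rapid_zero : Rapid (0 : Seq) := fun n => by simp [N]

theorem mult_add (μ : Freq → ℂ) (c d : Seq) : mult μ (c + d) = mult μ c + mult μ d := by
  funext k; simp [mult, mul_add]

theorem conv_dmul {c d : Seq} (hc : Rapid c) (hd : Rapid d) (a : ℝ × ℝ) :
    mult (dmul a) (conv c d) = conv (mult (dmul a) c) d + conv c (mult (dmul a) d) := by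
  funext k
  have hs : ∀ e e' : Seq, N 0 e ≠ ⊤ → N 0 e' ≠ ⊤ → Summable fun j => e j * e' (k - j) := by
    intro e e' he he'
    refine .of_norm ?_
    refine Summable.of_nonneg_of_le (fun j => norm_nonneg _) (fun j => ?_)
      ((summable_norm_of_N he).mul_right (∑' i, ‖e' i‖))
    rw [norm_mul]
    exact mul_le_mul_of_nonneg_left
      ((summable_norm_of_N he').le_tsum _ fun _ _ => norm_nonneg _) (norm_nonneg _)
  simp only [mult, conv, Pi.add_apply]
  rw [← tsum_mul_left]
  rw [show (∑' j, dmul a j * c j * d (k - j)) + (∑' j, c j * (dmul a (k - j) * d (k - j)))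
      = ∑' j, (dmul a j * c j * d (k - j) + c j * (dmul a (k - j) * d (k - j))) from
    ((hs _ _ (N0_mult_dmul hc a) (hd 0)).tsum_add (hs _ _ (hc 0) (N0_mult_dmul hd a))).symm]
  refine tsum_congr fun j => ?_
  simp only [dmul, Prod.fst_sub, Prod.snd_sub]
  push_cast
  ring

/-- Iterated derivative. -/
def Dp (a : ℝ × ℝ) (i : ℕ) (c : Seq) : Seq := (mult (dmul a))^[i] c

theorem rapid_Dp {c : Seq} (hc : Rapid c) (a : ℝ × ℝ) (i : ℕ) : Rapid (Dp a i c) := by
  induction i with
  | zero => exact hc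
  | succ i ih => rw [Dp, Function.iterate_succ_apply']; exact rapid_dmul ih a

theorem Dp_succ (a : ℝ × ℝ) (i : ℕ) (c : Seq) : Dp a (i + 1) c = Dp a i (mult (dmul a) c) :=
  Function.iterate_succ_apply _ _ _

theorem Dp_apply (a : ℝ × ℝ) (i : ℕ) (c : Seq) (k : Freq) : Dp a i c k = dmul a k ^ i * c k := by
  induction i generalizing c with
  | zero => simp [Dp]
  | succ i ih => rw [Dp_succ, ih, mult, pow_succ]; ring

theorem Dp_add (a : ℝ × ℝ) (i : ℕ) (c d : Seq) : Dp a i (c + d) = Dp a i c + Dp a i d := by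
  funext k; simp [Dp_apply, mul_add]

theorem Dp_S (a : ℝ × ℝ) (i : ℕ) (c : Seq) : Dp a i (S c) = S (Dp a i c) := by
  induction i generalizing c with
  | zero => rfl
  | succ i ih => rw [Dp_succ, Dp_succ, S_dmul, ih]

/-- All derivatives of order `≤ j` along `a` are bounded in square sum. -/
def Bd (a : ℝ × ℝ) (j : ℕ) (x : ℕ → Seq) : Prop :=
  ∀ i ≤ j, ∃ C, ∀ n, L2 (Dp a i (x n)) ≤ C

theorem Bd.add {a : ℝ × ℝ} {j : ℕ} {x y : ℕ → Seq} (hx : ∀ n, Rapid (x n))
    (hy : ∀ n, Rapid (y n)) (bx : Bd a j x) (by' : Bd a j y) :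
    Bd a j fun n => x n + y n := by
  intro i hi
  obtain ⟨C, hC⟩ := bx i hi
  obtain ⟨C', hC'⟩ := by' i hi
  refine ⟨(1 + 1⁻¹) * C + (1 + 1) * C', fun n => ?_⟩
  rw [Dp_add]
  refine (L2_add_le (rapid_Dp (hx n) a i 0) (rapid_Dp (hy n) a i 0) one_pos).trans ?_
  gcongr
  exacts [hC n, hC' n]

theorem bd_conv {a : ℝ × ℝ} {j : ℕ} :
    ∀ {m : Seq}, Rapid m → ∀ {z : ℕ → Seq}, (∀ n, Rapid (z n)) → Bd a j z →
      Bd a j fun n => conv m (z n) := by
  induction j with
  | zero =>
    intro m hm z hz bz i hi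
    obtain ⟨C, hC⟩ := bz i hi
    obtain rfl : i = 0 := by omega
    refine ⟨(N 0 m).toReal ^ 2 * C, fun n => ?_⟩
    refine (L2_conv_le (hm 0) (hz n 0) fun p => norm_ev_le (hm 0) p).trans ?_
    gcongr
    exact hC n
  | succ j ih =>
    intro m hm z hz bz i hi
    rcases i with _ | i
    · exact ih hm hz (fun l hl => bz l (by omega)) 0 (Nat.zero_le _)
    · have h1 := ih (rapid_dmul hm a) hz (fun l hl => bz l (by omega))
      have h2 := ih hm (z := fun n => mult (dmul a) (z n)) (fun n => rapid_dmul (hz n) a)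
        (fun l hl => by
          obtain ⟨C, hC⟩ := bz (l + 1) (by omega)
          exact ⟨C, fun n => by rw [← Dp_succ]; exact hC n⟩)
      obtain ⟨C, hC⟩ := Bd.add (fun n => rapid_conv (rapid_dmul hm a) (hz n))
        (fun n => rapid_conv hm (rapid_dmul (hz n) a)) h1 h2 i (by omega)
      exact ⟨C, fun n => by rw [Dp_succ, conv_dmul hm (hz n)]; exact hC n⟩

theorem bd_iter {a : ℝ × ℝ} {m : Seq} (hm : Rapid m) {κ : ℝ} (hκ1 : κ < 1)
    (hκ : ∀ z, ‖ev m z‖ ≤ κ) {j : ℕ} :
    ∀ {f x : ℕ → Seq}, (∀ n, Rapid (f n)) → (∀ n, Rapid (x n)) → x 0 = 0 →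
      (∀ n, x (n + 1) = f n + conv m (S (x n))) → Bd a j f → Bd a j x := by
  have hκ0 : 0 ≤ κ := (norm_nonneg _).trans (hκ 0)
  have base : ∀ {f x : ℕ → Seq}, (∀ n, Rapid (f n)) → (∀ n, Rapid (x n)) → x 0 = 0 →
      (∀ n, x (n + 1) = f n + conv m (S (x n))) → (∃ C, ∀ n, L2 (f n) ≤ C) →
      ∃ C, ∀ n, L2 (x n) ≤ C := by
    intro f x hf hx h0 hstep hb
    obtain ⟨C, hC⟩ := hb
    obtain ⟨t, ht, hθ⟩ : ∃ t : ℝ, 0 < t ∧ (1 + t) * κ ^ 2 < 1 := by
      have hsq : κ ^ 2 < 1 := by nlinarith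
      exact ⟨(1 - κ ^ 2), by linarith, by nlinarith⟩
    have hC0 : 0 ≤ C := (L2_nonneg _).trans (hC 0)
    refine ⟨(1 + t⁻¹) * C / (1 - (1 + t) * κ ^ 2), fun n => ?_⟩
    rw [le_div_iff₀ (by linarith)]
    induction n with
    | zero => simp [h0, L2]; positivity
    | succ n ih =>
      have h1 : L2 (x (n + 1)) ≤ (1 + t⁻¹) * C + (1 + t) * κ ^ 2 * L2 (x n) := by
        rw [hstep]
        refine (L2_add_le (hf n 0) (rapid_conv hm (rapid_S (hx n)) 0) ht).trans ?_
        have := L2_conv_le (hm 0) (rapid_S (hx n) 0) hκ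
        rw [L2_S] at this
        rw [mul_assoc]
        gcongr
        exact hC n
      nlinarith [mul_le_mul_of_nonneg_left ih (show 0 ≤ (1 + t) * κ ^ 2 by positivity),
        L2_nonneg (x n)]
  induction j with
  | zero =>
    intro f x hf hx h0 hstep hb i hi
    obtain rfl : i = 0 := by omega
    exact base hf hx h0 hstep (hb 0 le_rfl)
  | succ j ih =>
    intro f x hf hx h0 hstep hb i hi
    rcases i with _ | i
    · exact base hf hx h0 hstep (hb 0 (Nat.zero_le _))
    · have hj : Bd a j x := ih hf hx h0 hstep fun l hl => hb l (by omega)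
      have hS : Bd a j fun n => S (x n) := fun l hl => by
        obtain ⟨C, hC⟩ := hj l hl
        exact ⟨C, fun n => by rw [Dp_S, L2_S]; exact hC n⟩
      have hg := Bd.add (fun n => rapid_dmul (hf n) a)
        (fun n => rapid_conv (rapid_dmul hm a) (rapid_S (hx n)))
        (fun l hl => by
          obtain ⟨C, hC⟩ := hb (l + 1) (by omega)
          exact ⟨C, fun n => by rw [← Dp_succ]; exact hC n⟩)
        (bd_conv (rapid_dmul hm a) (fun n => rapid_S (hx n)) hS)
      have hy := ih (f := fun n => mult (dmul a) (f n) + conv (mult (dmul a) m) (S (x n)))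
        (x := fun n => mult (dmul a) (x n))
        (fun n => rapid_add (rapid_dmul (hf n) a)
          (rapid_conv (rapid_dmul hm a) (rapid_S (hx n))))
        (fun n => rapid_dmul (hx n) a) (by simp only [h0]; funext k; simp [mult])
        (fun n => by
          simp only [hstep, mult_add, conv_dmul hm (rapid_S (hx n)), S_dmul]
          abel)
        hg i (by omega)
      obtain ⟨C, hC⟩ := hy
      exact ⟨C, fun n => by rw [Dp_succ]; exact hC n⟩

theorem rapid_of_decay {c : Seq}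
    (h : ∀ j, ∃ C : ℝ, ∀ k, ((1 + k.1.natAbs + k.2.natAbs : ℕ) : ℝ) ^ j * ‖c k‖ ≤ C) :
    Rapid c := by
  intro n
  obtain ⟨C, hC⟩ := h (n + 4)
  have h1 : Summable fun m : ℤ => 1 / ((1 + m.natAbs : ℕ) : ℝ) ^ 2 := by
    have := (summable_nat_add_iff 1).2 (Real.summable_one_div_nat_pow.2 one_lt_two)
    refine summable_int_iff_summable_nat_and_neg.2 ⟨?_, ?_⟩
    all_goals
      refine this.congr fun k => ?_
      simp [add_comm]
  have h2 := h1.mul_of_nonneg h1 (fun _ => by positivity) fun _ => by positivity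
  have h3 : (∑' k : Freq, ENNReal.ofReal
      (C * (1 / ((1 + k.1.natAbs : ℕ) : ℝ) ^ 2 * (1 / ((1 + k.2.natAbs : ℕ) : ℝ) ^ 2)))) ≠ ⊤ :=
    (h2.mul_left C).tsum_ofReal_ne_top
  refine ne_top_of_le_ne_top h3 (ENNReal.tsum_le_tsum fun k => ?_)
  rw [wt, ← ofReal_norm, ← ENNReal.ofReal_natCast, ← ENNReal.ofReal_pow (by positivity),
    ← ENNReal.ofReal_mul (by positivity)]
  refine ENNReal.ofReal_le_ofReal ?_
  set w : ℝ := ((1 + k.1.natAbs + k.2.natAbs : ℕ) : ℝ) with hw
  set p : ℝ := ((1 + k.1.natAbs : ℕ) : ℝ) with hp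
  set q : ℝ := ((1 + k.2.natAbs : ℕ) : ℝ) with hq
  have hp0 : 0 < p := by positivity
  have hq0 : 0 < q := by positivity
  have hpw : p ≤ w := by simp only [hp, hw]; exact_mod_cast Nat.le_add_right _ _
  have hqw : q ≤ w := by simp only [hq, hw]; exact_mod_cast (by omega)
  have hw0 : 0 ≤ w := by positivity
  rw [show C * (1 / p ^ 2 * (1 / q ^ 2)) = C / (p ^ 2 * q ^ 2) by field_simp,
    le_div_iff₀ (by positivity)]
  calc w ^ n * ‖c k‖ * (p ^ 2 * q ^ 2) ≤ w ^ n * ‖c k‖ * (w ^ 2 * w ^ 2) := by gcongr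
    _ = w ^ (n + 4) * ‖c k‖ := by ring
    _ ≤ C := hC k

/-- Solution of `ν = ∂_z m + m * S ν` with rapidly decreasing coefficients. -/
theorem exists_beltrami {m : Seq} (hm : Rapid m) {κ : ℝ} (hκ1 : κ < 1)
    (hκ : ∀ z, ‖ev m z‖ ≤ κ) :
    ∃ ν : Seq, Rapid ν ∧ ν = mult dz m + conv m (S ν) := by
  set f : Seq := mult dz m with hf'
  have hf : Rapid f := by
    have : f = (fun k => (1 / 2 : ℂ) * mult (dmul (1, 0)) m k)
        + fun k => (-Complex.I / 2) * mult (dmul (0, 1)) m k := by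
      funext k; simp [f, mult, dz, dmul]; ring
    rw [this]
    refine rapid_add (fun n => ?_) (fun n => ?_)
    all_goals
      exact ne_top_of_le_ne_top (ENNReal.mul_ne_top enorm_ne_top (rapid_dmul hm _ n))
        (N_mult n (fun _ => _) _ fun _ => le_rfl)
  obtain ⟨x, hx0, hxs⟩ : ∃ x : ℕ → Seq, x 0 = 0 ∧ ∀ n, x (n + 1) = f + conv m (S (x n)) :=
    ⟨fun n => Nat.rec (0 : Seq) (fun _ y => f + conv m (S y)) n, rfl, fun _ => rfl⟩
  have hx : ∀ n, Rapid (x n) := by
    intro n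
    induction n with
    | zero => rw [hx0]; exact rapid_zero
    | succ n ih => rw [hxs]; exact rapid_add hf (rapid_conv hm (rapid_S ih))
  have hb : ∀ a j, Bd a j x := fun a j =>
    bd_iter hm hκ1 hκ (fun _ => hf) hx hx0 hxs
      fun i _ => ⟨_, fun _ => le_rfl⟩
  -- differences decay geometrically
  have hκ0 : 0 ≤ κ := (norm_nonneg _).trans (hκ 0)
  have hdiff : ∀ n, L2 (x (n + 1) - x n) ≤ (κ ^ 2) ^ n * L2 f := by
    intro n
    induction n with
    | zero =>
      have : x (0 + 1) - x 0 = f + conv m (S 0) := by rw [hxs, hx0, sub_zero]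
      rw [this, show S (0 : Seq) = 0 by funext k; simp [S],
        show conv m (0 : Seq) = 0 by funext k; simp [conv], add_zero, pow_zero, one_mul]
    | succ n ih =>
      have hd : N 0 (x (n + 1) - x n) ≠ ⊤ := by
        rw [sub_eq_add_neg]
        exact ne_top_of_le_ne_top (ENNReal.add_ne_top.2 ⟨hx _ 0, by rw [N_neg]; exact hx _ 0⟩)
          (N_add _ _ _)
      have e : x (n + 1 + 1) - x (n + 1) = conv m (S (x (n + 1) - x n)) := by
        rw [S_sub, conv_sub_right (hm 0) (rapid_S (hx _) 0) (rapid_S (hx _) 0)]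
        rw [hxs, hxs]; abel
      rw [e]
      refine (L2_conv_le (hm 0) (by rw [N_S]; exact hd) hκ).trans ?_
      rw [L2_S]
      calc κ ^ 2 * L2 (x (n + 1) - x n) ≤ κ ^ 2 * ((κ ^ 2) ^ n * L2 f) := by gcongr
        _ = (κ ^ 2) ^ (n + 1) * L2 f := by ring
  have hcau : ∀ k, CauchySeq fun n => x n k := by
    intro k
    refine cauchySeq_of_le_geometric κ (√(L2 f)) hκ1 fun n => ?_
    have hd : N 0 (x (n + 1) - x n) ≠ ⊤ := by
      rw [sub_eq_add_neg]
      exact ne_top_of_le_ne_top (ENNReal.add_ne_top.2 ⟨hx _ 0, by rw [N_neg]; exact hx _ 0⟩)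
        (N_add _ _ _)
    rw [dist_comm, dist_eq_norm]
    refine ((norm_le_sqrt_L2 hd k).trans (Real.sqrt_le_sqrt (hdiff n))).trans_eq ?_
    rw [Real.sqrt_mul (by positivity), ← pow_mul, mul_comm 2 n, pow_mul,
      Real.sqrt_sq (by positivity), mul_comm]
  choose ν hν using fun k => cauchySeq_tendsto_of_complete (hcau k)
  refine ⟨ν, rapid_of_decay fun j => ?_, ?_⟩
  · obtain ⟨C0, hC0⟩ := hb (1, 0) 0 0 le_rfl
    obtain ⟨C1, hC1⟩ := hb (1, 0) j j le_rfl
    obtain ⟨C2, hC2⟩ := hb (0, 1) j j le_rfl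
    refine ⟨3 ^ j * (√C0 + √C1 + √C2), fun k => ?_⟩
    refine le_of_tendsto' ((hν k).norm.const_mul _) fun n => ?_
    have b0 : ‖x n k‖ ≤ √C0 :=
      (norm_le_sqrt_L2 (hx n 0) k).trans (Real.sqrt_le_sqrt (hC0 n))
    have b1 : (|k.1| : ℝ) ^ j * ‖x n k‖ ≤ √C1 := by
      have := (norm_le_sqrt_L2 (rapid_Dp (hx n) (1, 0) j 0) k).trans (Real.sqrt_le_sqrt (hC1 n))
      simpa [Dp_apply, dmul] using this
    have b2 : (|k.2| : ℝ) ^ j * ‖x n k‖ ≤ √C2 := by
      have := (norm_le_sqrt_L2 (rapid_Dp (hx n) (0, 1) j 0) k).trans (Real.sqrt_le_sqrt (hC2 n))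
      simpa [Dp_apply, dmul] using this
    have hmax : ((1 + k.1.natAbs + k.2.natAbs : ℕ) : ℝ) ^ j
        ≤ 3 ^ j * (1 + (|k.1| : ℝ) ^ j + (|k.2| : ℝ) ^ j) := by
      push_cast
      set p : ℝ := ((|k.1| : ℤ) : ℝ)
      set q : ℝ := ((|k.2| : ℤ) : ℝ)
      have hp : 0 ≤ p := by simp [p]
      have hq : 0 ≤ q := by simp [q]
      have hle : (1 + p + q) ^ j ≤ (3 * max (max 1 p) q) ^ j := by
        refine pow_le_pow_left₀ (by positivity) ?_ j
        linarith [le_max_left (max 1 p) q, le_max_right (max 1 p) q, le_max_left 1 p,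
          le_max_right 1 p]
      have hmx : max (max 1 p) q ^ j ≤ 1 + p ^ j + q ^ j := by
        have := pow_nonneg hp j
        have := pow_nonneg hq j
        rcases max_choice (max 1 p) q with h | h <;> rw [h]
        · rcases max_choice 1 p with h' | h' <;> rw [h'] <;> simp <;> linarith
        · linarith
      calc _ ≤ (3 * max (max 1 p) q) ^ j := by
            simpa [p, q, Nat.cast_natAbs] using hle
        _ ≤ _ := by
            rw [mul_pow]; gcongr
            simpa [p, q] using hmx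
    calc _ ≤ 3 ^ j * (1 + (|k.1| : ℝ) ^ j + (|k.2| : ℝ) ^ j) * ‖x n k‖ := by gcongr
      _ ≤ _ := by rw [mul_assoc]; gcongr; linarith
  · funext k
    have hC : ∃ C : ℝ, ∀ n i, ‖S (x n) i‖ ≤ C := by
      obtain ⟨C0, hC0⟩ := hb (1, 0) 0 0 le_rfl
      exact ⟨√C0, fun n i => by
        rw [norm_S]; exact (norm_le_sqrt_L2 (hx n 0) i).trans (Real.sqrt_le_sqrt (hC0 n))⟩
    obtain ⟨C, hC⟩ := hC
    have hSlim : ∀ i, Tendsto (fun n => S (x n) i) atTop (𝓝 (S ν i)) := by
      intro i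
      simp only [S]
      split_ifs
      · exact ((Complex.continuous_conj.tendsto _).comp (hν 0)).neg
      · exact (hν i).const_mul _
    have hlim : Tendsto (fun n => x (n + 1) k) atTop (𝓝 (f k + conv m (S ν) k)) := by
      simp only [hxs, Pi.add_apply]
      refine tendsto_const_nhds.add ?_
      refine tendsto_tsum_of_dominated_convergence
        ((summable_norm_of_N (hm 0)).mul_right C) (fun i => (hSlim (k - i)).const_mul (m i))
        (.of_forall fun n i => ?_)
      rw [norm_mul]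
      exact mul_le_mul_of_nonneg_left (hC n _) (norm_nonneg _)
    exact tendsto_nhds_unique ((hν k).comp (tendsto_add_atTop_nat 1)) hlim

end Vale.Agent.P205.Beltrami
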