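import Mathlib

/-!
# Weighted ℓ¹ coefficient sequences on ℤ² (P205)

`N n c = ∑ (wt k)^n ‖c k‖` in `ℝ≥0∞`; convolution, multipliers, and the tame product bound.
-/

noncomputable section

open scoped ENNReal NNReal ComplexConjugate

namespace Vale.Agent.P205

abbrev Freq := ℤ × ℤ
abbrev Seq := Freq → ℂ

/-- Weight `1 + |m| + |n|`. -/
def wt (k : Freq) : ℝ≥0∞ := ((1 + k.1.natAbs + k.2.natAbs : ℕ) : ℝ≥0∞)

def N (n : ℕ) (c : Seq) : ℝ≥0∞ := ∑' k, wt k ^ n * ‖c k‖ₑ

def conv (c d : Seq) : Seq := fun k => ∑' j, c j * d (k - j)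

/-- Fourier multiplier. -/
def mult (μ : Freq → ℂ) (c : Seq) : Seq := fun k => μ k * c k

/-- Coefficients of a constant. -/
def kron (a : ℂ) : Seq := fun k => if k = 0 then a else 0

/-- Coefficient sequence of a real-valued function. -/
def Herm (c : Seq) : Prop := ∀ k, c (-k) = conj (c k)

theorem one_le_wt (k : Freq) : 1 ≤ wt k := by
  simp only [wt, Nat.one_le_cast]
  omega

theorem wt_add_le (a b : Freq) : wt (a + b) ≤ wt a + wt b := by
  simp only [wt, ← Nat.cast_add, Nat.cast_le, Prod.fst_add, Prod.snd_add]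
  have h1 := Int.natAbs_add_le a.1 b.1
  have h2 := Int.natAbs_add_le a.2 b.2
  omega

theorem nat_binom_bound (n x y : ℕ) (hx : 1 ≤ x) (hy : 1 ≤ y) (hn : 2 ≤ n) :
    (x + y) ^ n ≤ x ^ n + y ^ n + 2 ^ n * (x ^ (n - 1) * y + x * y ^ (n - 1)) := by
  obtain ⟨m, rfl⟩ : ∃ m, n = m + 1 := ⟨n - 1, by omega⟩
  rw [add_pow, Finset.sum_range_succ, Finset.sum_range_succ']
  simp only [Nat.add_sub_cancel, pow_zero, one_mul, Nat.choose_zero_right, mul_one,
    Nat.choose_self, Nat.sub_self, Nat.sub_zero, Nat.cast_one, Nat.cast_id]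
  have key : ∀ i ∈ Finset.range m, x ^ (i + 1) * y ^ (m + 1 - (i + 1)) * (m + 1).choose (i + 1)
      ≤ (x ^ m * y + x * y ^ m) * (m + 1).choose (i + 1) := by
    intro i hi
    rw [Finset.mem_range] at hi
    refine Nat.mul_le_mul_right _ ?_
    rcases le_total x y with h | h
    · refine le_trans ?_ (Nat.le_add_left _ _)
      calc x ^ (i + 1) * y ^ (m + 1 - (i + 1)) = x * (x ^ i * y ^ (m - i)) := by
            rw [show m + 1 - (i + 1) = m - i by omega]; ring
        _ ≤ x * (y ^ i * y ^ (m - i)) := by gcongr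
        _ = x * y ^ m := by rw [← pow_add, show i + (m - i) = m by omega]
    · refine le_trans ?_ (Nat.le_add_right _ _)
      calc x ^ (i + 1) * y ^ (m + 1 - (i + 1)) = x ^ (i + 1) * y ^ (m - i - 1) * y := by
            rw [show m + 1 - (i + 1) = (m - i - 1) + 1 by omega]; ring
        _ ≤ x ^ (i + 1) * x ^ (m - i - 1) * y := by gcongr
        _ = x ^ m * y := by rw [← pow_add, show i + 1 + (m - i - 1) = m by omega]
  have hsum : ∑ i ∈ Finset.range m, (m + 1).choose (i + 1) ≤ 2 ^ (m + 1) := by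
    have h := Nat.sum_range_choose (m + 1)
    rw [Finset.sum_range_succ', Finset.sum_range_succ] at h
    omega
  have := Finset.sum_le_sum key
  rw [← Finset.mul_sum] at this
  nlinarith [Nat.mul_le_mul_left (x ^ m * y + x * y ^ m) hsum]

theorem wt_pow_add_le (n : ℕ) (hn : 2 ≤ n) (a b : Freq) :
    wt (a + b) ^ n ≤ wt a ^ n + wt b ^ n
      + 2 ^ n * (wt a ^ (n - 1) * wt b + wt a * wt b ^ (n - 1)) := by
  refine le_trans (pow_le_pow_left' (wt_add_le a b) n) ?_
  simp only [wt]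
  exact_mod_cast nat_binom_bound n _ _ (by omega) (by omega) hn

theorem tsum_conv_le (f g : Freq → ℝ≥0∞) :
    (∑' k, ∑' j, f j * g (k - j)) = (∑' j, f j) * ∑' i, g i := by
  rw [ENNReal.tsum_comm]
  simp_rw [ENNReal.tsum_mul_left]
  rw [← ENNReal.tsum_mul_right]
  exact tsum_congr fun j => congrArg _ ((Equiv.subRight j).tsum_eq g)

theorem enorm_conv_le (c d : Seq) (k : Freq) : ‖conv c d k‖ₑ ≤ ∑' j, ‖c j‖ₑ * ‖d (k - j)‖ₑ := by
  refine le_trans enorm_tsum_le_tsum_enorm ?_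
  exact le_of_eq (tsum_congr fun j => enorm_mul _ _)

theorem N_conv_zero (c d : Seq) : N 0 (conv c d) ≤ N 0 c * N 0 d := by
  simp only [N, pow_zero, one_mul]
  exact le_trans (ENNReal.tsum_le_tsum (enorm_conv_le c d)) (tsum_conv_le _ _).le

theorem N_conv_one (c d : Seq) : N 1 (conv c d) ≤ N 1 c * N 0 d + N 0 c * N 1 d := by
  calc N 1 (conv c d)
      ≤ ∑' k, ∑' j, (wt j * ‖c j‖ₑ * ‖d (k - j)‖ₑ + ‖c j‖ₑ * (wt (k - j) * ‖d (k - j)‖ₑ)) := by
        refine ENNReal.tsum_le_tsum fun k => ?_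
        refine le_trans (mul_le_mul_right (enorm_conv_le c d k) _) ?_
        rw [← ENNReal.tsum_mul_left]
        refine ENNReal.tsum_le_tsum fun j => ?_
        have h := wt_add_le j (k - j)
        rw [add_sub_cancel] at h
        calc wt k ^ 1 * (‖c j‖ₑ * ‖d (k - j)‖ₑ)
            ≤ (wt j + wt (k - j)) * (‖c j‖ₑ * ‖d (k - j)‖ₑ) := by rw [pow_one]; gcongr
          _ = _ := by ring
    _ = _ := by
        simp only [ENNReal.tsum_add, N, pow_zero, one_mul, pow_one]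
        rw [tsum_conv_le (fun j => wt j * ‖c j‖ₑ) (fun i => ‖d i‖ₑ),
          tsum_conv_le (fun j => ‖c j‖ₑ) (fun i => wt i * ‖d i‖ₑ)]

theorem N_conv_le (n : ℕ) (hn : 2 ≤ n) (c d : Seq) :
    N n (conv c d) ≤ N n c * N 0 d + N 0 c * N n d
      + 2 ^ n * (N (n - 1) c * N 1 d + N 1 c * N (n - 1) d) := by
  calc N n (conv c d)
      ≤ ∑' k, ∑' j, (wt j ^ n * ‖c j‖ₑ * ‖d (k - j)‖ₑ + ‖c j‖ₑ * (wt (k - j) ^ n * ‖d (k - j)‖ₑ)
          + 2 ^ n * (wt j ^ (n - 1) * ‖c j‖ₑ * (wt (k - j) * ‖d (k - j)‖ₑ)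
            + wt j * ‖c j‖ₑ * (wt (k - j) ^ (n - 1) * ‖d (k - j)‖ₑ))) := by
        refine ENNReal.tsum_le_tsum fun k => ?_
        refine le_trans (mul_le_mul_right (enorm_conv_le c d k) _) ?_
        rw [← ENNReal.tsum_mul_left]
        refine ENNReal.tsum_le_tsum fun j => ?_
        have h := wt_pow_add_le n hn j (k - j)
        rw [add_sub_cancel] at h
        refine le_trans (mul_le_mul_left h _) (le_of_eq ?_)
        ring
    _ = _ := by
        simp only [ENNReal.tsum_add, ENNReal.tsum_mul_left, N, pow_zero, one_mul, pow_one]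
        rw [tsum_conv_le (fun j => wt j ^ n * ‖c j‖ₑ) (fun i => ‖d i‖ₑ),
          tsum_conv_le (fun j => ‖c j‖ₑ) (fun i => wt i ^ n * ‖d i‖ₑ),
          tsum_conv_le (fun j => wt j ^ (n - 1) * ‖c j‖ₑ) (fun i => wt i * ‖d i‖ₑ),
          tsum_conv_le (fun j => wt j * ‖c j‖ₑ) (fun i => wt i ^ (n - 1) * ‖d i‖ₑ)]

theorem N_add (n : ℕ) (c d : Seq) : N n (c + d) ≤ N n c + N n d := by
  simp only [N]
  rw [← ENNReal.tsum_add]
  refine ENNReal.tsum_le_tsum fun k => ?_
  rw [← mul_add]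
  exact mul_le_mul_right (enorm_add_le (c k) (d k)) _

theorem N_neg (n : ℕ) (c : Seq) : N n (-c) = N n c := by
  simp [N]

theorem N_sub_comm (n : ℕ) (c d : Seq) : N n (c - d) = N n (d - c) := by
  rw [← N_neg, neg_sub]

theorem N_mult (n : ℕ) (μ : Freq → ℂ) (c : Seq) {K : ℝ≥0∞} (hK : ∀ k, ‖μ k‖ₑ ≤ K) :
    N n (mult μ c) ≤ K * N n c := by
  simp only [N, mult, enorm_mul]
  rw [← ENNReal.tsum_mul_left]
  refine ENNReal.tsum_le_tsum fun k => ?_
  calc wt k ^ n * (‖μ k‖ₑ * ‖c k‖ₑ) ≤ wt k ^ n * (K * ‖c k‖ₑ) := by gcongr; exact hK k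
    _ = _ := by ring

theorem N_mono {m n : ℕ} (h : m ≤ n) (c : Seq) : N m c ≤ N n c :=
  ENNReal.tsum_le_tsum fun k => mul_le_mul_left (pow_le_pow_right' (one_le_wt k) h) _

theorem N_kron (n : ℕ) (a : ℂ) : N n (kron a) = ‖a‖ₑ := by
  simp only [N, kron]
  rw [tsum_eq_single 0]
  · simp [wt]
  · intro k hk; simp [hk]

theorem summable_of_N {c : Seq} (h : N 0 c ≠ ∞) : Summable c := by
  apply Summable.of_norm
  simp only [N, pow_zero, one_mul] at h
  simpa [toReal_enorm] using ENNReal.summable_toReal h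

theorem herm_conv {c d : Seq} (hc : Herm c) (hd : Herm d) : Herm (conv c d) := by
  intro k
  simp only [conv, Complex.conj_tsum, map_mul]
  rw [← (Equiv.neg Freq).tsum_eq fun j => c j * d (-k - j)]
  refine tsum_congr fun j => ?_
  simp only [Equiv.neg_apply]
  rw [← hc j, ← hd (k - j)]
  congr 2
  abel

theorem herm_kron (a : ℝ) : Herm (kron a) := by
  intro k
  simp only [kron, neg_eq_zero]
  split <;> simp

theorem herm_mult {μ : Freq → ℂ} {c : Seq} (hμ : Herm μ) (hc : Herm c) : Herm (mult μ c) := by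
  intro k; simp [mult, hμ k, hc k]

theorem conv_sub_left {c c' d : Seq} (hc : N 0 c ≠ ∞) (hc' : N 0 c' ≠ ∞) (hd : N 0 d ≠ ∞) :
    conv (c - c') d = conv c d - conv c' d := by
  funext k
  have hs : ∀ e : Seq, N 0 e ≠ ∞ → Summable fun j => e j * d (k - j) := by
    intro e he
    apply Summable.of_norm
    have : (∑' j, ‖e j * d (k - j)‖ₑ) ≠ ∞ := by
      refine ne_top_of_le_ne_top (ENNReal.mul_ne_top he hd) ?_
      calc (∑' j, ‖e j * d (k - j)‖ₑ) ≤ ∑' k, ∑' j, ‖e j‖ₑ * ‖d (k - j)‖ₑ := by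
            simp only [enorm_mul]
            exact ENNReal.le_tsum (f := fun k => ∑' j, ‖e j‖ₑ * ‖d (k - j)‖ₑ) k
        _ = _ := by rw [tsum_conv_le (fun j => ‖e j‖ₑ) (fun i => ‖d i‖ₑ)]; simp [N]
    simpa [toReal_enorm] using ENNReal.summable_toReal this
  simp only [conv, Pi.sub_apply, sub_mul]
  exact (hs c hc).tsum_sub (hs c' hc')

theorem conv_comm (c d : Seq) : conv c d = conv d c := by
  funext k
  simp only [conv]
  rw [← (Equiv.subLeft k).tsum_eq fun j => c j * d (k - j)]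
  refine tsum_congr fun j => ?_
  simp [Equiv.subLeft_apply, mul_comm]

theorem conv_sub_right {c d d' : Seq} (hc : N 0 c ≠ ∞) (hd : N 0 d ≠ ∞) (hd' : N 0 d' ≠ ∞) :
    conv c (d - d') = conv c d - conv c d' := by
  rw [conv_comm, conv_sub_left hd hd' hc, conv_comm d, conv_comm d']

end Vale.Agent.P205
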