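import Vale.Agent.P205.Full.Eval

/-!
# Developing map of a flat coframe on the torus, near the constant one (P205)
-/

noncomputable section

open scoped ContDiff Interval
open Real MeasureTheory

namespace Vale.Agent.P205

/-- The first period of the developing map. -/
def period₁ (au : ℝ × ℝ → ℝ) (U₁ : ℝ × ℝ → ℂ) : ℂ :=
  ∫ t in (0 : ℝ)..(2 * π),
    Complex.exp (((∫ s in (0 : ℝ)..t, au (s, 0) : ℝ) : ℂ) * Complex.I) * U₁ (t, 0)

section Potential

variable {E : Type*} [NormedAddCommGroup E] [NormedSpace ℝ E] [CompleteSpace E]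

/-- Potential of the one-form `f du + g dv`. -/
def pot (f g : ℝ × ℝ → E) (z : ℝ × ℝ) : E :=
  (∫ t in (0 : ℝ)..z.1, f (t, 0)) + ∫ s in (0 : ℝ)..z.2, g (z.1, s)

omit [CompleteSpace E] in
theorem slice_fst {f : ℝ × ℝ → E} (hf : Differentiable ℝ f) (u v : ℝ) :
    HasDerivAt (fun t => f (t, v)) (fderiv ℝ f (u, v) (1, 0)) u :=
  (hf (u, v)).hasFDerivAt.comp_hasDerivAt u ((hasDerivAt_id' u).prodMk (hasDerivAt_const u v))

omit [CompleteSpace E] in
theorem slice_snd {f : ℝ × ℝ → E} (hf : Differentiable ℝ f) (u v : ℝ) :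
    HasDerivAt (fun t => f (u, t)) (fderiv ℝ f (u, v) (0, 1)) v :=
  (hf (u, v)).hasFDerivAt.comp_hasDerivAt v ((hasDerivAt_const v u).prodMk (hasDerivAt_id' v))

omit [CompleteSpace E] in
theorem continuous_fderiv_dir {f : ℝ × ℝ → E} (hf : ContDiff ℝ ∞ f) (a : ℝ × ℝ) :
    Continuous fun z => fderiv ℝ f z a :=
  (hf.continuous_fderiv (by simp)).clm_apply continuous_const

omit [CompleteSpace E] in
theorem swap_of_continuous {h : ℝ × ℝ → E} (hh : Continuous h) (a b c d : ℝ) :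
    (∫ x in a..b, ∫ y in c..d, h (x, y)) = ∫ y in c..d, ∫ x in a..b, h (x, y) := by
  refine intervalIntegral_intervalIntegral_swap (F := fun x y => h (x, y)) ?_
  exact (hh.continuousOn.integrableOn_compact (isCompact_uIcc.prod isCompact_uIcc)).mono_set
    (Set.prod_mono Set.uIoc_subset_uIcc Set.uIoc_subset_uIcc)

theorem pot_eq {f g : ℝ × ℝ → E} (hf : ContDiff ℝ ∞ f) (hg : ContDiff ℝ ∞ g)
    (hcl : ∀ z, fderiv ℝ f z (0, 1) = fderiv ℝ g z (1, 0)) (z : ℝ × ℝ) :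
    pot f g z = (∫ s in (0 : ℝ)..z.2, g (0, s)) + ∫ t in (0 : ℝ)..z.1, f (t, z.2) := by
  have cf := hf.continuous
  have cg := hg.continuous
  have dg := continuous_fderiv_dir hg (1, 0)
  have df := continuous_fderiv_dir hf (0, 1)
  have h1 : ∀ s, g (z.1, s) - g (0, s) = ∫ t in (0 : ℝ)..z.1, fderiv ℝ g (t, s) (1, 0) := fun s =>
    (intervalIntegral.integral_eq_sub_of_hasDerivAt
      (fun t _ => slice_fst (hg.differentiable (by simp)) t s)
      ((dg.comp (by fun_prop)).intervalIntegrable _ _)).symm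
  have h2 : ∀ t, f (t, z.2) - f (t, 0) = ∫ s in (0 : ℝ)..z.2, fderiv ℝ f (t, s) (0, 1) := fun t =>
    (intervalIntegral.integral_eq_sub_of_hasDerivAt
      (fun s _ => slice_snd (hf.differentiable (by simp)) t s)
      ((df.comp (by fun_prop)).intervalIntegrable _ _)).symm
  have key : (∫ s in (0 : ℝ)..z.2, (g (z.1, s) - g (0, s)))
      = ∫ t in (0 : ℝ)..z.1, (f (t, z.2) - f (t, 0)) := by
    simp only [h1, h2, hcl]
    exact (swap_of_continuous dg 0 z.1 0 z.2).symm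
  have ig : ∀ x, IntervalIntegrable (fun s => g (x, s)) volume 0 z.2 := fun x =>
    (cg.comp (by fun_prop)).intervalIntegrable _ _
  have jf : ∀ y, IntervalIntegrable (fun t => f (t, y)) volume 0 z.1 := fun y =>
    (cf.comp (by fun_prop)).intervalIntegrable _ _
  rw [intervalIntegral.integral_sub (ig _) (ig _),
    intervalIntegral.integral_sub (jf _) (jf _)] at key
  simp only [pot]
  rw [sub_eq_sub_iff_add_eq_add] at key
  rw [add_comm, key, add_comm]

theorem pot_hasFDerivAt {f g : ℝ × ℝ → E} (hf : ContDiff ℝ ∞ f) (hg : ContDiff ℝ ∞ g)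
    (hcl : ∀ z, fderiv ℝ f z (0, 1) = fderiv ℝ g z (1, 0)) (z : ℝ × ℝ) :
    HasFDerivAt (pot f g) ((ContinuousLinearMap.fst ℝ ℝ ℝ).smulRight (f z)
      + (ContinuousLinearMap.snd ℝ ℝ ℝ).smulRight (g z)) z := by
  have cf := hf.continuous
  have cg := hg.continuous
  have h := hasStrictFDerivAt_uncurry_coprod (𝕜 := ℝ) (u := z) (f := fun x y => pot f g (x, y))
    (f₁ := fun x y => ContinuousLinearMap.smulRight (1 : ℝ →L[ℝ] ℝ) (f (x, y)))
    (f₂ := fun x y => ContinuousLinearMap.smulRight (1 : ℝ →L[ℝ] ℝ) (g (x, y)))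
    (Filter.Eventually.of_forall fun w => ?_) (Filter.Eventually.of_forall fun w => ?_) ?_ ?_
  · refine h.hasFDerivAt.congr_fderiv (ContinuousLinearMap.ext fun a => ?_)
    simp [Function.HasUncurry.uncurry]
  · have : HasDerivAt (fun x => pot f g (x, w.2)) (f w) w.1 := by
      simp only [pot_eq hf hg hcl]
      exact (intervalIntegral.integral_hasDerivAt_right
        ((cf.comp (by fun_prop)).intervalIntegrable _ _)
        ((cf.comp (by fun_prop : Continuous fun t => (t, w.2))).stronglyMeasurableAtFilter _ _)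
        (cf.comp (by fun_prop : Continuous fun t => (t, w.2))).continuousAt).const_add _
    exact this.hasFDerivAt
  · have : HasDerivAt (fun y => pot f g (w.1, y)) (g w) w.2 := by
      simp only [pot]
      exact (intervalIntegral.integral_hasDerivAt_right
        ((cg.comp (by fun_prop)).intervalIntegrable _ _)
        ((cg.comp (by fun_prop : Continuous fun t => (w.1, t))).stronglyMeasurableAtFilter _ _)
        (cg.comp (by fun_prop : Continuous fun t => (w.1, t))).continuousAt).const_add _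
    exact this.hasFDerivAt
  · exact (((ContinuousLinearMap.smulRightL ℝ ℝ E (1 : ℝ →L[ℝ] ℝ)).continuous.comp cf)).continuousAt
  · exact (((ContinuousLinearMap.smulRightL ℝ ℝ E (1 : ℝ →L[ℝ] ℝ)).continuous.comp cg)).continuousAt

theorem pot_fderiv {f g : ℝ × ℝ → E} (hf : ContDiff ℝ ∞ f) (hg : ContDiff ℝ ∞ g)
    (hcl : ∀ z, fderiv ℝ f z (0, 1) = fderiv ℝ g z (1, 0)) (z a : ℝ × ℝ) :
    fderiv ℝ (pot f g) z a = a.1 • f z + a.2 • g z := by
  rw [(pot_hasFDerivAt hf hg hcl z).fderiv]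
  simp

theorem pot_smooth {f g : ℝ × ℝ → E} (hf : ContDiff ℝ ∞ f) (hg : ContDiff ℝ ∞ g)
    (hcl : ∀ z, fderiv ℝ f z (0, 1) = fderiv ℝ g z (1, 0)) : ContDiff ℝ ∞ (pot f g) := by
  rw [contDiff_infty_iff_fderiv]
  refine ⟨fun z => (pot_hasFDerivAt hf hg hcl z).differentiableAt, ?_⟩
  rw [funext fun z => (pot_hasFDerivAt hf hg hcl z).fderiv]
  exact (contDiff_const.smulRight hf).add (contDiff_const.smulRight hg)

/-- Periods of the potential of a periodic closed form. -/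
theorem pot_periods {f g : ℝ × ℝ → E} (hf : ContDiff ℝ ∞ f) (hg : ContDiff ℝ ∞ g)
    (hcl : ∀ z, fderiv ℝ f z (0, 1) = fderiv ℝ g z (1, 0)) (pf : Per f) (pg : Per g) (u v : ℝ) :
    pot f g (u + 2 * π, v) = pot f g (u, v) + (∫ t in (0 : ℝ)..(2 * π), f (t, 0)) ∧
      pot f g (u, v + 2 * π) = pot f g (u, v) + ∫ s in (0 : ℝ)..(2 * π), g (0, s) := by
  have hd := pot_hasFDerivAt hf hg hcl
  have shift : ∀ w : ℝ × ℝ, (∀ z, f (z + w) = f z) → (∀ z, g (z + w) = g z) →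
      ∀ z, pot f g (z + w) - pot f g z = pot f g w - pot f g 0 := by
    intro w hfw hgw z
    have hD : ∀ x, HasFDerivAt (fun y => pot f g (y + w) - pot f g y)
        (0 : ℝ × ℝ →L[ℝ] E) x := fun x => by
      have h1 := (hd (x + w)).comp x ((hasFDerivAt_id x).add_const w)
      refine (h1.fun_sub (hd x)).congr_fderiv ?_
      simp [hfw, hgw]
    have h2 := is_const_of_fderiv_eq_zero (fun x => (hD x).differentiableAt)
      (fun x => (hD x).fderiv) z 0
    simpa using h2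
  have h0 : pot f g (0 : ℝ × ℝ) = 0 := by simp [pot]
  have hw1 := shift (2 * π, 0) (fun z => by obtain ⟨a, b⟩ := z; simpa using (pf a b).1)
    (fun z => by obtain ⟨a, b⟩ := z; simpa using (pg a b).1) (u, v)
  have hw2 := shift (0, 2 * π) (fun z => by obtain ⟨a, b⟩ := z; simpa using (pf a b).2)
    (fun z => by obtain ⟨a, b⟩ := z; simpa using (pg a b).2) (u, v)
  rw [h0, sub_zero, sub_eq_iff_eq_add', Prod.mk_add_mk, add_zero] at hw1 hw2
  refine ⟨hw1.trans ?_, hw2.trans ?_⟩ <;> simp [pot]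

end Potential

theorem norm_expI_mul_sub_le (x : ℝ) (U a : ℂ) :
    ‖Complex.exp ((x : ℂ) * Complex.I) * U - a‖ ≤ ‖U - a‖ + |x| * ‖a‖ := by
  have h : Complex.exp ((x : ℂ) * Complex.I) * U - a
      = Complex.exp ((x : ℂ) * Complex.I) * (U - a)
        + (Complex.exp (Complex.I * (x : ℂ)) - 1) * a := by
    rw [mul_comm Complex.I (x : ℂ)]; ring
  rw [h]
  refine (norm_add_le _ _).trans (add_le_add ?_ ?_)
  · rw [norm_mul, Complex.norm_exp_ofReal_mul_I, one_mul]
  · rw [norm_mul]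
    exact mul_le_mul_of_nonneg_right
      (Real.norm_exp_I_mul_ofReal_sub_one_le.trans_eq (Real.norm_eq_abs x)) (norm_nonneg _)

theorem norm_integral_sub_le {h : ℝ → ℂ} (hh : Continuous h) {a : ℂ} {e : ℝ}
    (hb : ∀ t ∈ Ι (0 : ℝ) (2 * π), ‖h t - a‖ ≤ e) :
    ‖(∫ t in (0 : ℝ)..(2 * π), h t) - 2 * π * a‖ ≤ 2 * π * e := by
  have := intervalIntegral.norm_integral_le_of_norm_le_const hb
  rw [intervalIntegral.integral_sub (hh.intervalIntegrable _ _) (by simp),
    intervalIntegral.integral_const, sub_zero, abs_of_pos Real.two_pi_pos, Complex.real_smul,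
    mul_comm e] at this
  push_cast at this
  exact this

/-- The frame rotated by a phase. -/
def twist (φ : ℝ × ℝ → ℝ) (U : ℝ × ℝ → ℂ) (z : ℝ × ℝ) : ℂ :=
  Complex.exp ((φ z : ℂ) * Complex.I) * U z

theorem twist_smooth {φ : ℝ × ℝ → ℝ} {U : ℝ × ℝ → ℂ} (hφ : ContDiff ℝ ∞ φ)
    (hU : ContDiff ℝ ∞ U) : ContDiff ℝ ∞ (twist φ U) :=
  (((Complex.ofRealCLM.contDiff.comp hφ).mul contDiff_const).cexp).mul hU

theorem twist_fderiv {φ : ℝ × ℝ → ℝ} {U : ℝ × ℝ → ℂ} (hφ : ContDiff ℝ ∞ φ)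
    (hU : ContDiff ℝ ∞ U) (z a : ℝ × ℝ) :
    fderiv ℝ (twist φ U) z a = Complex.exp ((φ z : ℂ) * Complex.I)
      * (fderiv ℝ U z a + Complex.I * (fderiv ℝ φ z a : ℂ) * U z) := by
  have h1 : HasFDerivAt (fun y => (φ y : ℂ)) (Complex.ofRealCLM.comp (fderiv ℝ φ z)) z :=
    Complex.ofRealCLM.hasFDerivAt.comp z (hφ.differentiable (by simp) z).hasFDerivAt
  have h2 := ((h1.mul_const Complex.I).cexp).mul (hU.differentiable (by simp) z).hasFDerivAt
  have hfd : fderiv ℝ (twist φ U) z = _ := HasFDerivAt.fderiv (f := twist φ U) h2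
  rw [hfd]
  simp
  ring

theorem twist_per {φ : ℝ × ℝ → ℝ} {U : ℝ × ℝ → ℂ} (pφ : Per φ) (pU : Per U) :
    Per (twist φ U) := fun u v => by simp [twist, pφ u v, pU u v]

/-- The square integrals of a closed periodic form after subtracting a constant connection. -/
theorem period_relation {W₁ W₂ : ℝ × ℝ → ℂ} {γu γv : ℂ} (h₁ : ContDiff ℝ ∞ W₁)
    (h₂ : ContDiff ℝ ∞ W₂) (p₁ : Per W₁) (p₂ : Per W₂)
    (h : ∀ z, fderiv ℝ W₂ z (1, 0) - fderiv ℝ W₁ z (0, 1) = γu * W₂ z - γv * W₁ z) :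
    γu * (∫ v in (0 : ℝ)..(2 * π), ∫ u in (0 : ℝ)..(2 * π), W₂ (u, v))
      = γv * ∫ v in (0 : ℝ)..(2 * π), ∫ u in (0 : ℝ)..(2 * π), W₁ (u, v) := by
  have c1 := h₁.continuous
  have c2 := h₂.continuous
  have d1 := continuous_fderiv_dir h₁ (0, 1)
  have d2 := continuous_fderiv_dir h₂ (1, 0)
  have z2 : (∫ v in (0 : ℝ)..(2 * π), ∫ u in (0 : ℝ)..(2 * π), fderiv ℝ W₂ (u, v) (1, 0)) = 0 := by
    have : ∀ v, (∫ u in (0 : ℝ)..(2 * π), fderiv ℝ W₂ (u, v) (1, 0)) = 0 := fun v => by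
      rw [intervalIntegral.integral_eq_sub_of_hasDerivAt
        (fun t _ => slice_fst (h₂.differentiable (by simp)) t v)
        ((d2.comp (by fun_prop)).intervalIntegrable _ _)]
      rw [sub_eq_zero]
      simpa using (p₂ 0 v).1
    simp [this]
  have z1 : (∫ v in (0 : ℝ)..(2 * π), ∫ u in (0 : ℝ)..(2 * π), fderiv ℝ W₁ (u, v) (0, 1)) = 0 := by
    rw [← swap_of_continuous d1]
    have : ∀ u, (∫ v in (0 : ℝ)..(2 * π), fderiv ℝ W₁ (u, v) (0, 1)) = 0 := fun u => by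
      rw [intervalIntegral.integral_eq_sub_of_hasDerivAt
        (fun t _ => slice_snd (h₁.differentiable (by simp)) u t)
        ((d1.comp (by fun_prop)).intervalIntegrable _ _)]
      rw [sub_eq_zero]
      simpa using (p₁ u 0).2
    simp [this]
  have hin : ∀ {H : ℝ × ℝ → ℂ}, Continuous H →
      Continuous fun v => ∫ u in (0 : ℝ)..(2 * π), H (u, v) := fun hH =>
    intervalIntegral.continuous_parametric_intervalIntegral_of_continuous' (by fun_prop) _ _
  have hsplit : (∫ v in (0 : ℝ)..(2 * π), ∫ u in (0 : ℝ)..(2 * π),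
      (γu * W₂ (u, v) - γv * W₁ (u, v))) = 0 := by
    simp only [← h]
    rw [intervalIntegral.integral_congr (g := fun v =>
        (∫ u in (0 : ℝ)..(2 * π), fderiv ℝ W₂ (u, v) (1, 0))
          - ∫ u in (0 : ℝ)..(2 * π), fderiv ℝ W₁ (u, v) (0, 1))
        (fun v _ => intervalIntegral.integral_sub
          ((d2.comp (by fun_prop : Continuous fun u => (u, v))).intervalIntegrable _ _)
          ((d1.comp (by fun_prop : Continuous fun u => (u, v))).intervalIntegrable _ _)),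
      intervalIntegral.integral_sub ((hin d2).intervalIntegrable _ _)
        ((hin d1).intervalIntegrable _ _), z1, z2, sub_zero]
  rw [intervalIntegral.integral_congr (g := fun v =>
      γu * (∫ u in (0 : ℝ)..(2 * π), W₂ (u, v)) - γv * ∫ u in (0 : ℝ)..(2 * π), W₁ (u, v))
      (fun v _ => by
        simp only
        have i2 : IntervalIntegrable (fun u => γu * W₂ (u, v)) volume 0 (2 * π) :=
          Continuous.intervalIntegrable (by fun_prop) _ _
        have i1 : IntervalIntegrable (fun u => γv * W₁ (u, v)) volume 0 (2 * π) :=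
          Continuous.intervalIntegrable (by fun_prop) _ _
        rw [intervalIntegral.integral_sub i2 i1,
          intervalIntegral.integral_const_mul, intervalIntegral.integral_const_mul]),
    intervalIntegral.integral_sub (((hin c2).const_mul _).intervalIntegrable _ _)
      (((hin c1).const_mul _).intervalIntegrable _ _),
    intervalIntegral.integral_const_mul, intervalIntegral.integral_const_mul, sub_eq_zero] at hsplit
  exact hsplit

theorem abs_integral_le {f : ℝ → ℝ} {δ x : ℝ} (hδ : 0 ≤ δ) (hb : ∀ t, |f t| ≤ δ)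
    (hx : x ∈ Set.Icc (0 : ℝ) (2 * π)) : |∫ t in (0 : ℝ)..x, f t| ≤ 2 * π * δ := by
  have h := intervalIntegral.norm_integral_le_of_norm_le_const (a := (0 : ℝ)) (b := x)
    (f := f) (C := δ) fun t _ => by simpa using hb t
  rw [sub_zero, abs_of_nonneg hx.1, Real.norm_eq_abs] at h
  nlinarith [hx.2]

/-- The phase of a near-constant flat coframe has no periods. -/
theorem phase_periodic {b c : ℝ} (hc : 0 < c) {au av : ℝ × ℝ → ℝ} {U₁ U₂ : ℝ × ℝ → ℂ} {δ : ℝ}
    (hau : ContDiff ℝ ∞ au) (hav : ContDiff ℝ ∞ av) (hU₁ : ContDiff ℝ ∞ U₁)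
    (hU₂ : ContDiff ℝ ∞ U₂) (pau : Per au) (pav : Per av) (pU₁ : Per U₁) (pU₂ : Per U₂)
    (hθc : ∀ z, fderiv ℝ au z (0, 1) = fderiv ℝ av z (1, 0))
    (hflat : ∀ z, fderiv ℝ U₂ z (1, 0) - fderiv ℝ U₁ z (0, 1)
      + Complex.I * ((au z : ℂ) * U₂ z - (av z : ℂ) * U₁ z) = 0)
    (hδ₀ : δ ≤ c / (2 * (1 + |b| + c) * (1 + 8 * π * (1 + ‖(b : ℂ) + c * Complex.I‖))))
    (bau : ∀ z, |au z| ≤ δ) (bav : ∀ z, |av z| ≤ δ) (bU₁ : ∀ z, ‖U₁ z - 1‖ ≤ δ)
    (bU₂ : ∀ z, ‖U₂ z - (b + c * Complex.I)‖ ≤ δ) :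
    Per (pot au av) ∧ ∀ u v, u ∈ Set.Icc (0 : ℝ) (2 * π) → v ∈ Set.Icc (0 : ℝ) (2 * π) →
      |pot au av (u, v)| ≤ 4 * π * δ := by
  set a₂ : ℂ := (b : ℂ) + c * Complex.I with ha₂
  set K : ℝ := 1 + 8 * π * (1 + ‖a₂‖) with hK
  set M : ℝ := 1 + |b| + c with hM
  have hKpos : 0 < K := by rw [hK]; positivity
  have hMpos : 0 < M := by rw [hM]; positivity
  have hδ : 0 ≤ δ := le_trans (abs_nonneg _) (bau (0, 0))
  set θ := pot au av with hθ
  have hθd : ContDiff ℝ ∞ θ := pot_smooth hau hav hθc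
  set Cu := ∫ t in (0 : ℝ)..(2 * π), au (t, 0) with hCu
  set Cv := ∫ s in (0 : ℝ)..(2 * π), av (0, s) with hCv
  have hper := pot_periods hau hav hθc pau pav
  have hI : (2 * π) ∈ Set.Icc (0 : ℝ) (2 * π) := ⟨Real.two_pi_pos.le, le_rfl⟩
  have bCu : |Cu| ≤ 2 * π * δ := abs_integral_le hδ (fun t => bau _) hI
  have bCv : |Cv| ≤ 2 * π * δ := abs_integral_le hδ (fun t => bav _) hI
  have bθ : ∀ u v, u ∈ Set.Icc (0 : ℝ) (2 * π) → v ∈ Set.Icc (0 : ℝ) (2 * π) →
      |θ (u, v)| ≤ 4 * π * δ := fun u v hu hv => by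
    have h1 := abs_integral_le hδ (fun t => bau (t, 0)) hu
    have h2 := abs_integral_le hδ (fun t => bav (u, t)) hv
    simp only [hθ, pot]
    linarith [abs_add_le (∫ t in (0 : ℝ)..u, au (t, 0)) (∫ s in (0 : ℝ)..v, av (u, s))]
  set gu := Cu / (2 * π) with hgu
  set gv := Cv / (2 * π) with hgv
  set φ : ℝ × ℝ → ℝ := fun z => θ z - gu * z.1 - gv * z.2 with hφ
  have hφd : ContDiff ℝ ∞ φ :=
    (hθd.sub (contDiff_const.mul contDiff_fst)).sub (contDiff_const.mul contDiff_snd)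
  have pφ : Per φ := fun u v => by
    constructor
    · simp only [hφ, hθ, (hper u v).1, ← hCu, hgu]
      field_simp
      ring
    · simp only [hφ, hθ, (hper u v).2, ← hCv, hgv]
      field_simp
      ring
  have dφ : ∀ z a, fderiv ℝ φ z a = a.1 * (au z - gu) + a.2 * (av z - gv) := fun z a => by
    have h := ((pot_hasFDerivAt hau hav hθc z).sub
      ((ContinuousLinearMap.fst ℝ ℝ ℝ).hasFDerivAt.const_mul gu)).sub
      ((ContinuousLinearMap.snd ℝ ℝ ℝ).hasFDerivAt.const_mul gv)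
    have hfd : fderiv ℝ φ z = _ := HasFDerivAt.fderiv (f := φ) h
    rw [hfd]
    simp
    ring
  have eW : ∀ z, fderiv ℝ (twist φ U₂) z (1, 0) - fderiv ℝ (twist φ U₁) z (0, 1)
      = -Complex.I * gu * twist φ U₂ z - -Complex.I * gv * twist φ U₁ z := fun z => by
    rw [twist_fderiv hφd hU₂, twist_fderiv hφd hU₁, dφ, dφ]
    simp only [twist]
    push_cast
    linear_combination Complex.exp ((φ z : ℂ) * Complex.I) * hflat z
  have rel := period_relation (twist_smooth hφd hU₁) (twist_smooth hφd hU₂)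
    (twist_per pφ pU₁) (twist_per pφ pU₂) eW
  -- both square integrals are near the constant frame
  have hsq : ∀ (U : ℝ × ℝ → ℂ) (a : ℂ), ContDiff ℝ ∞ U → (∀ z, ‖U z - a‖ ≤ δ) →
      ‖a‖ ≤ 1 + ‖a₂‖ → ‖(∫ v in (0 : ℝ)..(2 * π), ∫ u in (0 : ℝ)..(2 * π), twist φ U (u, v))
        - 2 * π * (2 * π * a)‖ ≤ 2 * π * (2 * π * (K * δ)) := by
    intro U a hU hb ha
    have hc := (twist_smooth hφd hU).continuous
    refine norm_integral_sub_le
      (intervalIntegral.continuous_parametric_intervalIntegral_of_continuous' (by fun_prop) _ _)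
      fun v hv => ?_
    refine norm_integral_sub_le (by fun_prop) fun u hu => ?_
    rw [Set.uIoc_of_le Real.two_pi_pos.le] at hu hv
    have hφb : |φ (u, v)| ≤ 8 * π * δ := by
      have h1 := bθ u v ⟨hu.1.le, hu.2⟩ ⟨hv.1.le, hv.2⟩
      have h2 : |gu * u| ≤ 2 * π * δ := by
        rw [hgu, div_mul_eq_mul_div, abs_div, abs_mul, abs_of_pos Real.two_pi_pos,
          abs_of_pos hu.1, div_le_iff₀ Real.two_pi_pos]
        calc |Cu| * u ≤ (2 * π * δ) * (2 * π) :=
          mul_le_mul bCu hu.2 hu.1.le (by positivity)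
          _ = _ := rfl
      have h3 : |gv * v| ≤ 2 * π * δ := by
        rw [hgv, div_mul_eq_mul_div, abs_div, abs_mul, abs_of_pos Real.two_pi_pos,
          abs_of_pos hv.1, div_le_iff₀ Real.two_pi_pos]
        calc |Cv| * v ≤ (2 * π * δ) * (2 * π) :=
          mul_le_mul bCv hv.2 hv.1.le (by positivity)
          _ = _ := rfl
      simp only [hφ]
      linarith [abs_sub (θ (u, v) - gu * u) (gv * v), abs_sub (θ (u, v)) (gu * u)]
    refine (norm_expI_mul_sub_le _ _ _).trans ?_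
    calc ‖U (u, v) - a‖ + |φ (u, v)| * ‖a‖ ≤ δ + 8 * π * δ * (1 + ‖a₂‖) :=
        add_le_add (hb _) (mul_le_mul hφb ha (norm_nonneg _) (by positivity))
      _ = K * δ := by rw [hK]; ring
  set J₁ := ∫ v in (0 : ℝ)..(2 * π), ∫ u in (0 : ℝ)..(2 * π), twist φ U₁ (u, v)
  set J₂ := ∫ v in (0 : ℝ)..(2 * π), ∫ u in (0 : ℝ)..(2 * π), twist φ U₂ (u, v)
  set i₁ : ℂ := J₁ / ((4 * π ^ 2 : ℝ) : ℂ) with hi₁
  set i₂ : ℂ := J₂ / ((4 * π ^ 2 : ℝ) : ℂ) with hi₂
  have hscale : ∀ (J a : ℂ), ‖J - 2 * π * (2 * π * a)‖ ≤ 2 * π * (2 * π * (K * δ)) →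
      ‖J / ((4 * π ^ 2 : ℝ) : ℂ) - a‖ ≤ K * δ := by
    intro J a h
    have hne : ((4 * π ^ 2 : ℝ) : ℂ) ≠ 0 := by
      exact_mod_cast (by positivity : (4 * π ^ 2 : ℝ) ≠ 0)
    rw [div_sub' hne, norm_div, Complex.norm_real, Real.norm_eq_abs,
      abs_of_pos (by positivity : (0 : ℝ) < 4 * π ^ 2), div_le_iff₀ (by positivity)]
    calc ‖J - ((4 * π ^ 2 : ℝ) : ℂ) * a‖ = ‖J - 2 * π * (2 * π * a)‖ := by
          congr 1; push_cast; ring
      _ ≤ _ := h
      _ = _ := by ring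
  have n1 : ‖i₁ - 1‖ ≤ K * δ := hscale _ _
    (hsq U₁ 1 hU₁ bU₁ (by simp))
  have n2 : ‖i₂ - a₂‖ ≤ K * δ := hscale _ _
    (hsq U₂ a₂ hU₂ bU₂ (by linarith [norm_nonneg a₂]))
  have he : K * δ * M ≤ c / 2 := by
    rw [le_div_iff₀ (by positivity)] at hδ₀
    linarith
  have r1 := (Complex.abs_re_le_norm (i₁ - 1)).trans n1
  have m1 := (Complex.abs_im_le_norm (i₁ - 1)).trans n1
  have r2 := (Complex.abs_re_le_norm (i₂ - a₂)).trans n2
  have m2 := (Complex.abs_im_le_norm (i₂ - a₂)).trans n2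
  simp only [ha₂, Complex.sub_re, Complex.sub_im, Complex.one_re, Complex.one_im, Complex.add_re,
    Complex.add_im, Complex.mul_re, Complex.mul_im, Complex.ofReal_re, Complex.ofReal_im,
    Complex.I_re, Complex.I_im, mul_zero, mul_one, sub_zero, add_zero, zero_add] at r1 m1 r2 m2
  have hdet : 0 < i₁.re * i₂.im - i₂.re * i₁.im := by
    have e0 : 0 ≤ K * δ := by positivity
    rw [abs_le] at r1 m2
    have h3 : i₂.re * i₁.im ≤ (|b| + K * δ) * (K * δ) := by
      refine le_trans (le_abs_self _) ?_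
      rw [abs_mul]
      refine mul_le_mul ?_ m1 (abs_nonneg _) (by positivity)
      calc |i₂.re| = |b + (i₂.re - b)| := by ring_nf
        _ ≤ |b| + |i₂.re - b| := abs_add_le _ _
        _ ≤ |b| + K * δ := by linarith
    have he1 : K * δ < 1 := by nlinarith [abs_nonneg b]
    have he2 : K * δ < c := by nlinarith [abs_nonneg b]
    have h4 : (1 - K * δ) * (c - K * δ) ≤ i₁.re * i₂.im :=
      mul_le_mul (by linarith) (by linarith) (by linarith) (by linarith)
    nlinarith [abs_nonneg b]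
  have hlin : (gu : ℂ) * i₂ = gv * i₁ := by
    have h : (gu : ℂ) * J₂ = gv * J₁ := by
      refine mul_left_cancel₀ (a := -Complex.I) (by simp) ?_
      rw [← mul_assoc, ← mul_assoc]
      exact rel
    rw [hi₁, hi₂, ← mul_div_assoc, ← mul_div_assoc, h]
  have hre : gu * i₂.re = gv * i₁.re := by simpa using congrArg Complex.re hlin
  have him : gu * i₂.im = gv * i₁.im := by simpa using congrArg Complex.im hlin
  have gu0 : gu = 0 := by
    have : gu * (i₁.re * i₂.im - i₂.re * i₁.im) = 0 := by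
      linear_combination i₁.re * him - i₁.im * hre
    exact (mul_eq_zero.1 this).resolve_right hdet.ne'
  have gv0 : gv = 0 := by
    rw [gu0, zero_mul] at hre him
    rcases mul_eq_zero.1 hre.symm with h | h
    · exact h
    · rw [h, zero_mul, zero_sub] at hdet
      rcases mul_eq_zero.1 him.symm with h' | h'
      · exact h'
      · simp [h'] at hdet
  have hθp : Per θ := fun u v => by
    constructor
    · simpa [hφ, gu0, gv0] using (pφ u v).1
    · simpa [hφ, gu0, gv0] using (pφ u v).2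
  exact ⟨hθp, bθ⟩

theorem develop (b c : ℝ) (hc : 0 < c) :
    ∃ δ₀ > 0, ∃ C : ℝ, ∀ (au av : ℝ × ℝ → ℝ) (U₁ U₂ : ℝ × ℝ → ℂ) (δ : ℝ),
      ContDiff ℝ ∞ au → ContDiff ℝ ∞ av → ContDiff ℝ ∞ U₁ → ContDiff ℝ ∞ U₂ →
      Per au → Per av → Per U₁ → Per U₂ →
      (∀ z, fderiv ℝ au z (0, 1) = fderiv ℝ av z (1, 0)) →
      (∀ z, fderiv ℝ U₂ z (1, 0) - fderiv ℝ U₁ z (0, 1)
        + Complex.I * ((au z : ℂ) * U₂ z - (av z : ℂ) * U₁ z) = 0) →
      δ ≤ δ₀ → (∀ z, |au z| ≤ δ) → (∀ z, |av z| ≤ δ) → (∀ z, ‖U₁ z - 1‖ ≤ δ) →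
      (∀ z, ‖U₂ z - (b + c * Complex.I)‖ ≤ δ) →
      ∃ (θ : ℝ × ℝ → ℝ) (Φ : ℝ × ℝ → ℂ) (w₂ : ℂ),
        ContDiff ℝ ∞ Φ ∧
        (∀ z a, fderiv ℝ Φ z a
          = Complex.exp ((θ z : ℂ) * Complex.I) * ((a.1 : ℂ) * U₁ z + (a.2 : ℂ) * U₂ z)) ∧
        (∀ u v, Φ (u + 2 * π, v) = Φ (u, v) + period₁ au U₁) ∧
        (∀ u v, Φ (u, v + 2 * π) = Φ (u, v) + w₂) ∧
        ‖period₁ au U₁ - 2 * π‖ ≤ C * δ ∧
        ‖w₂ - 2 * π * (b + c * Complex.I)‖ ≤ C * δ := by
  set a₂ : ℂ := (b : ℂ) + c * Complex.I with ha₂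
  set K : ℝ := 1 + 8 * π * (1 + ‖a₂‖) with hK
  set M : ℝ := 1 + |b| + c with hM
  have hKpos : 0 < K := by rw [hK]; positivity
  have hMpos : 0 < M := by rw [hM]; positivity
  refine ⟨c / (2 * M * K), by positivity, 2 * π * K,
    fun au av U₁ U₂ δ hau hav hU₁ hU₂ pau pav pU₁ pU₂ hθc hflat hδ₀ bau bav bU₁ bU₂ => ?_⟩
  have hδ : 0 ≤ δ := le_trans (abs_nonneg _) (bau (0, 0))
  obtain ⟨hθp, bθ⟩ := phase_periodic hc hau hav hU₁ hU₂ pau pav pU₁ pU₂ hθc hflat hδ₀
    bau bav bU₁ bU₂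
  set θ := pot au av with hθ
  have hθd : ContDiff ℝ ∞ θ := pot_smooth hau hav hθc
  -- the developing map
  have eV : ∀ z, fderiv ℝ (twist θ U₁) z (0, 1) = fderiv ℝ (twist θ U₂) z (1, 0) := fun z => by
    rw [twist_fderiv hθd hU₂, twist_fderiv hθd hU₁, hθ, pot_fderiv hau hav hθc,
      pot_fderiv hau hav hθc]
    simp only [smul_eq_mul, one_mul, zero_mul, add_zero, zero_add]
    linear_combination -Complex.exp (((pot au av z : ℝ) : ℂ) * Complex.I) * hflat z
  have hΦ := pot_periods (twist_smooth hθd hU₁) (twist_smooth hθd hU₂) eV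
    (twist_per hθp pU₁) (twist_per hθp pU₂)
  have hp1 : period₁ au U₁ = ∫ t in (0 : ℝ)..(2 * π), twist θ U₁ (t, 0) := by
    simp [period₁, twist, hθ, pot]
  refine ⟨θ, pot (twist θ U₁) (twist θ U₂), ∫ s in (0 : ℝ)..(2 * π), twist θ U₂ (0, s),
    pot_smooth (twist_smooth hθd hU₁) (twist_smooth hθd hU₂) eV, fun z a => ?_,
    fun u v => by rw [hp1]; exact (hΦ u v).1, fun u v => (hΦ u v).2, ?_, ?_⟩
  · rw [pot_fderiv (twist_smooth hθd hU₁) (twist_smooth hθd hU₂) eV]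
    simp only [twist, Complex.real_smul]
    ring
  · rw [hp1]
    have := norm_integral_sub_le (h := fun t => twist θ U₁ (t, 0)) (a := 1) (e := K * δ)
      ((twist_smooth hθd hU₁).continuous.comp (by fun_prop)) fun t ht => ?_
    · rw [mul_one] at this
      linarith
    · rw [Set.uIoc_of_le Real.two_pi_pos.le] at ht
      refine (norm_expI_mul_sub_le _ _ _).trans ?_
      rw [norm_one, mul_one]
      have h1 := bθ t 0 ⟨ht.1.le, ht.2⟩ ⟨le_rfl, Real.two_pi_pos.le⟩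
      have h2 := bU₁ (t, 0)
      rw [hK]
      nlinarith [mul_nonneg (mul_nonneg Real.pi_pos.le hδ) (norm_nonneg a₂), Real.pi_pos]
  · have := norm_integral_sub_le (h := fun t => twist θ U₂ (0, t)) (a := a₂) (e := K * δ)
      ((twist_smooth hθd hU₂).continuous.comp (by fun_prop)) fun t ht => ?_
    · linarith
    · rw [Set.uIoc_of_le Real.two_pi_pos.le] at ht
      refine (norm_expI_mul_sub_le _ _ _).trans ?_
      have h1 := bθ 0 t ⟨le_rfl, Real.two_pi_pos.le⟩ ⟨ht.1.le, ht.2⟩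
      have h3 := bU₂ (0, t)
      have h4 := mul_le_mul_of_nonneg_right h1 (norm_nonneg a₂)
      rw [hK]
      nlinarith [mul_nonneg (mul_nonneg Real.pi_pos.le hδ) (norm_nonneg a₂), Real.pi_pos]

end Vale.Agent.P205
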