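import Vale.Agent.P205.Torus

/-!
# Flat tori in the unit three-sphere (Hopf tori) (P205)
-/

noncomputable section

open scoped ContDiff RealInnerProductSpace ComplexConjugate
open Real

namespace Vale.Agent.P205

/-- The Hopf torus in coordinates adapted to its fibres: periods `(2π, 0)` and `(t, L)`. -/
theorem hopf_coords {L : ℝ} (t : ℝ) (hL : 2 * π ≤ L) :
    ∃ X : ℝ × ℝ → E4, ContDiff ℝ ∞ X ∧ (∀ p, ‖X p‖ = 1) ∧
      (∀ x y (k : ℕ), X (x + 2 * π * k, y) = X (x, y)) ∧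
      (∀ x y, X (x + t, y + L) = X (x, y)) ∧
      ∀ p a b : ℝ × ℝ, ⟪fderiv ℝ X p a, fderiv ℝ X p b⟫ = a.1 * b.1 + a.2 * b.2 := by
  set n : ℤ := ⌊t / (2 * π) + 1⌋ with hn
  set d : ℝ := t / (2 * π) + 1 - n with hd
  have hd0 : 0 ≤ d := by simp only [hd, hn]; linarith [Int.floor_le (t / (2 * π) + 1)]
  have hd1 : d < 1 := by simp only [hd, hn]; linarith [Int.lt_floor_add_one (t / (2 * π) + 1)]
  obtain ⟨α, hαd, pα, hαint, hαpos, hαlen⟩ := exists_curve hd0 hd1 hL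
  have hα' : ContDiff ℝ ∞ (deriv α) := (contDiff_infty_iff_deriv.1 hαd).2
  set q : ℝ → ℝ := fun s => √(deriv α s ^ 2 + sin (2 * α s) ^ 2) with hq
  have hqd : ContDiff ℝ ∞ q :=
    ((hα'.pow 2).add ((contDiff_const.mul hαd).sin.pow 2)).sqrt fun s => (hαpos s).ne'
  have pq : Function.Periodic q (2 * π) := fun s => by simp [hq, periodic_deriv pα s, pα s]
  have hqpos : ∀ s, 0 < q s := fun s => sqrt_pos.2 (hαpos s)
  obtain ⟨τ, hτd, hτ', hτp⟩ := arclength_inverse hqd pq hqpos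
  rw [hαlen] at hτp
  set A : ℝ → ℝ := fun y => α (τ y) with hA
  have hAd : ContDiff ℝ ∞ A := hαd.comp hτd
  have hA' : ∀ y, HasDerivAt A (deriv α (τ y) * (q (τ y))⁻¹) y := fun y =>
    ((hαd.differentiable (by simp) (τ y)).hasDerivAt).comp y (hτ' y)
  set H : ℝ → ℝ := fun s => ∫ t in (0 : ℝ)..s, 2 * sin (α t) ^ 2 with hH
  have hHint : Continuous fun t => 2 * sin (α t) ^ 2 := by
    have := hαd.continuous; fun_prop
  have pH : Function.Periodic (fun t => 2 * sin (α t) ^ 2) (2 * π) := fun t => by simp [pα t]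
  have hHd : ContDiff ℝ ∞ H := smooth_primitive (contDiff_const.mul (hαd.sin.pow 2))
  set a : ℝ → ℝ := fun y => H (τ y) with ha
  set b : ℝ → ℝ := fun y => a y - 2 * τ y with hb
  have had : ContDiff ℝ ∞ a := hHd.comp hτd
  have hbd : ContDiff ℝ ∞ b := had.sub (contDiff_const.mul hτd)
  have ha' : ∀ y, HasDerivAt a (2 * sin (A y) ^ 2 * (q (τ y))⁻¹) y := fun y =>
    (primitive_hasDeriv hHint (τ y)).comp y (hτ' y)
  have hb' : ∀ y, HasDerivAt b (- (2 * cos (A y) ^ 2 * (q (τ y))⁻¹)) y := fun y => by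
    refine ((ha' y).sub ((hτ' y).const_mul 2)).congr_deriv ?_
    linear_combination 2 * (q (τ y))⁻¹ * sin_sq_add_cos_sq (A y)
  have hHper : H (2 * π) = 2 * π * (1 - d) := by
    have hsq : ∀ t, 2 * sin (α t) ^ 2 = 1 - cos (2 * α t) := fun t => by
      rw [cos_two_mul']; linear_combination sin_sq_add_cos_sq (α t)
    have := hαd.continuous
    simp only [hH, hsq]
    rw [intervalIntegral.integral_sub (by simp)
      ((by fun_prop : Continuous _).intervalIntegrable _ _), hαint]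
    simp; ring
  have hap : ∀ y, a (y + L) = a y + 2 * π * (1 - d) := by
    intro y
    simp only [ha, hτp]
    simp only [hH] at hHper ⊢
    rw [primitive_shift hHint pH (τ y), hHper]
  set X : ℝ × ℝ → E4 := fun p => WithLp.toLp 2
    ![cos (A p.2) * cos (p.1 + a p.2), cos (A p.2) * sin (p.1 + a p.2),
      sin (A p.2) * cos (p.1 + b p.2), sin (A p.2) * sin (p.1 + b p.2)] with hX
  have hsm : ∀ f : ℝ → ℝ, ContDiff ℝ ∞ f → ContDiff ℝ ∞ fun p : ℝ × ℝ => f p.2 :=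
    fun f hf => hf.comp contDiff_snd
  have harg : ∀ f : ℝ → ℝ, ContDiff ℝ ∞ f → ContDiff ℝ ∞ fun p : ℝ × ℝ => p.1 + f p.2 :=
    fun f hf => contDiff_fst.add (hsm f hf)
  have hXd : ContDiff ℝ ∞ X := by
    rw [contDiff_euclidean]
    intro i
    fin_cases i
    · simpa [hX] using (hsm A hAd).cos.mul (harg a had).cos
    · simpa [hX] using (hsm A hAd).cos.mul (harg a had).sin
    · simpa [hX] using (hsm A hAd).sin.mul (harg b hbd).cos
    · simpa [hX] using (hsm A hAd).sin.mul (harg b hbd).sin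
  refine ⟨X, hXd, ?_, ?_, ?_, ?_⟩
  · rintro ⟨x, y⟩
    rw [EuclideanSpace.norm_eq, sqrt_eq_one]
    simp only [hX, Fin.sum_univ_four, Real.norm_eq_abs, sq_abs, Matrix.cons_val_zero,
      Matrix.cons_val_one, Matrix.cons_val]
    linear_combination cos (A y) ^ 2 * cos_sq_add_sin_sq (x + a y)
      + sin (A y) ^ 2 * cos_sq_add_sin_sq (x + b y) + cos_sq_add_sin_sq (A y)
  · intro x y k
    have h1 : ∀ θ : ℝ, x + 2 * π * k + θ = x + θ + (k : ℤ) * (2 * π) := fun θ => by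
      push_cast; ring
    simp only [hX, h1, cos_add_int_mul_two_pi, sin_add_int_mul_two_pi]
  · intro x y
    have hA1 : A (y + L) = A y := by simp only [hA, hτp, pα (τ y)]
    have h1 : x + t + a (y + L) = x + a y + n * (2 * π) := by
      rw [hap, hd]; field_simp; ring
    have h2 : x + t + b (y + L) = x + b y + (n - 2 : ℤ) * (2 * π) := by
      simp only [hb, hap, hτp, hd]; push_cast; field_simp; ring
    simp only [hX, hA1, h1, h2, cos_add_int_mul_two_pi, sin_add_int_mul_two_pi]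
  intro p v₁ v₂
  obtain ⟨x, y⟩ := p
  set cA := cos (A y) with hcA
  set sA := sin (A y) with hsA
  set A₁ := deriv α (τ y) * (q (τ y))⁻¹ with hA₁
  set a₁ := 2 * sA ^ 2 * (q (τ y))⁻¹ with ha₁
  set b₁ := - (2 * cA ^ 2 * (q (τ y))⁻¹) with hb₁
  set θ := x + a y with hθ
  set η := x + b y with hη
  have hb'' : ∀ y' : ℝ, HasDerivAt (fun s => x + b s)
      (- (2 * cos (A y') ^ 2 * (q (τ y'))⁻¹)) y' := fun y' => (hb' y').const_add _
  have hy : HasDerivAt (fun s => X (x, s)) (WithLp.toLp 2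
      ![-sA * A₁ * cos θ + cA * (-sin θ * a₁), -sA * A₁ * sin θ + cA * (cos θ * a₁),
        cA * A₁ * cos η + sA * (-sin η * b₁), cA * A₁ * sin η + sA * (cos η * b₁)]) y := by
    refine (PiLp.continuousLinearEquiv 2 ℝ (fun _ : Fin 4 => ℝ)).symm.hasFDerivAt.comp_hasDerivAt _
      (hasDerivAt_pi.2 fun i => ?_)
    fin_cases i
    · simpa using (hA' y).cos.fun_mul ((ha' y).const_add _).cos
    · simpa using (hA' y).cos.fun_mul ((ha' y).const_add _).sin
    · simpa [hb₁, hcA, hsA, hA₁, hη] using (hA' y).sin.fun_mul (hb'' y).cos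
    · simpa [hb₁, hcA, hsA, hA₁, hη] using (hA' y).sin.fun_mul (hb'' y).sin
  have hx' : HasDerivAt (fun s => X (s, y)) (WithLp.toLp 2
      ![cA * -sin θ, cA * cos θ, sA * -sin η, sA * cos η]) x := by
    refine (PiLp.continuousLinearEquiv 2 ℝ (fun _ : Fin 4 => ℝ)).symm.hasFDerivAt.comp_hasDerivAt _
      (hasDerivAt_pi.2 fun i => ?_)
    fin_cases i
    · simpa using (((hasDerivAt_id' x).add_const (a y)).cos).const_mul cA
    · simpa using (((hasDerivAt_id' x).add_const (a y)).sin).const_mul cA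
    · simpa using (((hasDerivAt_id' x).add_const (b y)).cos).const_mul sA
    · simpa using (((hasDerivAt_id' x).add_const (b y)).sin).const_mul sA
  have hfd : ∀ c : ℝ × ℝ, fderiv ℝ X (x, y) c
      = c.1 • deriv (fun s => X (s, y)) x + c.2 • deriv (fun s => X (x, s)) y := by
    intro c
    have hF' := (hXd.differentiable (by simp) (x, y)).hasFDerivAt
    have h1 := hF'.comp_hasDerivAt x ((hasDerivAt_id' x).prodMk (hasDerivAt_const x y))
    have h2 := hF'.comp_hasDerivAt y ((hasDerivAt_const y x).prodMk (hasDerivAt_id' y))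
    rw [show (fun s => X (s, y)) = X ∘ fun s => (s, y) from rfl,
      show (fun s => X (x, s)) = X ∘ fun s => (x, s) from rfl, h1.deriv, h2.deriv,
      ← map_smul, ← map_smul, ← map_add]
    simp
  rw [hfd, hfd, hx'.deriv, hy.deriv]
  simp only [PiLp.inner_apply, Fin.sum_univ_four, PiLp.add_apply, PiLp.smul_apply, smul_eq_mul,
    RCLike.inner_apply, starRingEnd_apply, star_trivial, Matrix.cons_val_zero,
    Matrix.cons_val_one, Matrix.cons_val]
  have hcs : cA ^ 2 + sA ^ 2 = 1 := cos_sq_add_sin_sq _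
  have hθ1 : cos θ ^ 2 + sin θ ^ 2 = 1 := cos_sq_add_sin_sq _
  have hη1 : cos η ^ 2 + sin η ^ 2 = 1 := cos_sq_add_sin_sq _
  have hq2 : q (τ y) ^ 2 = deriv α (τ y) ^ 2 + 4 * sA ^ 2 * cA ^ 2 := by
    simp only [hq]
    rw [sq_sqrt (hαpos _).le]
    simp only [hsA, hcA, hA, sin_two_mul]; ring
  have hxy : cA ^ 2 * a₁ + sA ^ 2 * b₁ = 0 := by simp only [ha₁, hb₁]; ring
  have hyy : A₁ ^ 2 + (cA * a₁) ^ 2 + (sA * b₁) ^ 2 = 1 := by
    have h : A₁ ^ 2 + (cA * a₁) ^ 2 + (sA * b₁) ^ 2 = q (τ y) ^ 2 * (q (τ y))⁻¹ ^ 2 := by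
      rw [hq2]; simp only [hA₁, ha₁, hb₁]
      linear_combination (4 * sA ^ 2 * cA ^ 2 * (q (τ y))⁻¹ ^ 2) * hcs
    rw [h, ← mul_pow, mul_inv_cancel₀ (hqpos _).ne', one_pow]
  linear_combination
    (v₁.1 * v₂.1 * cA ^ 2 + (v₁.1 * v₂.2 + v₁.2 * v₂.1) * (cA ^ 2 * a₁)
      + v₁.2 * v₂.2 * ((sA * A₁) ^ 2 + (cA * a₁) ^ 2)) * hθ1
    + (v₁.1 * v₂.1 * sA ^ 2 + (v₁.1 * v₂.2 + v₁.2 * v₂.1) * (sA ^ 2 * b₁)
      + v₁.2 * v₂.2 * ((cA * A₁) ^ 2 + (sA * b₁) ^ 2)) * hη1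
    + (v₁.1 * v₂.1 + v₁.2 * v₂.2 * A₁ ^ 2) * hcs
    + (v₁.1 * v₂.2 + v₁.2 * v₂.1) * hxy + v₁.2 * v₂.2 * hyy

/-- Every lattice `ℤw₁ + ℤw₂` with `‖w₁‖ = 2πm` and height at least `2π` admits an isometric
immersion of the flat plane into the unit sphere of `ℝ⁴` invariant under it. -/
theorem hopf {w₁ w₂ : ℂ} {m : ℕ} (hm : 1 ≤ m) (hw₁ : ‖w₁‖ = 2 * π * m)
    (hperp : 2 * π * ‖w₁‖ ≤ (conj w₁ * w₂).im) :
    ∃ Y : ℂ → E4, ContDiff ℝ ∞ Y ∧ (∀ z, ‖Y z‖ = 1) ∧
      (∀ z, Y (z + w₁) = Y z) ∧ (∀ z, Y (z + w₂) = Y z) ∧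
      ∀ z a a', ⟪fderiv ℝ Y z a, fderiv ℝ Y z a'⟫ = ⟪a, a'⟫ := by
  have hm' : (0 : ℝ) < m := by exact_mod_cast hm
  have hN : 0 < ‖w₁‖ := by rw [hw₁]; positivity
  set c : ℂ := conj w₁ / (‖w₁‖ : ℂ) with hc
  set L : ℝ := (c * w₂).im with hL
  set t : ℝ := (c * w₂).re with ht
  have hL2 : 2 * π ≤ L := by
    rw [hL, hc, div_mul_eq_mul_div, Complex.div_ofReal_im, le_div_iff₀ hN]
    exact hperp
  have hcw : c * w₁ = ((2 * π * m : ℝ) : ℂ) := by
    rw [← hw₁, hc, div_mul_eq_mul_div, mul_comm (conj w₁), Complex.mul_conj',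
      div_eq_iff (by exact_mod_cast hN.ne'), sq]
  have hc1 : c.re * c.re + c.im * c.im = 1 := by
    have h : ‖c‖ = 1 := by
      rw [hc, norm_div, Complex.norm_conj, Complex.norm_real, norm_norm, div_self hN.ne']
    have h2 := Complex.normSq_eq_norm_sq c
    rwa [h, one_pow, Complex.normSq_apply] at h2
  obtain ⟨X, hXd, hX1, hXm, hXt, hXi⟩ := hopf_coords t hL2
  set σ : ℂ →L[ℝ] ℝ × ℝ :=
    (Complex.reCLM.prod Complex.imCLM).comp (ContinuousLinearMap.mul ℝ ℂ c) with hσ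
  have hσ1 : ∀ z, σ z = ((c * z).re, (c * z).im) := fun z => by simp [hσ]
  refine ⟨fun z => X (σ z), hXd.comp σ.contDiff, fun z => hX1 _, fun z => ?_, fun z => ?_, ?_⟩
  · simp only [hσ1, mul_add, hcw, Complex.add_re, Complex.add_im, Complex.ofReal_re,
      Complex.ofReal_im, add_zero]
    exact hXm _ _ m
  · simp only [hσ1, mul_add, Complex.add_re, Complex.add_im]
    exact hXt _ _
  · intro z a a'
    have hd : HasFDerivAt (fun w => X (σ w)) ((fderiv ℝ X (σ z)).comp σ) z :=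
      ((hXd.differentiable (by simp) (σ z)).hasFDerivAt).comp z σ.hasFDerivAt
    rw [hd.fderiv]
    change ⟪fderiv ℝ X (σ z) (σ a), fderiv ℝ X (σ z) (σ a')⟫ = _
    rw [hXi, hσ1, hσ1, Complex.inner]
    simp only [Complex.mul_re, Complex.mul_im, Complex.conj_re, Complex.conj_im]
    linear_combination (a.re * a'.re + a.im * a'.im) * hc1

end Vale.Agent.P205
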