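import Vale.Agent.P205.Full.Solve
import Vale.Agent.P205.Full.Develop
import Vale.Agent.P205.Full.Hopf

/-!
# Every conformally flat torus metric immerses isometrically in ℝ⁴ (P205)
-/

noncomputable section

open scoped ContDiff RealInnerProductSpace ComplexConjugate
open Real Set

namespace Vale.Agent.P205

/-- Tube lemma: a continuous periodic family which is constant at parameter `0` is uniformly close
to that constant for small parameters. -/
theorem tube {e : ℝ} (he : 0 < e) {f : ℝ → ℝ × ℝ → ℝ} {c₀ : ℝ}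
    (hf : Continuous fun p : Icc (-e) e × (ℝ × ℝ) => f p.1 p.2)
    (hp : ∀ ε, Per (f ε)) (h0 : ∀ z, f 0 z = c₀) {δ : ℝ} (hδ : 0 < δ) :
    ∃ e' > 0, e' ≤ e ∧ ∀ ε, |ε| ≤ e' → ∀ z, |f ε z - c₀| ≤ δ := by
  let z₀ : Icc (-e) e := ⟨0, by constructor <;> linarith⟩
  set Q : Set (ℝ × ℝ) := Icc 0 (2 * π) ×ˢ Icc 0 (2 * π) with hQ
  have hQc : IsCompact Q := isCompact_Icc.prod isCompact_Icc
  have hev : ∀ᶠ x : Icc (-e) e in nhds z₀, ∀ z ∈ Q, |f x z - c₀| < δ := by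
    apply hQc.eventually_forall_of_forall_eventually
    intro z _
    have ht : Filter.Tendsto (fun p : Icc (-e) e × (ℝ × ℝ) => |f p.1 p.2 - c₀|) (nhds (z₀, z))
        (nhds |f 0 z - c₀|) := ((hf.sub continuous_const).abs).tendsto _
    exact ht.eventually (gt_mem_nhds (by simp [h0 z, hδ]))
  obtain ⟨r, hr, hr'⟩ := Metric.eventually_nhds_iff.1 hev
  refine ⟨min (r / 2) e, lt_min (by linarith) he, min_le_right _ _, fun ε hε z => ?_⟩
  have h1 : |ε| ≤ r / 2 := hε.trans (min_le_left _ _)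
  have h2 : |ε| ≤ e := hε.trans (min_le_right _ _)
  have hper : Function.Periodic (fun u => f ε (u, z.2)) (2 * π) := fun u => ((hp ε) u z.2).1
  obtain ⟨u, hu, hu'⟩ := hper.exists_mem_Ico₀ Real.two_pi_pos z.1
  have hper' : Function.Periodic (fun v => f ε (u, v)) (2 * π) := fun v => ((hp ε) u v).2
  obtain ⟨v, hv, hv'⟩ := hper'.exists_mem_Ico₀ Real.two_pi_pos z.2
  have heq : f ε z = f ε (u, v) := hu'.trans hv'
  have := hr' (y := ⟨ε, abs_le.1 h2⟩) (by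
    simp only [Subtype.dist_eq, z₀, Real.dist_eq, sub_zero]; linarith) (u, v)
    ⟨⟨hu.1, hu.2.le⟩, hv.1, hv.2.le⟩
  rw [heq]; exact this.le

theorem per_D {f : ℝ × ℝ → ℝ} (h : Per f) (e : ℝ × ℝ) : Per (D e f) := by
  intro u v
  have key : ∀ w : ℝ × ℝ, (∀ z, f (z + w) = f z) → ∀ z, D e f (z + w) = D e f z := by
    intro w hw z
    simp only [D]
    rw [← fderiv_comp_add_right, show (fun x => f (x + w)) = f from funext hw]
  constructor
  · have := key (2 * π, 0) (fun z => by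
      obtain ⟨a, b⟩ := z; simpa using (h a b).1) (u, v)
    simpa using this
  · have := key (0, 2 * π) (fun z => by
      obtain ⟨a, b⟩ := z; simpa using (h a b).2) (u, v)
    simpa using this

theorem data_per (P : Data) (h0 : Per P.s) (hp : Per P.ψ) :
    Per P.s1 ∧ Per P.s2 ∧ Per P.q1 ∧ Per P.q2 ∧ Per P.G11 ∧ Per P.G12 ∧ Per P.G22 ∧ Per P.Rsq := by
  have h1 : Per P.s1 := per_D h0 _
  have h2 : Per P.s2 := per_D h0 _
  have p1 := per_D hp P.e₁
  have p2 := per_D hp P.e₂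
  have hq1 : Per P.q1 := fun u v => by
    simp [Data.q1, (h0 u v).1, (h0 u v).2, (h1 u v).1, (h1 u v).2, (p1 u v).1, (p1 u v).2]
  have hq2 : Per P.q2 := fun u v => by
    simp [Data.q2, (h0 u v).1, (h0 u v).2, (h2 u v).1, (h2 u v).2, (p2 u v).1, (p2 u v).2]
  have hsq : Per P.sq := fun u v => by
    simp [Data.sq, (h1 u v).1, (h1 u v).2, (h2 u v).1, (h2 u v).2, (hq1 u v).1, (hq1 u v).2,
      (hq2 u v).1, (hq2 u v).2]
  refine ⟨h1, h2, hq1, hq2, fun u v => ?_, fun u v => ?_, fun u v => ?_, fun u v => ?_⟩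
  · simp [Data.G11, (h0 u v).1, (h0 u v).2, (h1 u v).1, (h1 u v).2, (hq1 u v).1, (hq1 u v).2,
      (hsq u v).1, (hsq u v).2, (per_D h1 P.e₁ u v).1, (per_D h1 P.e₁ u v).2,
      (per_D p1 P.e₁ u v).1, (per_D p1 P.e₁ u v).2]
  · simp [Data.G12, (h0 u v).1, (h0 u v).2, (h1 u v).1, (h1 u v).2, (h2 u v).1, (h2 u v).2,
      (hq1 u v).1, (hq1 u v).2, (hq2 u v).1, (hq2 u v).2, (per_D h2 P.e₁ u v).1,
      (per_D h2 P.e₁ u v).2, (per_D p2 P.e₁ u v).1, (per_D p2 P.e₁ u v).2]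
  · simp [Data.G22, (h0 u v).1, (h0 u v).2, (h2 u v).1, (h2 u v).2, (hq2 u v).1, (hq2 u v).2,
      (hsq u v).1, (hsq u v).2, (per_D h2 P.e₂ u v).1, (per_D h2 P.e₂ u v).2,
      (per_D p2 P.e₂ u v).1, (per_D p2 P.e₂ u v).2]
  · simp [Data.Rsq, (h0 u v).1, (h0 u v).2, (hq1 u v).1, (hq1 u v).2, (hq2 u v).1, (hq2 u v).2]

theorem integral_D1_zero {f : ℝ × ℝ → ℝ} (hf : ContDiff ℝ ∞ f) (hp : Per f) (v : ℝ) :
    (∫ u in (0 : ℝ)..(2 * π), D (1, 0) f (u, v)) = 0 := by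
  rw [show (fun u => D (1, 0) f (u, v)) = fun u => fderiv ℝ f (u, v) (1, 0) from rfl,
    intervalIntegral.integral_eq_sub_of_hasDerivAt
      (fun u _ => slice_fst (hf.differentiable (by simp)) u v)
      (((continuous_fderiv_dir hf (1, 0)).comp (by fun_prop)).intervalIntegrable _ _)]
  have := (hp 0 v).1
  simp only [zero_add] at this
  simp [this]

theorem integral_D2_zero {f : ℝ × ℝ → ℝ} (hf : ContDiff ℝ ∞ f) (hp : Per f) :
    (∫ v in (0 : ℝ)..(2 * π), ∫ u in (0 : ℝ)..(2 * π), D (0, 1) f (u, v)) = 0 := by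
  simp only [D]
  rw [← swap_of_continuous (continuous_fderiv_dir hf (0, 1))]
  have h : ∀ u, (∫ v in (0 : ℝ)..(2 * π), D (0, 1) f (u, v)) = 0 := by
    intro u
    rw [show (fun v => D (0, 1) f (u, v)) = fun v => fderiv ℝ f (u, v) (0, 1) from rfl,
      intervalIntegral.integral_eq_sub_of_hasDerivAt
        (fun v _ => slice_snd (hf.differentiable (by simp)) u v)
        (((continuous_fderiv_dir hf (0, 1)).comp (by fun_prop)).intervalIntegrable _ _)]
    have := (hp u 0).2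
    simp only [zero_add] at this
    simp [this]
  simp only [D] at h
  simp [h]

theorem D_frame (b c : ℝ) (hc : 0 < c) (f : ℝ × ℝ → ℝ) (z a : ℝ × ℝ) :
    fderiv ℝ f z a = (a.1 + b * a.2) * D fr₁ f z + c * a.2 * D (fr₂ b c) f z := by
  have : a = (a.1 + b * a.2) • fr₁ + (c * a.2) • fr₂ b c := by
    ext <;> simp [fr₁, fr₂] <;> field_simp <;> ring
  conv_lhs => rw [this]
  simp [D]

theorem curl_const_zero (b c : ℝ) {a1 a2 : ℝ × ℝ → ℝ} (h1 : ContDiff ℝ ∞ a1)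
    (h2 : ContDiff ℝ ∞ a2) (p1 : Per a1) (p2 : Per a2) {w : ℝ × ℝ → ℝ} (hw : Continuous w)
    (hwpos : ∀ z, 0 < w z) {C : ℝ} (h : ∀ z, D fr₁ a2 z - D (fr₂ b c) a1 z = C * w z) : C = 0 := by
  have e2 : ∀ z, D (fr₂ b c) a1 z = -b / c * D (1, 0) a1 z + c⁻¹ * D (0, 1) a1 z := by
    intro z
    have : fr₂ b c = (-b / c) • ((1, 0) : ℝ × ℝ) + c⁻¹ • ((0, 1) : ℝ × ℝ) := by
      ext <;> simp [fr₂]
    simp only [D, this, map_add, map_smul, smul_eq_mul]
  have i1 := fun v => ((continuous_fderiv_dir h2 (1, 0)).comp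
    (Continuous.prodMk continuous_id (continuous_const (y := v)))).intervalIntegrable (μ := MeasureTheory.volume) 0 (2 * π)
  have key : (∫ v in (0 : ℝ)..(2 * π), ∫ u in (0 : ℝ)..(2 * π), C * w (u, v)) = 0 := by
    simp only [← h, e2]
    have hin : ∀ v, (∫ u in (0 : ℝ)..(2 * π), (D fr₁ a2 (u, v)
        - (-b / c * D (1, 0) a1 (u, v) + c⁻¹ * D (0, 1) a1 (u, v))))
        = -(c⁻¹ * ∫ u in (0 : ℝ)..(2 * π), D (0, 1) a1 (u, v)) := by
      intro v
      have j : ∀ (f : ℝ × ℝ → ℝ) (a : ℝ × ℝ), ContDiff ℝ ∞ f →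
          IntervalIntegrable (fun u => D a f (u, v)) MeasureTheory.volume 0 (2 * π) := fun f a hf =>
        ((continuous_fderiv_dir hf a).comp (by fun_prop)).intervalIntegrable _ _
      rw [intervalIntegral.integral_sub (j a2 fr₁ h2)
        (((j a1 _ h1).const_mul _).add ((j a1 _ h1).const_mul _)),
        intervalIntegral.integral_add ((j a1 _ h1).const_mul _) ((j a1 _ h1).const_mul _),
        intervalIntegral.integral_const_mul, intervalIntegral.integral_const_mul,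
        integral_D1_zero h1 p1, show fr₁ = ((1 : ℝ), (0 : ℝ)) from rfl, integral_D1_zero h2 p2]
      ring
    simp only [hin, intervalIntegral.integral_neg, intervalIntegral.integral_const_mul,
      integral_D2_zero h1 p1]
    simp
  simp only [intervalIntegral.integral_const_mul] at key
  have hpos : 0 < ∫ v in (0 : ℝ)..(2 * π), ∫ u in (0 : ℝ)..(2 * π), w (u, v) := by
    have hc' : Continuous fun v => ∫ u in (0 : ℝ)..(2 * π), w (u, v) :=
      intervalIntegral.continuous_parametric_intervalIntegral_of_continuous' (by fun_prop) _ _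
    refine intervalIntegral.intervalIntegral_pos_of_pos (hc'.intervalIntegrable _ _)
      (fun v => ?_) Real.two_pi_pos
    exact intervalIntegral.intervalIntegral_pos_of_pos
      ((by fun_prop : Continuous fun u => w (u, v)).intervalIntegrable _ _)
      (fun u => hwpos _) Real.two_pi_pos
  rcases mul_eq_zero.1 key with h' | h'
  · exact h'
  · linarith

/-- The derivative of a sphere-valued map is orthogonal to its value. -/
theorem sphere_orth {Y : ℂ → E4} (hd : ContDiff ℝ ∞ Y) (h1 : ∀ w, ‖Y w‖ = 1) (w x : ℂ) :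
    ⟪Y w, fderiv ℝ Y w x⟫ = 0 := by
  have hY := ((hd.differentiable (by simp)) w).hasFDerivAt
  have h2 := hY.inner ℝ hY
  have h3 : HasFDerivAt (fun w => ⟪Y w, Y w⟫) (0 : ℂ →L[ℝ] ℝ) w := by
    simp only [real_inner_self_eq_norm_sq, h1, one_pow]
    exact hasFDerivAt_const _ _
  have := congrArg (fun L : ℂ →L[ℝ] ℝ => L x) (h2.unique h3)
  simp [fderivInnerCLM_apply, real_inner_comm (fderiv ℝ Y w x)] at this
  rw [real_inner_comm]; exact this

theorem rotated_inner (k θ b c A B C : ℝ) (x y : ℝ × ℝ) :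
    (⟪(k : ℂ) * (Complex.exp ((θ : ℂ) * Complex.I) * ((x.1 : ℂ) * ((A : ℂ) + (B : ℂ) * Complex.I)
        + (x.2 : ℂ) * ((b : ℂ) * ((A : ℂ) + (B : ℂ) * Complex.I)
          + (c : ℂ) * ((B : ℂ) + (C : ℂ) * Complex.I)))),
      (k : ℂ) * (Complex.exp ((θ : ℂ) * Complex.I) * ((y.1 : ℂ) * ((A : ℂ) + (B : ℂ) * Complex.I)
        + (y.2 : ℂ) * ((b : ℂ) * ((A : ℂ) + (B : ℂ) * Complex.I)
          + (c : ℂ) * ((B : ℂ) + (C : ℂ) * Complex.I))))⟫ : ℝ)
    = k ^ 2 * (((x.1 + b * x.2) * A + c * x.2 * B) * ((y.1 + b * y.2) * A + c * y.2 * B)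
        + ((x.1 + b * x.2) * B + c * x.2 * C) * ((y.1 + b * y.2) * B + c * y.2 * C)) := by
  rw [Complex.inner, Complex.exp_mul_I]
  simp [Complex.mul_re, Complex.mul_im, Complex.sin_ofReal_re, Complex.cos_ofReal_re,
    Complex.sin_ofReal_im, Complex.cos_ofReal_im]
  linear_combination (k ^ 2 * (((x.1 + b * x.2) * A + c * x.2 * B)
      * ((y.1 + b * y.2) * A + c * y.2 * B)
    + ((x.1 + b * x.2) * B + c * x.2 * C) * ((y.1 + b * y.2) * B + c * y.2 * C)))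
    * Real.sin_sq_add_cos_sq θ

theorem perp_bound {b c k τ : ℝ} {w₁ w₂ : ℂ} (hc : 0 < c) (hk : 0 < k) (hk3 : 3 / c ≤ k)
    (hτ : 0 < τ) (hτ1 : τ ≤ 1) (hτ2 : τ ≤ π * c / (2 * (2 + |b| + c)))
    (h5 : ‖w₁ - 2 * π‖ ≤ τ) (h6 : ‖w₂ - 2 * π * (b + c * Complex.I)‖ ≤ τ) (hup : ‖w₁‖ ≤ 3 * π) :
    2 * π * ‖(k : ℂ) * w₁‖ ≤ (conj ((k : ℂ) * w₁) * ((k : ℂ) * w₂)).im := by
  rw [map_mul, Complex.conj_ofReal,
    show (k : ℂ) * conj w₁ * ((k : ℂ) * w₂) = ((k * k : ℝ) : ℂ) * (conj w₁ * w₂) by push_cast; ring,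
    Complex.im_ofReal_mul, norm_mul, Complex.norm_real, norm_eq_abs, abs_of_pos hk]
  obtain ⟨x, rfl⟩ : ∃ x : ℂ, w₁ = 2 * π + x := ⟨w₁ - 2 * π, by ring⟩
  obtain ⟨y, rfl⟩ : ∃ y : ℂ, w₂ = 2 * π * (b + c * Complex.I) + y :=
    ⟨w₂ - 2 * π * (b + c * Complex.I), by ring⟩
  rw [add_sub_cancel_left] at h5 h6
  have x1 := abs_le.1 ((Complex.abs_re_le_norm x).trans h5)
  have x2 := (Complex.abs_im_le_norm x).trans h5
  have y1 := (Complex.abs_re_le_norm y).trans h6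
  have y2 := abs_le.1 ((Complex.abs_im_le_norm y).trans h6)
  have him : (conj (2 * (π : ℂ) + x) * (2 * π * (b + c * Complex.I) + y)).im
      = (2 * π + x.re) * (2 * π * c + y.im) - x.im * (2 * π * b + y.re) := by
    simp; ring
  have hbm : x.im * (2 * π * b + y.re) ≤ τ * (2 * π * |b| + τ) := by
    refine (le_abs_self _).trans ?_
    rw [abs_mul]
    refine mul_le_mul x2 ?_ (abs_nonneg _) hτ.le
    refine (abs_add_le _ _).trans (add_le_add (le_of_eq ?_) y1)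
    rw [abs_mul, abs_of_pos Real.two_pi_pos]
  rw [le_div_iff₀ (by positivity)] at hτ2
  rw [div_le_iff₀ hc] at hk3
  have h2π : 1 < 2 * π := by linarith [Real.two_le_pi]
  have hτc : τ ≤ 2 * π * c := by
    have : 0 ≤ τ * (2 * (|b| + c)) := by positivity
    nlinarith
  have hprod : (2 * π - τ) * (2 * π * c - τ) ≤ (2 * π + x.re) * (2 * π * c + y.im) :=
    mul_le_mul (by linarith) (by linarith) (by linarith) (by linarith)
  have hπτ : π * (τ * (2 * (2 + |b| + c))) ≤ π * (π * c) :=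
    mul_le_mul_of_nonneg_left hτ2 Real.pi_pos.le
  have hextra : 0 ≤ π * τ := by positivity
  have hIm : 2 * π ^ 2 * c ≤ (conj (2 * (π : ℂ) + x) * (2 * π * (b + c * Complex.I) + y)).im := by
    rw [him]
    nlinarith
  calc 2 * π * (k * ‖2 * (π : ℂ) + x‖) ≤ 2 * π * (k * (3 * π)) := by gcongr
    _ = 2 * π ^ 2 * k * 3 := by ring
    _ ≤ 2 * π ^ 2 * k * (k * c) := by gcongr
    _ = k * k * (2 * π ^ 2 * c) := by ring
    _ ≤ _ := mul_le_mul_of_nonneg_left hIm (by positivity)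

theorem final_identity {s R k ε p r l c α α' a a' : ℝ} (hs : 0 < s) (hR : 0 < R) (hk : 0 < k)
    (hε : ε = 1 / k ^ 2) (hR2 : R ^ 2 = s ^ 4 - ε * (p ^ 2 + r ^ 2)) :
    (l / (s ^ 2 * k) * (α * p + c * a * r))
        * (l / (s ^ 2 * k) * (α' * p + c * a' * r))
      + (l / s / k) * ((l / s / k) * (k ^ 2 * (
          (α * (s - ε * (p * p) / (s * (s ^ 2 + R))) + c * a * -(ε * (p * r) / (s * (s ^ 2 + R))))
          * (α' * (s - ε * (p * p) / (s * (s ^ 2 + R)))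
              + c * a' * -(ε * (p * r) / (s * (s ^ 2 + R))))
        + (α * -(ε * (p * r) / (s * (s ^ 2 + R))) + c * a * (s - ε * (r * r) / (s * (s ^ 2 + R))))
          * (α' * -(ε * (p * r) / (s * (s ^ 2 + R)))
              + c * a' * (s - ε * (r * r) / (s * (s ^ 2 + R))))))) =
      l ^ 2 * (α * α' + c ^ 2 * (a * a')) := by
  subst hε
  have hsR : (0 : ℝ) < s ^ 2 + R := by positivity
  field_simp at hR2 ⊢
  linear_combination (l ^ 2 * ((α * p + c * a * r) * (α' * p + c * a' * r))) * hR2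

/-- Every conformally flat metric on the torus has an isometric immersion into `ℝ⁴`. -/
theorem conformal (b c : ℝ) (hc : 0 < c) {lam : ℝ × ℝ → ℝ} (hl : ContDiff ℝ ∞ lam)
    (hlp : Per lam) (hlpos : ∀ z, 0 < lam z) :
    ∃ X : ℝ × ℝ → E4, ContDiff ℝ ∞ X ∧ Per X ∧ ∀ z a a',
      ⟪fderiv ℝ X z a, fderiv ℝ X z a'⟫ = lam z ^ 2 *
        ((a.1 + b * a.2) * (a'.1 + b * a'.2) + c ^ 2 * (a.2 * a'.2)) := by
  set ψ : ℝ × ℝ → ℝ := fun z => log (lam z) with hψ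
  have hψd : ContDiff ℝ ∞ ψ := hl.log fun z => (hlpos z).ne'
  have hψp : Per ψ := fun u v => ⟨by simp [hψ, (hlp u v).1], by simp [hψ, (hlp u v).2]⟩
  obtain ⟨e₀, K, s, he0, -, hK, hsol⟩ := solve b c hc hψd hψp
  let e1 := fr₁
  let e2 := fr₂ b c
  let clamp : ℝ → ℝ := fun ε => max (-e₀) (min ε e₀)
  have hclamp : ∀ ε, |clamp ε| ≤ e₀ := fun ε => abs_le.2
    ⟨le_max_left _ _, max_le (by linarith) (min_le_right _ _)⟩
  have hclamp_eq : ∀ ε, |ε| ≤ e₀ → clamp ε = ε := fun ε hε => by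
    obtain ⟨h1, h2⟩ := abs_le.1 hε
    simp [clamp, min_eq_left h2, max_eq_right h1]
  let P : ℝ → Data := fun ε => Data.mk (s (clamp ε)) ψ (clamp ε) e1 e2
  -- joint continuity
  have lipc : ∀ (g : ℝ → ℝ × ℝ → ℝ), (∀ ε, |ε| ≤ e₀ → Continuous (g ε)) →
      (∀ ε ε', |ε| ≤ e₀ → |ε'| ≤ e₀ → ∀ z, |g ε z - g ε' z| ≤ K * |ε - ε'|) →
      Continuous fun p : ℝ × (ℝ × ℝ) => g (clamp p.1) p.2 := by
    intro g hg hlip
    rw [continuous_iff_continuousAt]
    rintro ⟨ε, z⟩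
    have hA : Filter.Tendsto (fun p : ℝ × (ℝ × ℝ) => g (clamp ε) p.2) (nhds (ε, z))
        (nhds (g (clamp ε) z)) := ((hg _ (hclamp ε)).comp continuous_snd).tendsto _
    have hB : Filter.Tendsto (fun p : ℝ × (ℝ × ℝ) => g (clamp p.1) p.2 - g (clamp ε) p.2)
        (nhds (ε, z)) (nhds 0) := by
      refine squeeze_zero_norm (fun p => hlip _ _ (hclamp _) (hclamp _) _) ?_
      have : Continuous fun p : ℝ × (ℝ × ℝ) => K * |clamp p.1 - clamp ε| := by
        simp only [clamp]; fun_prop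
      simpa using this.tendsto (ε, z)
    have := hB.add hA
    simpa [ContinuousAt] using this
  have sm : ∀ ε, ContDiff ℝ ∞ (P ε).s ∧ Per (P ε).s := fun ε =>
    ⟨(hsol _ (hclamp ε)).1, (hsol _ (hclamp ε)).2.1⟩
  have fr : ∀ a, a = e1 ∨ a = e2 → a = fr₁ ∨ a = fr₂ b c := fun a h => h
  have cs : Continuous fun p : ℝ × (ℝ × ℝ) => (P p.1).s p.2 :=
    lipc s (fun ε hε => (hsol ε hε).1.continuous) fun ε ε' hε hε' z =>
      (((hsol ε hε).2.2.2 e1 e1 (Or.inl rfl) (Or.inl rfl) z).2.2.2 ε' hε').1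
  have cs1 : ∀ a, a = e1 ∨ a = e2 → Continuous fun p : ℝ × (ℝ × ℝ) => D a (P p.1).s p.2 :=
    fun a ha => lipc (fun ε => D a (s ε)) (fun ε hε => (D_smooth (hsol ε hε).1).continuous)
      fun ε ε' hε hε' z => (((hsol ε hε).2.2.2 a a (fr a ha) (fr a ha) z).2.2.2 ε' hε').2.1
  have cs2 : ∀ a a', a = e1 ∨ a = e2 → a' = e1 ∨ a' = e2 →
      Continuous fun p : ℝ × (ℝ × ℝ) => D a (D a' (P p.1).s) p.2 :=
    fun a a' ha ha' => lipc (fun ε => D a (D a' (s ε)))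
      (fun ε hε => (D_smooth (D_smooth (hsol ε hε).1)).continuous)
      fun ε ε' hε hε' z => (((hsol ε hε).2.2.2 a a' (fr a ha) (fr a' ha') z).2.2.2 ε' hε').2.2
  have cp : ∀ a, Continuous fun p : ℝ × (ℝ × ℝ) => D a ψ p.2 := fun a =>
    (D_smooth hψd).continuous.comp continuous_snd
  have cpp : ∀ a a', Continuous fun p : ℝ × (ℝ × ℝ) => D a (D a' ψ) p.2 := fun a a' =>
    (D_smooth (D_smooth hψd)).continuous.comp continuous_snd
  have cε : Continuous fun p : ℝ × (ℝ × ℝ) => (P p.1).ε := by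
    show Continuous fun p : ℝ × (ℝ × ℝ) => clamp p.1
    simp only [clamp]; fun_prop
  have c1 : Continuous fun p : ℝ × (ℝ × ℝ) => (P p.1).s1 p.2 := cs1 e1 (Or.inl rfl)
  have c2 : Continuous fun p : ℝ × (ℝ × ℝ) => (P p.1).s2 p.2 := cs1 e2 (Or.inr rfl)
  have cq1 : Continuous fun p : ℝ × (ℝ × ℝ) => (P p.1).q1 p.2 := (cs.mul (cp e1)).sub c1
  have cq2 : Continuous fun p : ℝ × (ℝ × ℝ) => (P p.1).q2 p.2 := (cs.mul (cp e2)).sub c2
  have csq : Continuous fun p : ℝ × (ℝ × ℝ) => (P p.1).sq p.2 := (c1.mul cq1).add (c2.mul cq2)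
  have cG11 : Continuous fun p : ℝ × (ℝ × ℝ) => (P p.1).G11 p.2 :=
    ((((cs.pow 2).mul (cpp e1 e1)).add (c1.pow 2)).sub
      (cs.mul (cs2 e1 e1 (Or.inl rfl) (Or.inl rfl)))).sub
      ((continuous_const.mul (c1.mul cq1)).sub csq)
  have cG12 : Continuous fun p : ℝ × (ℝ × ℝ) => (P p.1).G12 p.2 :=
    ((((cs.pow 2).mul (cpp e1 e2)).add (c1.mul c2)).sub
      (cs.mul (cs2 e1 e2 (Or.inl rfl) (Or.inr rfl)))).sub ((c1.mul cq2).add (c2.mul cq1))
  have cG22 : Continuous fun p : ℝ × (ℝ × ℝ) => (P p.1).G22 p.2 :=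
    ((((cs.pow 2).mul (cpp e2 e2)).add (c2.pow 2)).sub
      (cs.mul (cs2 e2 e2 (Or.inr rfl) (Or.inr rfl)))).sub
      ((continuous_const.mul (c2.mul cq2)).sub csq)
  have cRsq : Continuous fun p : ℝ × (ℝ × ℝ) => (P p.1).Rsq p.2 :=
    (cs.pow 4).sub (cε.mul ((cq1.pow 2).add (cq2.pow 2)))
  have hper : ∀ ε, Per (P ε).s1 ∧ Per (P ε).s2 ∧ Per (P ε).q1 ∧ Per (P ε).q2 ∧
      Per (P ε).G11 ∧ Per (P ε).G12 ∧ Per (P ε).G22 ∧ Per (P ε).Rsq :=
    fun ε => data_per (P ε) (sm ε).2 hψp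
  have cl0 : clamp 0 = 0 := hclamp_eq 0 (by simpa using he0.le)
  have s0 : ∀ z, (P 0).s z = 1 := fun z => by
    have := ((hsol 0 (by simpa using he0.le)).2.2.2 e1 e1 (Or.inl rfl) (Or.inl rfl) z).1
    simp only [abs_zero, mul_zero, abs_nonpos_iff, sub_eq_zero] at this
    simpa [P, cl0] using this
  have s10 : ∀ a, a = e1 ∨ a = e2 → ∀ z, D a (P 0).s z = 0 := fun a ha z => by
    have := ((hsol 0 (by simpa using he0.le)).2.2.2 a a (fr a ha) (fr a ha) z).2.1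
    simp only [abs_zero, mul_zero, abs_nonpos_iff] at this
    simpa [P, cl0] using this
  have R0 : ∀ z, (P 0).Rsq z = 1 := fun z => by
    simp only [Data.Rsq, s0 z, show (P 0).ε = 0 from cl0]; ring
  -- first smallness: positivity
  have rest : ∀ {e : ℝ} {g : ℝ × (ℝ × ℝ) → ℝ}, Continuous g →
      Continuous fun p : Icc (-e) e × (ℝ × ℝ) => g ((p.1 : ℝ), p.2) := fun hg =>
    hg.comp ((continuous_subtype_val.comp continuous_fst).prodMk continuous_snd)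
  obtain ⟨ea, hea, hea0, hsa⟩ := tube he0 (f := fun ε => (P ε).s) (rest cs)
    (fun ε => (sm ε).2) s0 (δ := 1 / 2) (by norm_num)
  obtain ⟨eb, heb, heba, hRb⟩ := tube hea (f := fun ε => (P ε).Rsq) (rest cRsq)
    (fun ε => (hper ε).2.2.2.2.2.2.2) R0 (δ := 1 / 2) (by norm_num)
  let cl : ℝ → ℝ := fun ε => max (-eb) (min ε eb)
  have hcl : ∀ ε, |cl ε| ≤ eb := fun ε => abs_le.2
    ⟨le_max_left _ _, max_le (by linarith) (min_le_right _ _)⟩
  have hcl_eq : ∀ ε, |ε| ≤ eb → cl ε = ε := fun ε hε => by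
    obtain ⟨h1, h2⟩ := abs_le.1 hε
    simp [cl, min_eq_left h2, max_eq_right h1]
  have ok : ∀ ε, (P (cl ε)).Ok := fun ε =>
    { hs := (sm _).1
      hψ := hψd
      spos := fun z => by linarith [(abs_le.1 (hsa _ ((hcl ε).trans heba) z)).1]
      rpos := fun z => by linarith [(abs_le.1 (hRb _ (hcl ε) z)).1] }
  -- connection and coframe
  have ccl : Continuous fun p : ℝ × (ℝ × ℝ) => (cl p.1, p.2) := by simp only [cl]; fun_prop
  have cR : Continuous fun p : ℝ × (ℝ × ℝ) => (P (cl p.1)).R p.2 := (cRsq.comp ccl).sqrt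
  have cK : Continuous fun p : ℝ × (ℝ × ℝ) => (P (cl p.1)).K p.2 :=
    (cs.comp ccl).mul (((cs.comp ccl).pow 2).add cR)
  have ne_s : ∀ p : ℝ × (ℝ × ℝ), (P (cl p.1)).s p.2 ≠ 0 := fun p => ((ok p.1).spos p.2).ne'
  have ne_RK : ∀ p : ℝ × (ℝ × ℝ), (P (cl p.1)).R p.2 * (P (cl p.1)).K p.2 ≠ 0 := fun p =>
    (mul_pos ((ok p.1).Rpos p.2) ((ok p.1).Kpos p.2)).ne'
  have ne_K : ∀ p : ℝ × (ℝ × ℝ), (P (cl p.1)).K p.2 ≠ 0 := fun p => ((ok p.1).Kpos p.2).ne'
  have ca1 : Continuous fun p : ℝ × (ℝ × ℝ) => (P (cl p.1)).a1 p.2 :=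
    (((c2.comp ccl).neg).div (cs.comp ccl) ne_s).add
      ((((cε.comp ccl)).mul (((cq1.comp ccl).mul (cG12.comp ccl)).sub
        ((cq2.comp ccl).mul (cG11.comp ccl)))).div (cR.mul cK) ne_RK)
  have ca2 : Continuous fun p : ℝ × (ℝ × ℝ) => (P (cl p.1)).a2 p.2 :=
    ((c1.comp ccl).div (cs.comp ccl) ne_s).add
      ((((cε.comp ccl)).mul (((cq1.comp ccl).mul (cG22.comp ccl)).sub
        ((cq2.comp ccl).mul (cG12.comp ccl)))).div (cR.mul cK) ne_RK)
  have cV11 : Continuous fun p : ℝ × (ℝ × ℝ) => (P (cl p.1)).V11 p.2 :=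
    (cs.comp ccl).sub (((cε.comp ccl).mul ((cq1.comp ccl).mul (cq1.comp ccl))).div cK ne_K)
  have cV12 : Continuous fun p : ℝ × (ℝ × ℝ) => (P (cl p.1)).V12 p.2 :=
    (((cε.comp ccl).mul ((cq1.comp ccl).mul (cq2.comp ccl))).div cK ne_K).neg
  have cV22 : Continuous fun p : ℝ × (ℝ × ℝ) => (P (cl p.1)).V22 p.2 :=
    (cs.comp ccl).sub (((cε.comp ccl).mul ((cq2.comp ccl).mul (cq2.comp ccl))).div cK ne_K)
  have hperK : ∀ ε, Per (P ε).K ∧ Per (P ε).R := fun ε => by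
    have hR : Per (P ε).R := fun u v => ⟨by
      simp only [Data.R, ((hper ε).2.2.2.2.2.2.2 u v).1], by
      simp only [Data.R, ((hper ε).2.2.2.2.2.2.2 u v).2]⟩
    exact ⟨fun u v => ⟨by simp only [Data.K, ((sm ε).2 u v).1, (hR u v).1],
      by simp only [Data.K, ((sm ε).2 u v).2, (hR u v).2]⟩, hR⟩
  have hperA : ∀ ε, Per (P ε).a1 ∧ Per (P ε).a2 ∧ Per (P ε).V11 ∧ Per (P ε).V12 ∧ Per (P ε).V22 := by
    intro ε
    obtain ⟨h1, h2, hq1, hq2, g11, g12, g22, -⟩ := hper ε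
    obtain ⟨hK', hR⟩ := hperK ε
    have h0 := (sm ε).2
    refine ⟨fun u v => ⟨?_, ?_⟩, fun u v => ⟨?_, ?_⟩, fun u v => ⟨?_, ?_⟩, fun u v => ⟨?_, ?_⟩,
      fun u v => ⟨?_, ?_⟩⟩ <;>
    simp only [Data.a1, Data.a2, Data.V11, Data.V12, Data.V22, (h0 u v).1, (h0 u v).2, (h1 u v).1,
      (h1 u v).2, (h2 u v).1, (h2 u v).2, (hq1 u v).1, (hq1 u v).2, (hq2 u v).1, (hq2 u v).2,
      (g11 u v).1, (g11 u v).2, (g12 u v).1, (g12 u v).2, (g22 u v).1, (g22 u v).2, (hK' u v).1,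
      (hK' u v).2, (hR u v).1, (hR u v).2]
  let au : ℝ → ℝ × ℝ → ℝ := fun ε => (P (cl ε)).a1
  let av : ℝ → ℝ × ℝ → ℝ := fun ε z => b * (P (cl ε)).a1 z + c * (P (cl ε)).a2 z
  let U₁ : ℝ → ℝ × ℝ → ℂ := fun ε z =>
    ((P (cl ε)).V11 z : ℂ) + ((P (cl ε)).V12 z : ℂ) * Complex.I
  let U₂ : ℝ → ℝ × ℝ → ℂ := fun ε z => (b : ℂ) * U₁ ε z
    + (c : ℂ) * (((P (cl ε)).V12 z : ℂ) + ((P (cl ε)).V22 z : ℂ) * Complex.I)
  have cl00 : cl 0 = 0 := hcl_eq 0 (by simpa using heb.le)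
  have R00 : ∀ z, (P 0).R z = 1 := fun z => by simp [Data.R, R0 z]
  have s120 : ∀ z, (P 0).s1 z = 0 ∧ (P 0).s2 z = 0 := fun z =>
    ⟨s10 e1 (Or.inl rfl) z, s10 e2 (Or.inr rfl) z⟩
  have at0 : ∀ z, au 0 z = 0 ∧ av 0 z = 0 ∧ U₁ 0 z = 1 ∧ U₂ 0 z = b + c * Complex.I := by
    intro z
    simp only [au, av, U₁, U₂, cl00, Data.a1, Data.a2, Data.V11, Data.V12, Data.V22,
      show (P 0).ε = 0 from cl0, s0 z, (s120 z).1, (s120 z).2]
    norm_num
  obtain ⟨δ₀, hδ₀, C, hdev⟩ := develop b c hc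
  set τ : ℝ := min 1 (π * c / (2 * (2 + |b| + c))) with hτ
  have hτpos : 0 < τ := lt_min one_pos (by positivity)
  set δ : ℝ := min δ₀ (τ / (|C| + 1)) with hδdef
  have hδpos : 0 < δ := lt_min hδ₀ (by positivity)
  have hCδ : C * δ ≤ τ := by
    calc C * δ ≤ (|C| + 1) * δ := by gcongr; linarith [le_abs_self C]
      _ ≤ (|C| + 1) * (τ / (|C| + 1)) := by gcongr; exact min_le_right _ _
      _ = τ := by field_simp
  have cU1 : Continuous fun p : ℝ × (ℝ × ℝ) => U₁ p.1 p.2 := by simp only [U₁]; fun_prop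
  have cU2 : Continuous fun p : ℝ × (ℝ × ℝ) => U₂ p.1 p.2 := by simp only [U₂, U₁]; fun_prop
  have perU : ∀ ε, Per (U₁ ε) ∧ Per (U₂ ε) := fun ε => by
    obtain ⟨-, -, v11, v12, v22⟩ := hperA (cl ε)
    refine ⟨fun u v => ⟨?_, ?_⟩, fun u v => ⟨?_, ?_⟩⟩ <;>
    simp only [U₁, U₂, (v11 u v).1, (v11 u v).2, (v12 u v).1, (v12 u v).2, (v22 u v).1,
      (v22 u v).2]
  have perav : ∀ ε, Per (av ε) := fun ε u v => by
    obtain ⟨p1, p2, -⟩ := hperA (cl ε)
    constructor <;> simp only [av, (p1 u v).1, (p1 u v).2, (p2 u v).1, (p2 u v).2]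
  obtain ⟨ec, hec, hecb, hsmall⟩ := tube heb
    (f := fun ε z => |au ε z| + |av ε z| + ‖U₁ ε z - 1‖ + ‖U₂ ε z - (b + c * Complex.I)‖)
    (c₀ := 0)
    (rest (((ca1.abs).add (((continuous_const.mul ca1).add (continuous_const.mul ca2)).abs)).add
      ((cU1.sub continuous_const).norm) |>.add ((cU2.sub continuous_const).norm)))
    (fun ε u v => by
      obtain ⟨p1, -⟩ := hperA (cl ε)
      constructor <;>
      simp only [au, (p1 u v).1, (p1 u v).2, (perav ε u v).1, (perav ε u v).2, ((perU ε).1 u v).1,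
        ((perU ε).1 u v).2, ((perU ε).2 u v).1, ((perU ε).2 u v).2])
    (fun z => by simp [at0 z]) (δ := δ) hδpos
  -- flatness and developing maps
  have flat : ∀ ε z, D e1 (P (cl ε)).a2 z - D e2 (P (cl ε)).a1 z = 0 := by
    intro ε z
    obtain ⟨C', hC'⟩ := (hsol (clamp (cl ε)) (hclamp _)).2.2.1
    have hT : ∀ w, (P (cl ε)).T w = C' := hC'
    obtain ⟨p1, p2, -⟩ := hperA (cl ε)
    have hcurl : ∀ w, D e1 (P (cl ε)).a2 w - D e2 (P (cl ε)).a1 w
        = -C' * (1 / (P (cl ε)).R w ^ 3) := fun w => by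
      rw [(ok ε).curl w |> fun h => (h : D e1 _ w - D e2 _ w = _), hT w]; ring
    have := curl_const_zero b c (ok ε).da1 (ok ε).da2 p1 p2 (w := fun w => 1 / (P (cl ε)).R w ^ 3)
      (continuous_const.div ((ok ε).dR.continuous.pow 3) fun w => by
        exact (pow_pos ((ok ε).Rpos w) 3).ne')
      (fun w => by have := (ok ε).Rpos w; positivity) hcurl
    rw [hcurl z, this, zero_mul]
  have devl : ∀ ε, |ε| ≤ ec → ∃ (θ : ℝ × ℝ → ℝ) (Φ : ℝ × ℝ → ℂ) (w₂ : ℂ),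
      ContDiff ℝ ∞ Φ ∧
      (∀ z a, fderiv ℝ Φ z a
        = Complex.exp ((θ z : ℂ) * Complex.I) * ((a.1 : ℂ) * U₁ ε z + (a.2 : ℂ) * U₂ ε z)) ∧
      (∀ u v, Φ (u + 2 * π, v) = Φ (u, v) + period₁ (au ε) (U₁ ε)) ∧
      (∀ u v, Φ (u, v + 2 * π) = Φ (u, v) + w₂) ∧
      ‖period₁ (au ε) (U₁ ε) - 2 * π‖ ≤ τ ∧ ‖w₂ - 2 * π * (b + c * Complex.I)‖ ≤ τ := by
    intro ε hε
    have hb := hsmall ε hε
    have bd : ∀ z, |au ε z| ≤ δ ∧ |av ε z| ≤ δ ∧ ‖U₁ ε z - 1‖ ≤ δ ∧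
        ‖U₂ ε z - (b + c * Complex.I)‖ ≤ δ := fun z => by
      have := (abs_le.1 (hb z)).2
      simp only [sub_zero] at this
      refine ⟨?_, ?_, ?_, ?_⟩ <;> linarith [abs_nonneg (au ε z), abs_nonneg (av ε z),
        norm_nonneg (U₁ ε z - 1), norm_nonneg (U₂ ε z - (b + c * Complex.I))]
    have sc : ∀ f : ℝ × ℝ → ℝ, ContDiff ℝ ∞ f → ContDiff ℝ ∞ fun z => (f z : ℂ) := fun f hf =>
      Complex.ofRealCLM.contDiff.comp hf
    have o := ok ε
    have dcol1 : ContDiff ℝ ∞ (U₁ ε) := (sc _ o.dV11).add ((sc _ o.dV12).mul contDiff_const)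
    have dcol2 : ContDiff ℝ ∞ (U₂ ε) := (contDiff_const.mul dcol1).add
      (contDiff_const.mul ((sc _ o.dV12).add ((sc _ o.dV22).mul contDiff_const)))
    have ecl : ∀ z, fderiv ℝ (au ε) z (0, 1) = fderiv ℝ (av ε) z (1, 0) := by
      intro z
      have hav : fderiv ℝ (av ε) z (1, 0)
          = b * fderiv ℝ (P (cl ε)).a1 z (1, 0) + c * fderiv ℝ (P (cl ε)).a2 z (1, 0) := by
        simp only [av]
        rw [((((o.da1.differentiable (by simp)) z).hasFDerivAt.const_mul b).fun_add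
          (((o.da2.differentiable (by simp)) z).hasFDerivAt.const_mul c)).fderiv]
        simp
      rw [hav, D_frame b c hc (au ε) z (0, 1)]
      have := flat ε z
      simp only [D, e1, e2, fr₁] at this ⊢
      simp only [au]
      linear_combination -c * this
    have ecf : ∀ z, fderiv ℝ (U₂ ε) z (1, 0) - fderiv ℝ (U₁ ε) z (0, 1)
        + Complex.I * ((au ε z : ℂ) * U₂ ε z - (av ε z : ℂ) * U₁ ε z) = 0 := by
      intro z
      have df : ∀ f : ℝ × ℝ → ℝ, ContDiff ℝ ∞ f →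
          HasFDerivAt (fun z => (f z : ℂ)) (Complex.ofRealCLM.comp (fderiv ℝ f z)) z := fun f hf =>
        Complex.ofRealCLM.hasFDerivAt.comp z ((hf.differentiable (by simp)) z).hasFDerivAt
      have h11 := df _ o.dV11
      have h12 := df _ o.dV12
      have h22 := df _ o.dV22
      have d1 : HasFDerivAt (U₁ ε) _ z := h11.add (h12.mul_const Complex.I)
      have d2 : HasFDerivAt (U₂ ε) _ z :=
        (d1.const_mul (b : ℂ)).add ((h12.add (h22.mul_const Complex.I)).const_mul (c : ℂ))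
      rw [d1.fderiv, d2.fderiv]
      obtain ⟨ha, hb'⟩ := o.closedness z
      simp only [add_apply, smul_apply, ContinuousLinearMap.comp_apply, Complex.ofRealCLM_apply,
        smul_eq_mul]
      rw [D_frame b c hc (P (cl ε)).V11 z (0, 1), D_frame b c hc (P (cl ε)).V12 z (0, 1),
        D_frame b c hc (P (cl ε)).V11 z (1, 0), D_frame b c hc (P (cl ε)).V12 z (1, 0),
        D_frame b c hc (P (cl ε)).V22 z (1, 0)]
      simp only [P, e1, e2, au, av, U₁, U₂] at ha hb' ⊢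
      have hac := congrArg (fun x : ℝ => (x : ℂ)) ha
      have hbc := congrArg (fun x : ℝ => (x : ℂ)) hb'
      push_cast at hac hbc ⊢
      linear_combination (c : ℂ) * Complex.I * hac - (c : ℂ) * hbc
        + (c : ℂ) * ((P (cl ε)).a1 z * (P (cl ε)).V22 z - (P (cl ε)).a2 z * (P (cl ε)).V12 z)
          * Complex.I_mul_I
    obtain ⟨θ, Φ, w₂, h1, h2, h3, h4, h5, h6⟩ := hdev (au ε) (av ε) (U₁ ε) (U₂ ε) δ o.da1
      ((contDiff_const.mul o.da1).add (contDiff_const.mul o.da2)) dcol1 dcol2 (hperA _).1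
      (perav ε) (perU ε).1 (perU ε).2 ecl ecf (min_le_left _ _) (fun z => (bd z).1)
      (fun z => (bd z).2.1) (fun z => (bd z).2.2.1) (fun z => (bd z).2.2.2)
    exact ⟨θ, Φ, w₂, h1, h2, h3, h4, h5.trans hCδ, h6.trans hCδ⟩
  -- choice of k
  set pr : ℝ → ℂ := fun ε => period₁ (au ε) (U₁ ε) with hpr
  have cpr : Continuous pr := by
    simp only [hpr, period₁]
    apply intervalIntegral.continuous_parametric_intervalIntegral_of_continuous'
    have hin : Continuous fun p : ℝ × ℝ => ∫ s in (0 : ℝ)..p.2, au p.1 (s, 0) := by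
      refine intervalIntegral.continuous_parametric_intervalIntegral_of_continuous
        (f := fun p : ℝ × ℝ => fun s => au p.1 (s, 0)) ?_ continuous_snd
      exact ca1.comp (by fun_prop : Continuous fun q : (ℝ × ℝ) × ℝ => (q.1.1, (q.2, (0 : ℝ))))
    exact ((Complex.continuous_ofReal.comp hin).mul continuous_const).cexp.mul
      (cU1.comp (by fun_prop : Continuous fun q : ℝ × ℝ => (q.1, (q.2, (0 : ℝ)))))
  set k₀ : ℝ := max (max 2 (3 / c)) (1 / √ec) with hk₀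
  have hk₀2 : 2 ≤ k₀ := le_trans (le_max_left _ _) (le_max_left _ _)
  have small : ∀ k, k₀ ≤ k → |1 / k ^ 2| ≤ ec := by
    intro k hk
    have hk' : 1 / √ec ≤ k := (le_max_right _ _).trans hk
    have hkpos : 0 < k := by linarith
    rw [abs_of_pos (by positivity), div_le_iff₀ (by positivity)]
    rw [div_le_iff₀ (sqrt_pos.2 hec)] at hk'
    nlinarith [sq_sqrt hec.le]
  have wb : ∀ k, k₀ ≤ k → π ≤ ‖pr (1 / k ^ 2)‖ ∧ ‖pr (1 / k ^ 2)‖ ≤ 3 * π := by
    intro k hk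
    obtain ⟨-, -, -, -, -, -, -, h5, -⟩ := devl _ (small k hk)
    have hτ1 : τ ≤ 1 := min_le_left _ _
    have h2π : ‖(2 * π : ℂ)‖ = 2 * π := by
      simp [abs_of_pos Real.pi_pos]
    have a := norm_sub_norm_le (2 * (π : ℂ)) (pr (1 / k ^ 2))
    have b' := norm_sub_norm_le (pr (1 / k ^ 2)) (2 * (π : ℂ))
    rw [norm_sub_rev] at a
    constructor <;> linarith [Real.two_le_pi]
  set h : ℝ → ℝ := fun k => k * ‖pr (1 / k ^ 2)‖ with hh
  obtain ⟨M, hM⟩ : ∃ M : ℕ, h k₀ / (2 * π) ≤ M := exists_nat_ge _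
  set k₁ : ℝ := max k₀ (2 * (M + 1)) with hk₁
  have hcont : ContinuousOn h (Icc k₀ k₁) := by
    refine continuousOn_id.mul (cpr.comp_continuousOn ?_).norm
    exact continuousOn_const.div (continuousOn_id.pow 2) fun k hk => by
      have : (0 : ℝ) < k := by linarith [hk.1]
      positivity
  have hlo : h k₀ ≤ 2 * π * (M + 1 : ℕ) := by
    rw [div_le_iff₀ Real.two_pi_pos] at hM
    push_cast; nlinarith [Real.pi_pos]
  have hhi : 2 * π * (M + 1 : ℕ) ≤ h k₁ := by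
    have hk : k₀ ≤ k₁ := le_max_left _ _
    have h2 : 2 * ((M : ℝ) + 1) ≤ k₁ := le_max_right _ _
    have h3 := (wb k₁ hk).1
    push_cast
    calc 2 * π * ((M : ℝ) + 1) = 2 * ((M : ℝ) + 1) * π := by ring
      _ ≤ k₁ * ‖pr (1 / k₁ ^ 2)‖ := by gcongr
  obtain ⟨k, hkI, hk⟩ := intermediate_value_Icc (le_max_left _ _) hcont ⟨hlo, hhi⟩
  have hk0 : k₀ ≤ k := hkI.1
  have hkpos : 0 < k := by linarith
  set ε : ℝ := 1 / k ^ 2 with hε
  obtain ⟨θ, Φ, w₂, hΦd, hΦ', hΦ1, hΦ2, h5, h6⟩ := devl ε (small k hk0)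
  set w₁ : ℂ := pr ε with hw₁
  have hw1n : ‖(k : ℂ) * w₁‖ = 2 * π * (M + 1 : ℕ) := by
    rw [norm_mul, Complex.norm_real, norm_eq_abs, abs_of_pos hkpos]; exact hk
  have hperp : 2 * π * ‖(k : ℂ) * w₁‖ ≤ (conj ((k : ℂ) * w₁) * ((k : ℂ) * w₂)).im :=
    perp_bound hc hkpos ((le_max_right _ _).trans (le_max_left _ _) |>.trans hk0)
      hτpos (min_le_left _ _) (min_le_right _ _) h5 h6 (wb k hk0).2
  obtain ⟨Y, hYd, hY1, hYw1, hYw2, hYiso⟩ := hopf (Nat.le_add_left 1 M) hw1n hperp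
  -- the immersion
  have hεb : |ε| ≤ eb := (small k hk0).trans hecb
  have o := ok ε
  have hε0 : (P (cl ε)).ε = ε := by
    show clamp (cl ε) = ε
    rw [hcl_eq ε hεb]; exact hclamp_eq ε (hεb.trans (heba.trans hea0))
  set S : ℝ × ℝ → ℝ := fun z => lam z / (P (cl ε)).s z / k with hS
  have hSd : ContDiff ℝ ∞ S := (hl.div o.hs fun z => (o.spos z).ne').div_const _
  let Z : ℝ × ℝ → ℂ := fun z => (k : ℂ) * Φ z
  have hZd : ContDiff ℝ ∞ Z := contDiff_const.mul hΦd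
  refine ⟨fun z => S z • Y (Z z), hSd.smul (hYd.comp hZd), fun u v => ⟨?_, ?_⟩, fun z a a' => ?_⟩
  · simp only [Z, hS, (hlp u v).1, ((sm (cl ε)).2 u v).1, hΦ1, mul_add]
    rw [show period₁ (au ε) (U₁ ε) = w₁ from rfl, hYw1]
  · simp only [Z, hS, (hlp u v).2, ((sm (cl ε)).2 u v).2, hΦ2, mul_add]
    rw [hYw2]
  have hfd : ∀ a, fderiv ℝ (fun z => S z • Y (Z z)) z a
      = fderiv ℝ S z a • Y (Z z) + S z • fderiv ℝ Y (Z z) ((k : ℂ) * fderiv ℝ Φ z a) := by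
    intro a
    have h1 : HasFDerivAt Z ((k : ℂ) • fderiv ℝ Φ z) z :=
      ((hΦd.differentiable (by simp)) z).hasFDerivAt.const_mul (k : ℂ)
    have h2 : HasFDerivAt (fun z => Y (Z z)) ((fderiv ℝ Y (Z z)).comp ((k : ℂ) • fderiv ℝ Φ z)) z :=
      ((hYd.differentiable (by simp)) (Z z)).hasFDerivAt.comp z h1
    rw [(((hSd.differentiable (by simp)) z).hasFDerivAt.fun_smul h2).fderiv]
    simp [add_comm]
  have horth : ∀ x, ⟪Y (Z z), fderiv ℝ Y (Z z) x⟫ = 0 := sphere_orth hYd hY1 (Z z)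
  rw [hfd, hfd]
  simp only [inner_add_left, inner_add_right, real_inner_smul_left, real_inner_smul_right, hYiso,
    horth, real_inner_comm (Y (Z z)), real_inner_self_eq_norm_sq, hY1, one_pow, mul_zero, add_zero,
    zero_add, mul_one]
  have hinner : ∀ x y : ℝ × ℝ,
      (⟪(k : ℂ) * fderiv ℝ Φ z x, (k : ℂ) * fderiv ℝ Φ z y⟫ : ℝ)
      = k ^ 2 * (((x.1 + b * x.2) * (P (cl ε)).V11 z + c * x.2 * (P (cl ε)).V12 z)
            * ((y.1 + b * y.2) * (P (cl ε)).V11 z + c * y.2 * (P (cl ε)).V12 z)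
          + ((x.1 + b * x.2) * (P (cl ε)).V12 z + c * x.2 * (P (cl ε)).V22 z)
            * ((y.1 + b * y.2) * (P (cl ε)).V12 z + c * y.2 * (P (cl ε)).V22 z)) := fun x y => by
    rw [hΦ', hΦ']
    exact rotated_inner k (θ z) b c _ _ _ x y
  rw [hinner]
  have hS' : ∀ a : ℝ × ℝ, fderiv ℝ S z a = lam z / ((P (cl ε)).s z ^ 2 * k)
      * ((a.1 + b * a.2) * (P (cl ε)).q1 z + c * a.2 * (P (cl ε)).q2 z) := by
    intro a
    have hq : ∀ e, D e S z = lam z / ((P (cl ε)).s z ^ 2 * k)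
        * ((P (cl ε)).s z * D e ψ z - D e (P (cl ε)).s z) := by
      intro e
      have hl0 := D_hasDeriv hl e z
      have hs0 := D_hasDeriv o.hs e z
      have hψ' : D e ψ z = D e lam z / lam z := by
        refine D_eq hψd ?_
        simpa [hψ] using hl0.log (by simpa using (hlpos z).ne')
      have hd : D e S z = (D e lam z * (P (cl ε)).s z - lam z * D e (P (cl ε)).s z)
          / (P (cl ε)).s z ^ 2 / k := by
        refine D_eq hSd ?_
        have := (hl0.fun_div hs0 (by simpa using (o.spos z).ne')).div_const k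
        simpa [hS] using this
      rw [hd, hψ']
      have := o.spos z
      have := hlpos z
      field_simp
    rw [D_frame b c hc S z a, hq, hq]
    simp only [Data.q1, Data.q2, Data.s1, Data.s2, P, e1, e2]
    ring
  rw [hS', hS']
  simp only [hS, Data.V11, Data.V12, Data.V22, Data.K, hε0]
  linear_combination final_identity (l := lam z) (c := c) (α := a.1 + b * a.2)
    (α' := a'.1 + b * a'.2) (a := a.2) (a' := a'.2) (o.spos z) (o.Rpos z) hkpos hε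
    (by have := o.R_sq z; simp only [Data.Rsq] at this; rwa [hε0] at this)

end Vale.Agent.P205
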