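import Vale.Agent.P205.Full.Coef

/-!
# Evaluation of coefficient sequences, smooth periodic functions (P205)
-/

noncomputable section

open scoped ENNReal ContDiff ComplexConjugate
open Real

namespace Vale.Agent.P205

/-- The character `z ↦ exp(i (m u + n v))`. -/
def efun (k : Freq) (z : ℝ × ℝ) : ℂ :=
  Complex.exp ((((k.1 : ℝ) * z.1 + (k.2 : ℝ) * z.2 : ℝ) : ℂ) * Complex.I)

def ev (c : Seq) (z : ℝ × ℝ) : ℂ := ∑' k, c k * efun k z

def evR (c : Seq) (z : ℝ × ℝ) : ℝ := (ev c z).re

def Rapid (c : Seq) : Prop := ∀ n, N n c ≠ ⊤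

/-- `2π`-periodic in both variables. -/
def Per {α : Type*} (f : ℝ × ℝ → α) : Prop :=
  ∀ u v, f (u + 2 * π, v) = f (u, v) ∧ f (u, v + 2 * π) = f (u, v)

/-- Multiplier of the directional derivative along `a`. -/
def dmul (a : ℝ × ℝ) (k : Freq) : ℂ :=
  Complex.I * (((k.1 : ℝ) * a.1 + (k.2 : ℝ) * a.2 : ℝ) : ℂ)

/-! ### Basic lemmas -/

theorem efun_add (a b : Freq) (z : ℝ × ℝ) : efun (a + b) z = efun a z * efun b z := by
  simp only [efun, ← Complex.exp_add, Prod.fst_add, Prod.snd_add]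
  congr 1
  push_cast
  ring

theorem norm_efun (k : Freq) (z : ℝ × ℝ) : ‖efun k z‖ = 1 :=
  Complex.norm_exp_ofReal_mul_I _

theorem continuous_efun (k : Freq) : Continuous (efun k) := by
  unfold efun; fun_prop

theorem summable_norm_of_N {c : Seq} (h : N 0 c ≠ ⊤) : Summable fun k => ‖c k‖ := by
  simp only [N, pow_zero, one_mul] at h
  simpa [toReal_enorm] using ENNReal.summable_toReal h

theorem norm_term (c : Seq) (z : ℝ × ℝ) (k : Freq) : ‖c k * efun k z‖ = ‖c k‖ := by
  rw [norm_mul, norm_efun, mul_one]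

theorem summable_norm_term {c : Seq} (h : N 0 c ≠ ⊤) (z : ℝ × ℝ) :
    Summable fun k => ‖c k * efun k z‖ := by
  simpa only [norm_term] using summable_norm_of_N h

theorem summable_term {c : Seq} (h : N 0 c ≠ ⊤) (z : ℝ × ℝ) :
    Summable fun k => c k * efun k z :=
  (summable_norm_term h z).of_norm

theorem toReal_wt (k : Freq) : (wt k).toReal = 1 + |(k.1 : ℝ)| + |(k.2 : ℝ)| := by
  rw [wt, ENNReal.toReal_natCast]
  push_cast [Nat.cast_natAbs]
  rfl

theorem norm_dmul_le (a : ℝ × ℝ) (k : Freq) :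
    ‖dmul a k‖ ≤ (|a.1| + |a.2|) * (1 + |(k.1 : ℝ)| + |(k.2 : ℝ)|) := by
  rw [dmul, norm_mul, Complex.norm_I, one_mul, Complex.norm_real, Real.norm_eq_abs]
  refine (abs_add_le _ _).trans ?_
  rw [abs_mul, abs_mul]
  have := abs_nonneg a.1
  have := abs_nonneg a.2
  have := abs_nonneg (k.1 : ℝ)
  have := abs_nonneg (k.2 : ℝ)
  nlinarith

/-! ### Fourier coefficients in one variable -/

/-- The one-variable character. -/
def ech (m : ℤ) (x : ℝ) : ℂ := Complex.exp ((((m : ℝ) * x : ℝ) : ℂ) * Complex.I)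

theorem norm_ech (m : ℤ) (x : ℝ) : ‖ech m x‖ = 1 := Complex.norm_exp_ofReal_mul_I _

theorem continuous_ech (m : ℤ) : Continuous (ech m) := by
  unfold ech; fun_prop

theorem ech_per (m : ℤ) (x : ℝ) : ech m (x + 2 * π) = ech m x := by
  simp only [ech]
  rw [show ((((m : ℝ) * (x + 2 * π) : ℝ) : ℂ) * Complex.I)
      = (((m : ℝ) * x : ℝ) : ℂ) * Complex.I + (m : ℂ) * (2 * π * Complex.I) by push_cast; ring,
    Complex.exp_add, Complex.exp_int_mul_two_pi_mul_I, mul_one]

theorem efun_eq (k : Freq) (u v : ℝ) : efun k (u, v) = ech k.1 u * ech k.2 v := by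
  simp only [efun, ech, ← Complex.exp_add]
  congr 1
  push_cast
  ring

theorem hasDerivAt_ech (m : ℤ) (x : ℝ) :
    HasDerivAt (ech m) (ech m x * ((m : ℂ) * Complex.I)) x := by
  have h : HasDerivAt (fun x : ℝ => (((m : ℝ) * x : ℝ) : ℂ) * Complex.I)
      ((m : ℂ) * Complex.I) x := by
    simpa using ((((hasDerivAt_id' x).const_mul (m : ℝ)).ofReal_comp).mul_const Complex.I)
  exact h.cexp

theorem conj_ech (m : ℤ) (x : ℝ) : conj (ech m x) = ech (-m) x := by
  simp only [ech, ← Complex.exp_conj]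
  simp

/-- The Fourier coefficient of a periodic function. -/
def coef (g : ℝ → ℂ) (m : ℤ) : ℂ :=
  (2 * π : ℂ)⁻¹ * ∫ x in (0:ℝ)..(2 * π), ech (-m) x * g x

theorem norm_coef_le {g : ℝ → ℂ} {B : ℝ} (hB : ∀ x, ‖g x‖ ≤ B) (m : ℤ) : ‖coef g m‖ ≤ B := by
  have h := intervalIntegral.norm_integral_le_of_norm_le_const (a := (0:ℝ)) (b := 2 * π)
    (f := fun x => ech (-m) x * g x) (C := B) fun x _ => by
      rw [norm_mul, norm_ech, one_mul]; exact hB x
  rw [sub_zero, abs_of_pos Real.two_pi_pos] at h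
  rw [coef, norm_mul, norm_inv, show ‖(2 * π : ℂ)‖ = 2 * π by
    simp [Real.pi_pos.le], inv_mul_le_iff₀ Real.two_pi_pos]
  linarith

theorem coef_const_mul (a : ℂ) (g : ℝ → ℂ) (m : ℤ) :
    coef (fun x => a * g x) m = a * coef g m := by
  simp only [coef, mul_left_comm _ a, intervalIntegral.integral_const_mul]

/-- Integration by parts. -/
theorem coef_deriv {g g' : ℝ → ℂ} (hd : ∀ x, HasDerivAt g (g' x) x) (hc : Continuous g')
    (hper : Function.Periodic g (2 * π)) (m : ℤ) :
    coef g' m = (m : ℂ) * Complex.I * coef g m := by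
  have he : Continuous fun x => ech (-m) x * ((((-m : ℤ)) : ℂ) * Complex.I) :=
    (continuous_ech _).mul continuous_const
  have h := intervalIntegral.integral_mul_deriv_eq_deriv_mul (a := (0:ℝ)) (b := 2 * π)
    (fun x _ => hasDerivAt_ech (-m) x) (fun x _ => hd x) (he.intervalIntegrable _ _)
    (hc.intervalIntegrable _ _)
  have e : ∀ x, ech (-m) x * ((((-m : ℤ)) : ℂ) * Complex.I) * g x
      = -((m : ℂ) * Complex.I) * (ech (-m) x * g x) := fun x => by push_cast; ring
  simp only [e, intervalIntegral.integral_const_mul] at h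
  rw [show g (2 * π) = g 0 by simpa using hper 0,
    show ech (-m) (2 * π) = ech (-m) 0 by simpa using ech_per (-m) 0, sub_self, zero_sub] at h
  rw [coef, h, coef]
  ring

theorem coef_conj (g : ℝ → ℂ) (m : ℤ) : conj (coef g m) = coef (fun x => conj (g x)) (-m) := by
  simp only [coef, map_mul, map_inv₀, map_ofNat, Complex.conj_ofReal, neg_neg]
  congr 1
  rw [intervalIntegral.integral_of_le Real.two_pi_pos.le,
    intervalIntegral.integral_of_le Real.two_pi_pos.le, ← integral_conj]
  exact MeasureTheory.integral_congr_ae (Filter.Eventually.of_forall fun x => by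
    simp [conj_ech])

/-- Fourier inversion for a continuous periodic function with summable coefficients. -/
theorem hasSum_coef {g : ℝ → ℂ} (hg : Continuous g) (hper : Function.Periodic g (2 * π))
    (hs : Summable (coef g)) (x : ℝ) : HasSum (fun m => coef g m * ech m x) (g x) := by
  have : Fact (0 < 2 * π) := ⟨Real.two_pi_pos⟩
  let G : C(AddCircle (2 * π), ℂ) := ⟨hper.lift, hg.quotient_liftOn' _⟩
  have hG : ∀ y : ℝ, G y = g y := fun y => hper.lift_coe y
  have hπ : ((π : ℝ) : ℂ) ≠ 0 := Complex.ofReal_ne_zero.2 Real.pi_ne_zero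
  have he : ∀ (m : ℤ) (y : ℝ), fourier m (y : AddCircle (2 * π)) = ech m y := by
    intro m y
    rw [fourier_coe_apply, ech]
    congr 1
    push_cast
    field_simp
  have hc : fourierCoeff G = coef g := by
    funext m
    rw [fourierCoeff_eq_intervalIntegral _ m 0, zero_add, coef]
    simp only [smul_eq_mul, Complex.real_smul, hG, he]
    congr 1
    push_cast
    ring
  have h := has_pointwise_sum_fourier_series_of_summable (f := G) (by rw [hc]; exact hs) (x : AddCircle (2 * π))
  simpa only [hc, hG, he, smul_eq_mul] using h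

/-! ### Two variables -/

/-- The coefficient in both variables. -/
def coef2 (F : ℝ × ℝ → ℂ) (k : Freq) : ℂ := coef (fun v => coef (fun u => F (u, v)) k.1) k.2

/-- The partial derivative in the first variable. -/
def du (F : ℝ × ℝ → ℂ) (z : ℝ × ℝ) : ℂ := fderiv ℝ F z (1, 0)

theorem continuous_slice {F : ℝ × ℝ → ℂ} (hF : Continuous F) (m : ℤ) :
    Continuous fun v => coef (fun u => F (u, v)) m := by
  unfold coef
  refine continuous_const.mul ?_
  apply intervalIntegral.continuous_parametric_intervalIntegral_of_continuous'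
  exact ((continuous_ech _).comp continuous_snd).mul
    (hF.comp (continuous_snd.prodMk continuous_fst))

theorem contDiff_du {F : ℝ × ℝ → ℂ} (hF : ContDiff ℝ ∞ F) : ContDiff ℝ ∞ (du F) :=
  (hF.fderiv_right (m := ∞) le_rfl).clm_apply contDiff_const

theorem per_du {F : ℝ × ℝ → ℂ} (hp : Per F) : Per (du F) := by
  have key : ∀ w, (∀ z, F (z + w) = F z) → ∀ z, du F (z + w) = du F z := by
    intro w hw z
    simp only [du, ← fderiv_comp_add_right w, hw]
  intro u v
  constructor
  · simpa using key (2 * π, 0) (fun z => by obtain ⟨a, b⟩ := z; simpa using (hp a b).1) (u, v)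
  · simpa using key (0, 2 * π) (fun z => by obtain ⟨a, b⟩ := z; simpa using (hp a b).2) (u, v)

theorem hasDerivAt_du {F : ℝ × ℝ → ℂ} (hF : ContDiff ℝ ∞ F) (u v : ℝ) :
    HasDerivAt (fun s => F (s, v)) (du F (u, v)) u := by
  have h := ((hF.differentiable (by simp) (u, v)).hasFDerivAt).comp_hasDerivAt u
    ((hasDerivAt_id' u).prodMk (hasDerivAt_const u v))
  exact h

theorem per_bounded {F : ℝ × ℝ → ℂ} (hF : Continuous F) (hp : Per F) :
    ∃ B, 0 ≤ B ∧ ∀ z, ‖F z‖ ≤ B := by
  obtain ⟨B, hB⟩ := ((isCompact_Icc (a := (0:ℝ)) (b := 2 * π)).prod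
    (isCompact_Icc (a := (0:ℝ)) (b := 2 * π))).exists_bound_of_continuousOn hF.continuousOn
  refine ⟨max B 0, le_max_right _ _, fun z => ?_⟩
  obtain ⟨u, v⟩ := z
  have hu : Function.Periodic (fun s => F (s, v)) (2 * π) := fun s => (hp s v).1
  obtain ⟨u', hu', e1⟩ := hu.exists_mem_Ico₀ Real.two_pi_pos u
  have hv : Function.Periodic (fun s => F (u', s)) (2 * π) := fun s => (hp u' s).2
  obtain ⟨v', hv', e2⟩ := hv.exists_mem_Ico₀ Real.two_pi_pos v
  rw [e1, e2]
  exact le_trans (hB _ ⟨⟨hu'.1, hu'.2.le⟩, ⟨hv'.1, hv'.2.le⟩⟩) (le_max_left _ _)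

theorem coef_du {F : ℝ × ℝ → ℂ} (hF : ContDiff ℝ ∞ F) (hp : Per F) (m : ℤ) (v : ℝ) :
    coef (fun u => du F (u, v)) m = (m : ℂ) * Complex.I * coef (fun u => F (u, v)) m :=
  coef_deriv (fun u => hasDerivAt_du hF u v)
    ((contDiff_du hF).continuous.comp (continuous_id.prodMk continuous_const))
    (fun u => (hp u v).1) m

/-- Decay in the first frequency. -/
theorem coef2_decay (p : ℕ) : ∀ {F : ℝ × ℝ → ℂ}, ContDiff ℝ ∞ F → Per F →
    ∃ B, 0 ≤ B ∧ ∀ k : Freq, |(k.1 : ℝ)| ^ p * ‖coef2 F k‖ ≤ B ∧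
      ∀ v, |(k.1 : ℝ)| ^ p * ‖coef (fun u => F (u, v)) k.1‖ ≤ B := by
  induction p with
  | zero =>
    intro F hF hp
    obtain ⟨B, hB0, hB⟩ := per_bounded hF.continuous hp
    refine ⟨B, hB0, fun k => ⟨?_, fun v => ?_⟩⟩
    · rw [pow_zero, one_mul]
      exact norm_coef_le (fun v => norm_coef_le (fun u => hB _) _) _
    · rw [pow_zero, one_mul]
      exact norm_coef_le (fun u => hB _) _
  | succ p ih =>
    intro F hF hp
    obtain ⟨B, hB0, hB⟩ := ih (contDiff_du hF) (per_du hp)
    refine ⟨B, hB0, fun k => ⟨?_, fun v => ?_⟩⟩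
    · have h := (hB k).1
      simp only [coef2, coef_du hF hp, coef_const_mul, norm_mul, Complex.norm_I, mul_one,
        Complex.norm_intCast] at h
      rw [pow_succ, mul_assoc]
      exact h
    · have h := (hB k).2 v
      simp only [coef_du hF hp, norm_mul, Complex.norm_I, mul_one, Complex.norm_intCast] at h
      rw [pow_succ, mul_assoc]
      exact h

open MeasureTheory in
theorem coef2_swap {F : ℝ × ℝ → ℂ} (hF : Continuous F) (k : Freq) :
    coef2 F k = coef2 (fun z => F (z.2, z.1)) (k.2, k.1) := by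
  have hswap := intervalIntegral_intervalIntegral_swap
    (F := fun v u : ℝ => ech (-k.2) v * ech (-k.1) u * F (u, v))
    (a := (0:ℝ)) (b := 2 * π) (c := (0:ℝ)) (d := 2 * π) (by
      have hc : Continuous (Function.uncurry fun v u : ℝ => ech (-k.2) v * ech (-k.1) u * F (u, v)) :=
        (((continuous_ech _).comp continuous_fst).mul ((continuous_ech _).comp continuous_snd)).mul
          (hF.comp (continuous_snd.prodMk continuous_fst))
      refine (hc.continuousOn.integrableOn_compact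
        ((isCompact_uIcc (a := (0:ℝ)) (b := 2 * π)).prod (isCompact_uIcc (a := (0:ℝ)) (b := 2 * π)))).mono_set ?_
      exact Set.prod_mono Set.uIoc_subset_uIcc Set.uIoc_subset_uIcc)
  simp only [coef2, coef]
  simp only [← intervalIntegral.integral_const_mul] at hswap ⊢
  have h2 := congrArg (fun I : ℂ => (2 * π : ℂ)⁻¹ * ((2 * π : ℂ)⁻¹ * I)) hswap
  simp only [← intervalIntegral.integral_const_mul] at h2
  convert h2 using 4 <;> ring_nf

theorem summable_wt : Summable fun k : Freq =>
    1 / (1 + |(k.1 : ℝ)|) ^ 2 * (1 / (1 + |(k.2 : ℝ)|) ^ 2) := by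
  have hn : Summable fun n : ℕ => 1 / (1 + (n : ℝ)) ^ 2 := by
    have := (summable_nat_add_iff 1).2 (Real.summable_one_div_nat_pow.2 one_lt_two)
    simpa [add_comm] using this
  have h : Summable fun m : ℤ => 1 / (1 + |(m : ℝ)|) ^ 2 :=
    Summable.of_nat_of_neg (by simpa using hn) (by simpa using hn)
  exact h.mul_of_nonneg h (fun m => by positivity) fun m => by positivity

theorem coef2_bound {F : ℝ × ℝ → ℂ} (hF : ContDiff ℝ ∞ F) (hp : Per F) (p : ℕ) :
    ∃ B, 0 ≤ B ∧ ∀ k : Freq, (1 + |(k.1 : ℝ)| + |(k.2 : ℝ)|) ^ p * ‖coef2 F k‖ ≤ B := by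
  obtain ⟨B₀, h₀, hB₀⟩ := coef2_decay 0 hF hp
  obtain ⟨B₁, h₁, hB₁⟩ := coef2_decay p hF hp
  obtain ⟨B₂, h₂, hB₂⟩ := coef2_decay p (F := fun z => F (z.2, z.1))
    (hF.comp (contDiff_snd.prodMk contDiff_fst)) (fun u v => ⟨(hp v u).2, (hp v u).1⟩)
  refine ⟨3 ^ p * (B₀ + B₁ + B₂), by positivity, fun k => ?_⟩
  have e0 := (hB₀ k).1
  have e1 := (hB₁ k).1
  have e2 := (hB₂ (k.2, k.1)).1
  rw [← coef2_swap hF.continuous] at e2
  rw [pow_zero, one_mul] at e0
  set x := |(k.1 : ℝ)|
  set y := |(k.2 : ℝ)|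
  set c := ‖coef2 F k‖
  have hx : 0 ≤ x := abs_nonneg _
  have hy : 0 ≤ y := abs_nonneg _
  have hc : 0 ≤ c := norm_nonneg _
  have hmax : (1 + x + y) ^ p ≤ 3 ^ p * (1 + x ^ p + y ^ p) := by
    have hm : 1 + x + y ≤ 3 * max 1 (max x y) := by
      have := le_max_left (1:ℝ) (max x y)
      have := le_trans (le_max_left x y) (le_max_right (1:ℝ) (max x y))
      have := le_trans (le_max_right x y) (le_max_right (1:ℝ) (max x y))
      linarith
    refine (pow_le_pow_left₀ (by positivity) hm p).trans ?_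
    rw [mul_pow]
    refine mul_le_mul_of_nonneg_left ?_ (by positivity)
    have hxp : 0 ≤ x ^ p := pow_nonneg hx p
    have hyp : 0 ≤ y ^ p := pow_nonneg hy p
    rcases max_choice (1:ℝ) (max x y) with h | h
    · rw [h, one_pow]; linarith
    · rw [h]; rcases max_choice x y with h' | h' <;> rw [h'] <;> linarith
  calc (1 + x + y) ^ p * c ≤ 3 ^ p * (1 + x ^ p + y ^ p) * c :=
        mul_le_mul_of_nonneg_right hmax hc
    _ = 3 ^ p * (c + x ^ p * c + y ^ p * c) := by ring
    _ ≤ _ := by gcongr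

theorem norm_ev_le {c : Seq} (h : N 0 c ≠ ⊤) (z : ℝ × ℝ) : ‖ev c z‖ ≤ (N 0 c).toReal := by
  refine (norm_tsum_le_tsum_norm (summable_norm_term h z)).trans (le_of_eq ?_)
  simp only [norm_term, N, pow_zero, one_mul]
  rw [ENNReal.tsum_toReal_eq fun k => enorm_ne_top]
  simp [toReal_enorm]

theorem ev_continuous {c : Seq} (h : N 0 c ≠ ⊤) : Continuous (ev c) :=
  continuous_tsum (fun k => continuous_const.mul (continuous_efun k)) (summable_norm_of_N h)
    fun k z => (norm_term c z k).le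

theorem ev_per (c : Seq) : Per (ev c) := fun u v => by
  simp [ev, efun_eq, ech_per]

theorem evR_per (c : Seq) : Per (evR c) := fun u v => by
  simp [evR, ev_per c u v]

theorem ev_sub {c d : Seq} (hc : N 0 c ≠ ⊤) (hd : N 0 d ≠ ⊤) (z : ℝ × ℝ) :
    ev (c - d) z = ev c z - ev d z := by
  simp only [ev, Pi.sub_apply, sub_mul]
  exact (summable_term hc z).tsum_sub (summable_term hd z)

theorem ev_add {c d : Seq} (hc : N 0 c ≠ ⊤) (hd : N 0 d ≠ ⊤) (z : ℝ × ℝ) :
    ev (c + d) z = ev c z + ev d z := by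
  simp only [ev, Pi.add_apply, add_mul]
  exact (summable_term hc z).tsum_add (summable_term hd z)

theorem ev_conv {c d : Seq} (hc : N 0 c ≠ ⊤) (hd : N 0 d ≠ ⊤) (z : ℝ × ℝ) :
    ev (conv c d) z = ev c z * ev d z := by
  let A : Seq := fun k => c k * efun k z
  let B : Seq := fun k => d k * efun k z
  have hA : Summable fun k => ‖A k‖ := summable_norm_term hc z
  have hB : Summable fun k => ‖B k‖ := summable_norm_term hd z
  let e : Freq × Freq ≃ Freq × Freq :=
    { toFun := fun p => (p.2, p.1 - p.2)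
      invFun := fun q => (q.1 + q.2, q.1)
      left_inv := fun p => Prod.ext (add_sub_cancel p.2 p.1) rfl
      right_inv := fun q => Prod.ext rfl (add_sub_cancel_left q.1 q.2) }
  have hq : Summable fun q : Freq × Freq => A q.1 * B q.2 :=
    summable_mul_of_summable_norm (R := ℂ) (f := A) (g := B) hA hB
  have hs : Summable ((fun q : Freq × Freq => A q.1 * B q.2) ∘ (e : Freq × Freq → Freq × Freq)) :=
    e.summable_iff.2 hq
  have h1 : ∀ k, conv c d k * efun k z = ∑' j, A j * B (k - j) := by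
    intro k
    rw [conv, ← tsum_mul_right]
    refine tsum_congr fun j => ?_
    have h := efun_add j (k - j) z
    rw [add_sub_cancel] at h
    simp only [A, B]
    rw [h]
    ring
  calc ev (conv c d) z = ∑' k, ∑' j, A j * B (k - j) := tsum_congr h1
    _ = ∑' p : Freq × Freq, A p.2 * B (p.1 - p.2) := hs.tsum_prod.symm
    _ = ∑' q : Freq × Freq, A q.1 * B q.2 := e.tsum_eq (fun q => A q.1 * B q.2)
    _ = ev c z * ev d z := (tsum_mul_tsum_of_summable_norm hA hB).symm

theorem ev_kron (a : ℂ) (z : ℝ × ℝ) : ev (kron a) z = a := by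
  rw [ev, tsum_eq_single 0 (fun k hk => by simp [kron, hk])]
  simp [kron, efun]

theorem ev_real {c : Seq} (hc : Herm c) (z : ℝ × ℝ) : ev c z = (evR c z : ℂ) := by
  have h : conj (ev c z) = ev c z := by
    simp only [ev, Complex.conj_tsum, map_mul]
    rw [← (Equiv.neg Freq).tsum_eq]
    refine tsum_congr fun k => ?_
    simp only [Equiv.neg_apply, hc k, Complex.conj_conj, efun, ← Complex.exp_conj]
    congr 2
    simp
    ring
  exact (Complex.conj_eq_iff_re.1 h).symm

theorem rapid_kron (a : ℂ) : Rapid (kron a) := fun n => by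
  rw [N_kron]; exact enorm_ne_top

theorem rapid_dmul {c : Seq} (h : Rapid c) (a : ℝ × ℝ) : Rapid (mult (dmul a) c) := fun n => by
  refine ne_top_of_le_ne_top (ENNReal.mul_ne_top (ENNReal.ofReal_ne_top (r := |a.1| + |a.2|))
    (h (n + 1))) ?_
  simp only [N, mult, enorm_mul, ← ENNReal.tsum_mul_left]
  refine ENNReal.tsum_le_tsum fun k => ?_
  have hk : ‖dmul a k‖ₑ ≤ ENNReal.ofReal (|a.1| + |a.2|) * wt k := by
    rw [← ofReal_norm, ← ENNReal.ofReal_toReal (show wt k ≠ ⊤ by simp [wt]), toReal_wt,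
      ← ENNReal.ofReal_mul (by positivity)]
    exact ENNReal.ofReal_le_ofReal (norm_dmul_le a k)
  refine (mul_le_mul' le_rfl (mul_le_mul' hk le_rfl)).trans (le_of_eq ?_)
  ring

theorem herm_dmul (a : ℝ × ℝ) : Herm (dmul a) := fun k => by
  simp only [dmul, map_mul, Complex.conj_I, Complex.conj_ofReal, Prod.fst_neg, Prod.snd_neg]
  push_cast
  ring

/-- The linear form of the character `k`. -/
def flin (k : Freq) : ℝ × ℝ →L[ℝ] ℝ :=
  (k.1 : ℝ) • ContinuousLinearMap.fst ℝ ℝ ℝ + (k.2 : ℝ) • ContinuousLinearMap.snd ℝ ℝ ℝ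

/-- The derivative of a term of the series. -/
def efunD (c : Seq) (k : Freq) (z : ℝ × ℝ) : ℝ × ℝ →L[ℝ] ℂ :=
  (c k * efun k z * Complex.I) • (Complex.ofRealCLM.comp (flin k))

theorem norm_efunD_le (c : Seq) (k : Freq) (z : ℝ × ℝ) :
    ‖efunD c k z‖ ≤ ‖c k‖ * (1 + |(k.1 : ℝ)| + |(k.2 : ℝ)|) := by
  refine ContinuousLinearMap.opNorm_le_bound _ (by positivity) fun w => ?_
  simp only [efunD, smul_apply, ContinuousLinearMap.comp_apply,
    Complex.ofRealCLM_apply, smul_eq_mul, norm_mul, norm_efun, Complex.norm_I, mul_one,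
    Complex.norm_real, Real.norm_eq_abs]
  rw [mul_assoc]
  refine mul_le_mul_of_nonneg_left ?_ (norm_nonneg _)
  have h1 : |w.1| ≤ ‖w‖ := norm_fst_le w
  have h2 : |w.2| ≤ ‖w‖ := norm_snd_le w
  simp only [flin, add_apply, smul_apply,
    ContinuousLinearMap.coe_fst', ContinuousLinearMap.coe_snd', smul_eq_mul]
  refine (abs_add_le _ _).trans ?_
  rw [abs_mul, abs_mul]
  nlinarith [abs_nonneg (k.1 : ℝ), abs_nonneg (k.2 : ℝ), norm_nonneg w]

theorem summable_efunD_bound {c : Seq} (h : Rapid c) :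
    Summable fun k : Freq => ‖c k‖ * (1 + |(k.1 : ℝ)| + |(k.2 : ℝ)|) := by
  have := ENNReal.summable_toReal (h 1)
  simpa [toReal_enorm, toReal_wt, mul_comm] using this

theorem hasFDerivAt_evR {c : Seq} (h : Rapid c) (z : ℝ × ℝ) :
    HasFDerivAt (evR c) (Complex.reCLM.comp (∑' k, efunD c k z)) z := by
  refine Complex.reCLM.hasFDerivAt.comp z ?_
  refine hasFDerivAt_tsum (summable_efunD_bound h) (fun k y => ?_) (norm_efunD_le c)
    (summable_term (h 0) z) z
  have h1 : HasFDerivAt (fun y : ℝ × ℝ => (flin k y : ℂ) * Complex.I)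
      (Complex.I • (Complex.ofRealCLM.comp (flin k))) y :=
    ((Complex.ofRealCLM.comp (flin k)).hasFDerivAt).mul_const Complex.I
  have h2 := (h1.cexp).const_mul (c k)
  have e : efunD c k y = c k • (Complex.exp ((flin k y : ℂ) * Complex.I) •
      (Complex.I • (Complex.ofRealCLM.comp (flin k)))) := by
    rw [efunD, smul_smul, smul_smul]
    congr 1
  rw [e]
  exact h2.congr_of_eventuallyEq (Filter.Eventually.of_forall fun y => by simp [efun, flin])

theorem evR_fderiv {c : Seq} (h : Rapid c) (z a : ℝ × ℝ) :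
    fderiv ℝ (evR c) z a = evR (mult (dmul a) c) z := by
  have hd := hasFDerivAt_evR h z
  rw [hd.fderiv, Complex.reCLM.comp_apply]
  have hs : Summable fun k => efunD c k z :=
    Summable.of_norm_bounded (summable_efunD_bound h) fun k => norm_efunD_le c k z
  have hm := (ContinuousLinearMap.apply ℝ ℂ a).map_tsum hs
  simp only [ContinuousLinearMap.apply_apply] at hm
  rw [hm]
  simp only [evR, ev, Complex.reCLM_apply]
  congr 1
  refine tsum_congr fun k => ?_
  simp [efunD, flin, mult, dmul]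
  ring

theorem evR_smooth {c : Seq} (h : Rapid c) : ContDiff ℝ ∞ (evR c) := by
  rw [contDiff_infty]
  intro n
  induction n generalizing c with
  | zero =>
    exact contDiff_zero.2 (Complex.continuous_re.comp (ev_continuous (h 0)))
  | succ n ih =>
    rw [Nat.cast_add, Nat.cast_one, contDiff_succ_iff_fderiv]
    refine ⟨fun z => (hasFDerivAt_evR h z).differentiableAt, by simp, ?_⟩
    have e : fderiv ℝ (evR c) = fun z =>
        evR (mult (dmul (1, 0)) c) z • ContinuousLinearMap.fst ℝ ℝ ℝ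
          + evR (mult (dmul (0, 1)) c) z • ContinuousLinearMap.snd ℝ ℝ ℝ := by
      funext z
      refine ContinuousLinearMap.ext fun a => ?_
      have ha : a = a.1 • ((1:ℝ), (0:ℝ)) + a.2 • ((0:ℝ), (1:ℝ)) := by ext <;> simp
      conv_lhs => rw [ha, map_add, map_smul, map_smul, evR_fderiv h, evR_fderiv h]
      simp [mul_comm]
    rw [e]
    exact ((ih (rapid_dmul h _)).smul contDiff_const).add
      ((ih (rapid_dmul h _)).smul contDiff_const)

theorem exists_coef {f : ℝ × ℝ → ℝ} (hf : ContDiff ℝ ∞ f) (hp : Per f) :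
    ∃ c : Seq, Herm c ∧ Rapid c ∧ ∀ z, evR c z = f z := by
  set F : ℝ × ℝ → ℂ := fun z => (f z : ℂ) with hF
  have hFs : ContDiff ℝ ∞ F := Complex.ofRealCLM.contDiff.comp hf
  have hFp : Per F := fun u v => by simp [hF, hp u v]
  have hherm : Herm (coef2 F) := by
    intro k
    have h1 : ∀ v, coef (fun u => F (u, v)) (-k.1) = conj (coef (fun u => F (u, v)) k.1) := by
      intro v
      rw [coef_conj]
      simp [hF]
    show coef (fun v => coef (fun u => F (u, v)) (-k.1)) (-k.2) = _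
    simp only [h1, coef2]
    rw [coef_conj]
  have hrap : Rapid (coef2 F) := by
    intro n
    obtain ⟨B, hB0, hB⟩ := coef2_bound hFs hFp (n + 4)
    refine ne_top_of_le_ne_top (summable_wt.mul_left B).tsum_ofReal_ne_top
      (ENNReal.tsum_le_tsum fun k => ?_)
    rw [← ofReal_norm, ← ENNReal.ofReal_toReal (show wt k ≠ ⊤ by simp [wt]), toReal_wt,
      ← ENNReal.ofReal_pow (by positivity), ← ENNReal.ofReal_mul (by positivity)]
    refine ENNReal.ofReal_le_ofReal ?_
    have h := hB k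
    rw [show ∀ a b : ℝ, B * (1 / a * (1 / b)) = B / (a * b) from fun a b => by ring,
      le_div_iff₀ (by positivity)]
    set x := |(k.1 : ℝ)|
    set y := |(k.2 : ℝ)|
    have hx : 0 ≤ x := abs_nonneg _
    have hy : 0 ≤ y := abs_nonneg _
    refine le_trans ?_ h
    rw [pow_add, mul_right_comm _ ((1 + x + y) ^ 4)]
    refine mul_le_mul_of_nonneg_left ?_ (mul_nonneg (by positivity) (norm_nonneg _))
    calc (1 + x) ^ 2 * (1 + y) ^ 2 ≤ (1 + x + y) ^ 2 * (1 + x + y) ^ 2 :=
          mul_le_mul (pow_le_pow_left₀ (by positivity) (by linarith) 2)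
            (pow_le_pow_left₀ (by positivity) (by linarith) 2) (by positivity) (by positivity)
      _ = (1 + x + y) ^ 4 := by ring
  refine ⟨coef2 F, hherm, hrap, fun z => ?_⟩
  obtain ⟨u, v⟩ := z
  have hs : Summable fun k => ‖coef2 F k‖ := summable_norm_of_N (hrap 0)
  have hin : ∀ m : ℤ, HasSum (fun n => coef2 F (m, n) * ech n v) (coef (fun s => F (s, v)) m) := by
    intro m
    refine hasSum_coef (continuous_slice hFs.continuous m) (fun t => ?_) ?_ v
    · simp [(hFp _ t).2]
    · exact ((hs.comp_injective (Prod.mk_right_injective m))).of_norm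
  obtain ⟨A₀, hA₀, hA₀'⟩ := coef2_decay 0 hFs hFp
  obtain ⟨A₂, hA₂, hA₂'⟩ := coef2_decay 2 hFs hFp
  have hsum1 : Summable fun m : ℤ => coef (fun s => F (s, v)) m := by
    have hn : Summable fun n : ℕ => 1 / (1 + (n : ℝ)) ^ 2 := by
      have := (summable_nat_add_iff 1).2 (Real.summable_one_div_nat_pow.2 one_lt_two)
      simpa [add_comm] using this
    have h : Summable fun m : ℤ => 1 / (1 + |(m : ℝ)|) ^ 2 :=
      Summable.of_nat_of_neg (by simpa using hn) (by simpa using hn)
    refine Summable.of_norm_bounded (h.mul_left (2 * (A₀ + A₂))) fun m => ?_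
    have e0 := (hA₀' (m, 0)).2 v
    have e2 := (hA₂' (m, 0)).2 v
    simp only [pow_zero, one_mul] at e0 e2
    rw [mul_one_div, le_div_iff₀ (by positivity)]
    nlinarith [norm_nonneg (coef (fun s => F (s, v)) m), sq_nonneg (1 - |(m : ℝ)|)]
  have hout : HasSum (fun m => coef (fun s => F (s, v)) m * ech m u) (F (u, v)) :=
    hasSum_coef (hFs.continuous.comp (continuous_id.prodMk continuous_const))
      (fun s => (hFp s v).1) hsum1 u
  have hev : ev (coef2 F) (u, v) = F (u, v) := by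
    rw [ev, (summable_term (hrap 0) (u, v)).tsum_prod, ← hout.tsum_eq]
    refine tsum_congr fun m => ?_
    rw [← (hin m).tsum_eq, ← tsum_mul_right]
    refine tsum_congr fun n => ?_
    rw [efun_eq]
    ring
  rw [evR, hev]
  simp [hF]

end Vale.Agent.P205
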