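import Mathlib

/-!
# The connection of the metric `s² I - ε dφ²`, `φ = ψ - log s` (P205)

Derivatives along two fixed directions `e₁ e₂`; everything is written polynomially in `s`,
`q = s ∇φ`, `G = s² Hess φ` and `R = √(s⁴ - ε |q|²)`.
-/

noncomputable section

open Real
open scoped ContDiff

namespace Vale.Agent.P205

/-- Directional derivative. -/
def D (e : ℝ × ℝ) (f : ℝ × ℝ → ℝ) : ℝ × ℝ → ℝ := fun z => fderiv ℝ f z e

theorem D_smooth {e : ℝ × ℝ} {f : ℝ × ℝ → ℝ} (hf : ContDiff ℝ ∞ f) : ContDiff ℝ ∞ (D e f) :=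
  (hf.fderiv_right (m := ∞) (by simp)).clm_apply contDiff_const

theorem D_hasDeriv {f : ℝ × ℝ → ℝ} (hf : ContDiff ℝ ∞ f) (e z : ℝ × ℝ) :
    HasDerivAt (fun t : ℝ => f (z + t • e)) (D e f z) 0 := by
  have h : HasDerivAt (fun t : ℝ => z + t • e) e 0 := by
    simpa using ((hasDerivAt_id' (0 : ℝ)).smul_const e).const_add z
  have hd := (hf.differentiable (by simp) z).hasFDerivAt
  have : HasFDerivAt f (fderiv ℝ f z) (z + (0 : ℝ) • e) := by simpa using hd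
  exact this.comp_hasDerivAt (0 : ℝ) h

theorem D_eq {f : ℝ × ℝ → ℝ} (hf : ContDiff ℝ ∞ f) {e z : ℝ × ℝ} {d : ℝ}
    (h : HasDerivAt (fun t : ℝ => f (z + t • e)) d 0) : D e f z = d :=
  (D_hasDeriv hf e z).unique h

theorem D_comm {f : ℝ × ℝ → ℝ} (hf : ContDiff ℝ ∞ f) (e e' z : ℝ × ℝ) :
    D e (D e' f) z = D e' (D e f) z := by
  have h2 : Differentiable ℝ (fderiv ℝ f) :=
    (hf.fderiv_right (m := ∞) (by simp)).differentiable (by simp)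
  have key : ∀ a b : ℝ × ℝ, D a (D b f) z = fderiv ℝ (fderiv ℝ f) z a b := by
    intro a b
    show fderiv ℝ (fun y => fderiv ℝ f y b) z a = _
    rw [fderiv_clm_apply (h2 z) (differentiableAt_const b)]
    simp
  rw [key, key]
  exact (hf.contDiffAt.isSymmSndFDerivAt (by rw [minSmoothness_of_isRCLikeNormedField]; exact WithTop.coe_le_coe.2 le_top)).eq e e'

/-- The data of the construction at fixed `ε`. -/
structure Data where
  s : ℝ × ℝ → ℝ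
  ψ : ℝ × ℝ → ℝ
  ε : ℝ
  e₁ : ℝ × ℝ
  e₂ : ℝ × ℝ

namespace Data

variable (P : Data)

def s1 := D P.e₁ P.s
def s2 := D P.e₂ P.s
def q1 : ℝ × ℝ → ℝ := fun z => P.s z * D P.e₁ P.ψ z - P.s1 z
def q2 : ℝ × ℝ → ℝ := fun z => P.s z * D P.e₂ P.ψ z - P.s2 z
def sq : ℝ × ℝ → ℝ := fun z => P.s1 z * P.q1 z + P.s2 z * P.q2 z
def G11 : ℝ × ℝ → ℝ := fun z => P.s z ^ 2 * D P.e₁ (D P.e₁ P.ψ) z + P.s1 z ^ 2
  - P.s z * D P.e₁ P.s1 z - (2 * (P.s1 z * P.q1 z) - P.sq z)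
def G12 : ℝ × ℝ → ℝ := fun z => P.s z ^ 2 * D P.e₁ (D P.e₂ P.ψ) z + P.s1 z * P.s2 z
  - P.s z * D P.e₁ P.s2 z - (P.s1 z * P.q2 z + P.s2 z * P.q1 z)
def G22 : ℝ × ℝ → ℝ := fun z => P.s z ^ 2 * D P.e₂ (D P.e₂ P.ψ) z + P.s2 z ^ 2
  - P.s z * D P.e₂ P.s2 z - (2 * (P.s2 z * P.q2 z) - P.sq z)
def U : ℝ × ℝ → ℝ := fun z =>
  P.s1 z ^ 2 + P.s2 z ^ 2 - P.s z * (D P.e₁ P.s1 z + D P.e₂ P.s2 z)
def Rsq : ℝ × ℝ → ℝ := fun z => P.s z ^ 4 - P.ε * (P.q1 z ^ 2 + P.q2 z ^ 2)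
def R : ℝ × ℝ → ℝ := fun z => √(P.Rsq z)
/-- The curvature expression; the metric is flat iff it vanishes. -/
def T : ℝ × ℝ → ℝ := fun z =>
  P.Rsq z * P.U z - P.ε * (P.G11 z * P.G22 z - P.G12 z ^ 2)
def K : ℝ × ℝ → ℝ := fun z => P.s z * (P.s z ^ 2 + P.R z)
def a1 : ℝ × ℝ → ℝ := fun z => -P.s2 z / P.s z
  + P.ε * (P.q1 z * P.G12 z - P.q2 z * P.G11 z) / (P.R z * P.K z)
def a2 : ℝ × ℝ → ℝ := fun z => P.s1 z / P.s z
  + P.ε * (P.q1 z * P.G22 z - P.q2 z * P.G12 z) / (P.R z * P.K z)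
def V11 : ℝ × ℝ → ℝ := fun z => P.s z - P.ε * (P.q1 z * P.q1 z) / P.K z
def V12 : ℝ × ℝ → ℝ := fun z => -(P.ε * (P.q1 z * P.q2 z) / P.K z)
def V22 : ℝ × ℝ → ℝ := fun z => P.s z - P.ε * (P.q2 z * P.q2 z) / P.K z

/-- The standing hypotheses. -/
structure Ok : Prop where
  hs : ContDiff ℝ ∞ P.s
  hψ : ContDiff ℝ ∞ P.ψ
  spos : ∀ z, 0 < P.s z
  rpos : ∀ z, 0 < P.Rsq z

variable {P}

namespace Ok

variable (h : P.Ok)
include h

theorem Rpos (z : ℝ × ℝ) : 0 < P.R z := sqrt_pos.2 (h.rpos z)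

theorem Kpos (z : ℝ × ℝ) : 0 < P.K z :=
  mul_pos (h.spos z) (add_pos (pow_pos (h.spos z) 2) (h.Rpos z))

theorem R_sq (z : ℝ × ℝ) : P.R z ^ 2 = P.Rsq z := sq_sqrt (h.rpos z).le

theorem ds1 : ContDiff ℝ ∞ P.s1 := D_smooth h.hs
theorem ds2 : ContDiff ℝ ∞ P.s2 := D_smooth h.hs
theorem dq1 : ContDiff ℝ ∞ P.q1 := (h.hs.mul (D_smooth h.hψ)).sub h.ds1
theorem dq2 : ContDiff ℝ ∞ P.q2 := (h.hs.mul (D_smooth h.hψ)).sub h.ds2
theorem dsq : ContDiff ℝ ∞ P.sq := (h.ds1.mul h.dq1).add (h.ds2.mul h.dq2)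
theorem dG11 : ContDiff ℝ ∞ P.G11 :=
  ((((h.hs.pow 2).mul (D_smooth (D_smooth h.hψ))).add (h.ds1.pow 2)).sub
    (h.hs.mul (D_smooth h.ds1))).sub ((contDiff_const.mul (h.ds1.mul h.dq1)).sub h.dsq)
theorem dG12 : ContDiff ℝ ∞ P.G12 :=
  ((((h.hs.pow 2).mul (D_smooth (D_smooth h.hψ))).add (h.ds1.mul h.ds2)).sub
    (h.hs.mul (D_smooth h.ds2))).sub ((h.ds1.mul h.dq2).add (h.ds2.mul h.dq1))
theorem dG22 : ContDiff ℝ ∞ P.G22 :=
  ((((h.hs.pow 2).mul (D_smooth (D_smooth h.hψ))).add (h.ds2.pow 2)).sub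
    (h.hs.mul (D_smooth h.ds2))).sub ((contDiff_const.mul (h.ds2.mul h.dq2)).sub h.dsq)
theorem dRsq : ContDiff ℝ ∞ P.Rsq :=
  (h.hs.pow 4).sub (contDiff_const.mul ((h.dq1.pow 2).add (h.dq2.pow 2)))
theorem dR : ContDiff ℝ ∞ P.R := h.dRsq.sqrt fun z => (h.rpos z).ne'
theorem dK : ContDiff ℝ ∞ P.K := h.hs.mul ((h.hs.pow 2).add h.dR)
theorem da1 : ContDiff ℝ ∞ P.a1 :=
  (h.ds2.neg.div h.hs fun z => (h.spos z).ne').add
    ((contDiff_const.mul ((h.dq1.mul h.dG12).sub (h.dq2.mul h.dG11))).div (h.dR.mul h.dK)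
      fun z => (mul_pos (h.Rpos z) (h.Kpos z)).ne')
theorem da2 : ContDiff ℝ ∞ P.a2 :=
  (h.ds1.div h.hs fun z => (h.spos z).ne').add
    ((contDiff_const.mul ((h.dq1.mul h.dG22).sub (h.dq2.mul h.dG12))).div (h.dR.mul h.dK)
      fun z => (mul_pos (h.Rpos z) (h.Kpos z)).ne')
theorem dV11 : ContDiff ℝ ∞ P.V11 :=
  h.hs.sub ((contDiff_const.mul (h.dq1.mul h.dq1)).div h.dK fun z => (h.Kpos z).ne')
theorem dV12 : ContDiff ℝ ∞ P.V12 :=
  ((contDiff_const.mul (h.dq1.mul h.dq2)).div h.dK fun z => (h.Kpos z).ne').neg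
theorem dV22 : ContDiff ℝ ∞ P.V22 :=
  h.hs.sub ((contDiff_const.mul (h.dq2.mul h.dq2)).div h.dK fun z => (h.Kpos z).ne')

/-- `s D_e q_i` along `e₁`, `e₂` in terms of `G`. -/
theorem Dq (z : ℝ × ℝ) :
    P.s z * D P.e₁ P.q1 z = P.G11 z + 3 * P.s1 z * P.q1 z - P.sq z ∧
    P.s z * D P.e₂ P.q1 z = P.G12 z + 2 * P.s2 z * P.q1 z + P.s1 z * P.q2 z ∧
    P.s z * D P.e₁ P.q2 z = P.G12 z + 2 * P.s1 z * P.q2 z + P.s2 z * P.q1 z ∧
    P.s z * D P.e₂ P.q2 z = P.G22 z + 3 * P.s2 z * P.q2 z - P.sq z := by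
  have d : ∀ e, D e P.q1 z = D e P.s z * D P.e₁ P.ψ z + P.s z * D e (D P.e₁ P.ψ) z - D e P.s1 z ∧
      D e P.q2 z = D e P.s z * D P.e₂ P.ψ z + P.s z * D e (D P.e₂ P.ψ) z - D e P.s2 z := by
    intro e
    constructor
    · refine D_eq h.dq1 ?_
      simpa [q1] using ((D_hasDeriv h.hs e z).fun_mul (D_hasDeriv (D_smooth h.hψ) e z)).fun_sub
        (D_hasDeriv h.ds1 e z)
    · refine D_eq h.dq2 ?_
      simpa [q2] using ((D_hasDeriv h.hs e z).fun_mul (D_hasDeriv (D_smooth h.hψ) e z)).fun_sub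
        (D_hasDeriv h.ds2 e z)
  have c1 := D_comm h.hψ P.e₂ P.e₁ z
  have c2 : D P.e₂ P.s1 z = D P.e₁ P.s2 z := D_comm h.hs P.e₂ P.e₁ z
  refine ⟨?_, ?_, ?_, ?_⟩
  · rw [(d P.e₁).1]; simp only [G11, sq, q1, q2, s1, s2]; ring
  · rw [(d P.e₂).1, c1, c2]; simp only [G12, q1, q2, s1, s2]; ring
  · rw [(d P.e₁).2]; simp only [G12, q1, q2, s1, s2]; ring
  · rw [(d P.e₂).2]; simp only [G22, sq, q1, q2, s1, s2]; ring

/-- Codazzi equations. -/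
theorem codazzi (z : ℝ × ℝ) :
    P.s z * (D P.e₁ P.G12 z - D P.e₂ P.G11 z) = -P.s2 z * (P.G11 z + P.G22 z)
      + 2 * (P.s1 z * P.G12 z - P.s2 z * P.G11 z) + P.U z * P.q2 z ∧
    P.s z * (D P.e₁ P.G22 z - D P.e₂ P.G12 z) = P.s1 z * (P.G11 z + P.G22 z)
      + 2 * (P.s1 z * P.G22 z - P.s2 z * P.G12 z) - P.U z * P.q1 z := by
  obtain ⟨u11, u12, u21, u22⟩ := h.Dq z
  have hs := D_hasDeriv h.hs
  have h1 := D_hasDeriv h.ds1
  have h2 := D_hasDeriv h.ds2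
  have hq1 := D_hasDeriv h.dq1
  have hq2 := D_hasDeriv h.dq2
  have hsq : ∀ e, HasDerivAt (fun t : ℝ => P.sq (z + t • e))
      (D e P.s1 z * P.q1 z + P.s1 z * D e P.q1 z
        + (D e P.s2 z * P.q2 z + P.s2 z * D e P.q2 z)) 0 := fun e => by
    simpa [sq] using ((h1 e z).fun_mul (hq1 e z)).fun_add ((h2 e z).fun_mul (hq2 e z))
  have g11 : ∀ e, D e P.G11 z = 2 * P.s z * D e P.s z * D P.e₁ (D P.e₁ P.ψ) z
      + P.s z ^ 2 * D e (D P.e₁ (D P.e₁ P.ψ)) z + 2 * P.s1 z * D e P.s1 z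
      - (D e P.s z * D P.e₁ P.s1 z + P.s z * D e (D P.e₁ P.s1) z)
      - (2 * (D e P.s1 z * P.q1 z + P.s1 z * D e P.q1 z)
        - (D e P.s1 z * P.q1 z + P.s1 z * D e P.q1 z
          + (D e P.s2 z * P.q2 z + P.s2 z * D e P.q2 z))) := fun e => by
    refine D_eq h.dG11 ?_
    simpa [G11] using ((((hs e z).fun_pow 2).fun_mul (D_hasDeriv (D_smooth (D_smooth h.hψ)) e z)
      |>.fun_add ((h1 e z).fun_pow 2)).fun_sub
      ((hs e z).fun_mul (D_hasDeriv (D_smooth h.ds1) e z))).fun_sub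
      ((((h1 e z).fun_mul (hq1 e z)).const_mul 2).fun_sub (hsq e))
  have g22 : ∀ e, D e P.G22 z = 2 * P.s z * D e P.s z * D P.e₂ (D P.e₂ P.ψ) z
      + P.s z ^ 2 * D e (D P.e₂ (D P.e₂ P.ψ)) z + 2 * P.s2 z * D e P.s2 z
      - (D e P.s z * D P.e₂ P.s2 z + P.s z * D e (D P.e₂ P.s2) z)
      - (2 * (D e P.s2 z * P.q2 z + P.s2 z * D e P.q2 z)
        - (D e P.s1 z * P.q1 z + P.s1 z * D e P.q1 z
          + (D e P.s2 z * P.q2 z + P.s2 z * D e P.q2 z))) := fun e => by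
    refine D_eq h.dG22 ?_
    simpa [G22] using ((((hs e z).fun_pow 2).fun_mul (D_hasDeriv (D_smooth (D_smooth h.hψ)) e z)
      |>.fun_add ((h2 e z).fun_pow 2)).fun_sub
      ((hs e z).fun_mul (D_hasDeriv (D_smooth h.ds2) e z))).fun_sub
      ((((h2 e z).fun_mul (hq2 e z)).const_mul 2).fun_sub (hsq e))
  have g12 : ∀ e, D e P.G12 z = 2 * P.s z * D e P.s z * D P.e₁ (D P.e₂ P.ψ) z
      + P.s z ^ 2 * D e (D P.e₁ (D P.e₂ P.ψ)) z
      + (D e P.s1 z * P.s2 z + P.s1 z * D e P.s2 z)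
      - (D e P.s z * D P.e₁ P.s2 z + P.s z * D e (D P.e₁ P.s2) z)
      - (D e P.s1 z * P.q2 z + P.s1 z * D e P.q2 z
          + (D e P.s2 z * P.q1 z + P.s2 z * D e P.q1 z)) := fun e => by
    refine D_eq h.dG12 ?_
    simpa [G12] using ((((hs e z).fun_pow 2).fun_mul (D_hasDeriv (D_smooth (D_smooth h.hψ)) e z)
      |>.fun_add ((h1 e z).fun_mul (h2 e z))).fun_sub
      ((hs e z).fun_mul (D_hasDeriv (D_smooth h.ds2) e z))).fun_sub
      (((h1 e z).fun_mul (hq2 e z)).fun_add ((h2 e z).fun_mul (hq1 e z)))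
  -- symmetry of second and third derivatives
  have cψ : D P.e₂ (D P.e₁ P.ψ) = D P.e₁ (D P.e₂ P.ψ) := funext (D_comm h.hψ P.e₂ P.e₁)
  have cs : D P.e₂ P.s1 = D P.e₁ P.s2 := funext (D_comm h.hs P.e₂ P.e₁)
  have t1 : D P.e₂ (D P.e₁ (D P.e₁ P.ψ)) z = D P.e₁ (D P.e₁ (D P.e₂ P.ψ)) z := by
    rw [D_comm (D_smooth h.hψ), cψ]
  have t2 : D P.e₂ (D P.e₁ (D P.e₂ P.ψ)) z = D P.e₁ (D P.e₂ (D P.e₂ P.ψ)) z :=
    D_comm (D_smooth h.hψ) P.e₂ P.e₁ z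
  have t3 : D P.e₂ (D P.e₁ P.s1) z = D P.e₁ (D P.e₁ P.s2) z := by
    rw [D_comm h.ds1, cs]
  have t4 : D P.e₂ (D P.e₁ P.s2) z = D P.e₁ (D P.e₂ P.s2) z := D_comm h.ds2 P.e₂ P.e₁ z
  rw [g12, g11, g22, g12, t1, t2, t3, t4, cs]
  have e1 : D P.e₁ P.s z = P.s1 z := rfl
  have e2 : D P.e₂ P.s z = P.s2 z := rfl
  rw [e1, e2]
  constructor
  · simp only [G11, G12, G22, U, sq] at u11 u12 u21 u22 ⊢
    linear_combination (-P.s1 z) * u21 - P.s2 z * u11 + (P.s1 z) * u12 - P.s2 z * u22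
  · simp only [G11, G12, G22, U, sq] at u11 u12 u21 u22 ⊢
    linear_combination (-P.s2 z) * u21 + (P.s1 z) * u11 + (P.s2 z) * u12 + (P.s1 z) * u22

/-- `s R D_e R` in terms of `G`. -/
theorem DR (z e : ℝ × ℝ) :
    P.s z * P.R z * D e P.R z = 2 * P.s z ^ 4 * D e P.s z
      - P.ε * (P.q1 z * (P.s z * D e P.q1 z) + P.q2 z * (P.s z * D e P.q2 z)) := by
  have hd : D e P.R z = (4 * P.s z ^ 3 * D e P.s z
      - P.ε * (2 * P.q1 z * D e P.q1 z + 2 * P.q2 z * D e P.q2 z)) / (2 * P.R z) := by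
    refine D_eq h.dR ?_
    have := ((((D_hasDeriv h.hs e z).fun_pow 4).fun_sub
      ((((D_hasDeriv h.dq1 e z).fun_pow 2).fun_add ((D_hasDeriv h.dq2 e z).fun_pow 2)).const_mul
        P.ε))).sqrt (by simpa [Rsq] using (h.rpos z).ne')
    simpa [R, Rsq] using this
  have := h.Rpos z
  rw [hd]
  field_simp
  ring

theorem DK (z e : ℝ × ℝ) :
    D e P.K z = D e P.s z * (3 * P.s z ^ 2 + P.R z) + P.s z * D e P.R z := by
  refine D_eq h.dK ?_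
  have := (D_hasDeriv h.hs e z).fun_mul
    (((D_hasDeriv h.hs e z).fun_pow 2).fun_add (D_hasDeriv h.dR e z))
  refine this.congr_deriv ?_
  simp
  ring

/-- The curvature identity. -/
theorem curl (z : ℝ × ℝ) :
    D P.e₁ P.a2 z - D P.e₂ P.a1 z = -P.T z / P.R z ^ 3 := by
  obtain ⟨u11, u12, u21, u22⟩ := h.Dq z
  obtain ⟨cz1, cz2⟩ := h.codazzi z
  have hRK : ∀ e, HasDerivAt (fun t : ℝ => P.R (z + t • e) * P.K (z + t • e))
      (D e P.R z * P.K z + P.R z * D e P.K z) 0 := fun e => by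
    simpa using (D_hasDeriv h.dR e z).fun_mul (D_hasDeriv h.dK e z)
  have hne : P.R z * P.K z ≠ 0 := (mul_pos (h.Rpos z) (h.Kpos z)).ne'
  have d2 : D P.e₁ P.a2 z = (D P.e₁ P.s1 z * P.s z - P.s1 z * P.s1 z) / P.s z ^ 2
      + ((P.ε * (D P.e₁ P.q1 z * P.G22 z + P.q1 z * D P.e₁ P.G22 z
          - (D P.e₁ P.q2 z * P.G12 z + P.q2 z * D P.e₁ P.G12 z))) * (P.R z * P.K z)
        - P.ε * (P.q1 z * P.G22 z - P.q2 z * P.G12 z)
          * (D P.e₁ P.R z * P.K z + P.R z * D P.e₁ P.K z)) / (P.R z * P.K z) ^ 2 := by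
    refine D_eq h.da2 ?_
    have := ((D_hasDeriv h.ds1 P.e₁ z).fun_div (D_hasDeriv h.hs P.e₁ z)
      (by simpa using (h.spos z).ne')).fun_add
      (((((D_hasDeriv h.dq1 P.e₁ z).fun_mul (D_hasDeriv h.dG22 P.e₁ z)).fun_sub
        ((D_hasDeriv h.dq2 P.e₁ z).fun_mul (D_hasDeriv h.dG12 P.e₁ z))).const_mul P.ε).fun_div
        (hRK P.e₁) (by simpa using hne))
    simpa [a2, s1] using this
  have d1 : D P.e₂ P.a1 z = (-D P.e₂ P.s2 z * P.s z - (-P.s2 z) * P.s2 z) / P.s z ^ 2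
      + ((P.ε * (D P.e₂ P.q1 z * P.G12 z + P.q1 z * D P.e₂ P.G12 z
          - (D P.e₂ P.q2 z * P.G11 z + P.q2 z * D P.e₂ P.G11 z))) * (P.R z * P.K z)
        - P.ε * (P.q1 z * P.G12 z - P.q2 z * P.G11 z)
          * (D P.e₂ P.R z * P.K z + P.R z * D P.e₂ P.K z)) / (P.R z * P.K z) ^ 2 := by
    refine D_eq h.da1 ?_
    have := ((D_hasDeriv h.ds2 P.e₂ z).fun_neg.fun_div (D_hasDeriv h.hs P.e₂ z)
      (by simpa using (h.spos z).ne')).fun_add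
      (((((D_hasDeriv h.dq1 P.e₂ z).fun_mul (D_hasDeriv h.dG12 P.e₂ z)).fun_sub
        ((D_hasDeriv h.dq2 P.e₂ z).fun_mul (D_hasDeriv h.dG11 P.e₂ z))).const_mul P.ε).fun_div
        (hRK P.e₂) (by simpa using hne))
    simpa [a1, s2] using this
  have hR := h.Rpos z
  have hs := h.spos z
  have hR2 := h.R_sq z
  simp only [Rsq] at hR2
  have r1 := h.DR z P.e₁
  have r2 := h.DR z P.e₂
  rw [u11, u21] at r1
  rw [u12, u22] at r2
  have k1 := h.DK z P.e₁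
  have k2 := h.DK z P.e₂
  have q11 : D P.e₁ P.q1 z = (P.G11 z + 3 * P.s1 z * P.q1 z - P.sq z) / P.s z := by
    rw [eq_div_iff hs.ne']; linarith
  have q12 : D P.e₂ P.q1 z = (P.G12 z + 2 * P.s2 z * P.q1 z + P.s1 z * P.q2 z) / P.s z := by
    rw [eq_div_iff hs.ne']; linarith
  have q21 : D P.e₁ P.q2 z = (P.G12 z + 2 * P.s1 z * P.q2 z + P.s2 z * P.q1 z) / P.s z := by
    rw [eq_div_iff hs.ne']; linarith
  have q22 : D P.e₂ P.q2 z = (P.G22 z + 3 * P.s2 z * P.q2 z - P.sq z) / P.s z := by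
    rw [eq_div_iff hs.ne']; linarith
  have g1 : D P.e₁ P.G12 z = D P.e₂ P.G11 z + (-P.s2 z * (P.G11 z + P.G22 z)
      + 2 * (P.s1 z * P.G12 z - P.s2 z * P.G11 z) + P.U z * P.q2 z) / P.s z := by
    rw [← cz1]; field_simp; ring
  have g2 : D P.e₁ P.G22 z = D P.e₂ P.G12 z + (P.s1 z * (P.G11 z + P.G22 z)
      + 2 * (P.s1 z * P.G22 z - P.s2 z * P.G12 z) - P.U z * P.q1 z) / P.s z := by
    rw [← cz2]; field_simp; ring
  have R1 : D P.e₁ P.R z = (2 * P.s z ^ 4 * P.s1 z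
      - P.ε * (P.q1 z * (P.G11 z + 3 * P.s1 z * P.q1 z - P.sq z)
        + P.q2 z * (P.G12 z + 2 * P.s1 z * P.q2 z + P.s2 z * P.q1 z))) / (P.s z * P.R z) := by
    rw [eq_div_iff (mul_pos hs hR).ne', mul_comm]; exact r1
  have R2 : D P.e₂ P.R z = (2 * P.s z ^ 4 * P.s2 z
      - P.ε * (P.q1 z * (P.G12 z + 2 * P.s2 z * P.q1 z + P.s1 z * P.q2 z)
        + P.q2 z * (P.G22 z + 3 * P.s2 z * P.q2 z - P.sq z))) / (P.s z * P.R z) := by
    rw [eq_div_iff (mul_pos hs hR).ne', mul_comm]; exact r2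
  have eU : D P.e₁ P.s1 z = (P.s1 z ^ 2 + P.s2 z ^ 2 - P.U z) / P.s z - D P.e₂ P.s2 z := by
    simp only [U]; field_simp; ring
  rw [d1, d2, k1, k2, q11, q12, q21, q22, g1, g2, R1, R2, eU,
    show D P.e₁ P.s z = P.s1 z from rfl, show D P.e₂ P.s z = P.s2 z from rfl]
  simp only [T, Rsq, K, sq]
  set s := P.s z
  set a := P.s1 z
  set b := P.s2 z
  set p := P.q1 z
  set r := P.q2 z
  set A := P.G11 z
  set B := P.G12 z
  set C := P.G22 z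
  set U := P.U z
  set R := P.R z
  set e := P.ε
  have hK : (0 : ℝ) < s ^ 2 + R := by positivity
  field_simp
  linear_combination ((-U) * R ^ 3 - 2 * B ^ 2 * e * R + 2 * A * C * e * R + 4 * b * r * A * e * R
    - 4 * b * p * B * e * R - 4 * a * r * B * e * R + 4 * a * p * C * e * R - s ^ 2 * U * R ^ 2
    - s ^ 2 * B ^ 2 * e + s ^ 2 * A * C * e + 2 * s ^ 2 * b * r * A * e - 2 * s ^ 2 * b * p * B * e
    - 2 * s ^ 2 * a * r * B * e + 2 * s ^ 2 * a * p * C * e - U * s ^ 2 * (R + s ^ 2) ^ 2) * hR2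

/-- The coframe rotated by a primitive of the connection is closed. -/
theorem closedness (z : ℝ × ℝ) :
    P.a1 z * P.V12 z - P.a2 z * P.V11 z = -(D P.e₁ P.V22 z - D P.e₂ P.V12 z) ∧
    P.a1 z * P.V22 z - P.a2 z * P.V12 z = D P.e₁ P.V12 z - D P.e₂ P.V11 z := by
  obtain ⟨u11, u12, u21, u22⟩ := h.Dq z
  have hR := h.Rpos z
  have hs := h.spos z
  have hR2 := h.R_sq z
  simp only [Rsq] at hR2
  have r1 := h.DR z P.e₁
  have r2 := h.DR z P.e₂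
  rw [u11, u21] at r1
  rw [u12, u22] at r2
  have hKe : ∀ e, HasDerivAt (fun t : ℝ => P.K (z + t • e)) (D e P.K z) 0 := fun e =>
    D_hasDeriv h.dK e z
  have hne : P.K z ≠ 0 := (h.Kpos z).ne'
  have dv11 : D P.e₂ P.V11 z = D P.e₂ P.s z
      - (P.ε * (D P.e₂ P.q1 z * P.q1 z + P.q1 z * D P.e₂ P.q1 z) * P.K z
        - P.ε * (P.q1 z * P.q1 z) * D P.e₂ P.K z) / P.K z ^ 2 := by
    refine D_eq h.dV11 ?_
    have := (D_hasDeriv h.hs P.e₂ z).fun_sub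
      ((((D_hasDeriv h.dq1 P.e₂ z).fun_mul (D_hasDeriv h.dq1 P.e₂ z)).const_mul P.ε).fun_div
        (hKe P.e₂) (by simpa using hne))
    simpa [V11] using this
  have dv22 : D P.e₁ P.V22 z = D P.e₁ P.s z
      - (P.ε * (D P.e₁ P.q2 z * P.q2 z + P.q2 z * D P.e₁ P.q2 z) * P.K z
        - P.ε * (P.q2 z * P.q2 z) * D P.e₁ P.K z) / P.K z ^ 2 := by
    refine D_eq h.dV22 ?_
    have := (D_hasDeriv h.hs P.e₁ z).fun_sub
      ((((D_hasDeriv h.dq2 P.e₁ z).fun_mul (D_hasDeriv h.dq2 P.e₁ z)).const_mul P.ε).fun_div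
        (hKe P.e₁) (by simpa using hne))
    simpa [V22] using this
  have dv12 : ∀ e, D e P.V12 z = -((P.ε * (D e P.q1 z * P.q2 z + P.q1 z * D e P.q2 z) * P.K z
        - P.ε * (P.q1 z * P.q2 z) * D e P.K z) / P.K z ^ 2) := fun e => by
    refine D_eq h.dV12 ?_
    have := ((((D_hasDeriv h.dq1 e z).fun_mul (D_hasDeriv h.dq2 e z)).const_mul P.ε).fun_div
        (hKe e) (by simpa using hne)).fun_neg
    simpa [V12] using this
  have k1 := h.DK z P.e₁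
  have k2 := h.DK z P.e₂
  have q11 : D P.e₁ P.q1 z = (P.G11 z + 3 * P.s1 z * P.q1 z - P.sq z) / P.s z := by
    rw [eq_div_iff hs.ne']; linarith
  have q12 : D P.e₂ P.q1 z = (P.G12 z + 2 * P.s2 z * P.q1 z + P.s1 z * P.q2 z) / P.s z := by
    rw [eq_div_iff hs.ne']; linarith
  have q21 : D P.e₁ P.q2 z = (P.G12 z + 2 * P.s1 z * P.q2 z + P.s2 z * P.q1 z) / P.s z := by
    rw [eq_div_iff hs.ne']; linarith
  have q22 : D P.e₂ P.q2 z = (P.G22 z + 3 * P.s2 z * P.q2 z - P.sq z) / P.s z := by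
    rw [eq_div_iff hs.ne']; linarith
  have R1 : D P.e₁ P.R z = (2 * P.s z ^ 4 * P.s1 z
      - P.ε * (P.q1 z * (P.G11 z + 3 * P.s1 z * P.q1 z - P.sq z)
        + P.q2 z * (P.G12 z + 2 * P.s1 z * P.q2 z + P.s2 z * P.q1 z))) / (P.s z * P.R z) := by
    rw [eq_div_iff (mul_pos hs hR).ne', mul_comm]; exact r1
  have R2 : D P.e₂ P.R z = (2 * P.s z ^ 4 * P.s2 z
      - P.ε * (P.q1 z * (P.G12 z + 2 * P.s2 z * P.q1 z + P.s1 z * P.q2 z)
        + P.q2 z * (P.G22 z + 3 * P.s2 z * P.q2 z - P.sq z))) / (P.s z * P.R z) := by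
    rw [eq_div_iff (mul_pos hs hR).ne', mul_comm]; exact r2
  rw [dv11, dv22, dv12, dv12, k1, k2, q11, q12, q21, q22, R1, R2,
    show D P.e₁ P.s z = P.s1 z from rfl, show D P.e₂ P.s z = P.s2 z from rfl]
  simp only [a1, a2, V11, V12, V22, K, sq]
  set s := P.s z
  set a := P.s1 z
  set b := P.s2 z
  set p := P.q1 z
  set r := P.q2 z
  set A := P.G11 z
  set B := P.G12 z
  set C := P.G22 z
  set R := P.R z
  set e := P.ε
  have hK : (0 : ℝ) < s ^ 2 + R := by positivity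
  constructor
  · field_simp
    linear_combination (e * (-r * B + p * C + 2 * b * p * r - 2 * a * r ^ 2)) * hR2
  · field_simp
    linear_combination (e * (r * A - p * B - 2 * b * p ^ 2 + 2 * a * p * r)) * hR2

end Ok

end Data

end Vale.Agent.P205
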