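import Vale.Agent.P205.Full.Isothermal

/-!
# Primitive of the isothermal form and its monodromy (P205)
-/

noncomputable section

open scoped ENNReal NNReal ContDiff ComplexConjugate
open Real Complex Filter Topology Set

namespace Vale.Agent.P205.Beltrami

theorem exists_square_rep {α : Type*} {f : ℝ × ℝ → α} (hp : Per f) (z : ℝ × ℝ) :
    ∃ w ∈ Icc (0:ℝ) (2 * π) ×ˢ Icc (0:ℝ) (2 * π), f w = f z := by
  obtain ⟨u, v⟩ := z
  obtain ⟨a, ha, ea⟩ := Function.Periodic.exists_mem_Ico₀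
    (f := fun t => f (t, v)) (fun t => (hp t v).1) Real.two_pi_pos u
  obtain ⟨b, hb, eb⟩ := Function.Periodic.exists_mem_Ico₀
    (f := fun t => f (a, t)) (fun t => (hp a t).2) Real.two_pi_pos v
  exact ⟨(a, b), ⟨Ico_subset_Icc_self ha, Ico_subset_Icc_self hb⟩, eb.symm.trans ea.symm⟩

theorem exists_max_per {f : ℝ × ℝ → ℝ} (hf : Continuous f) (hp : Per f) :
    ∃ z₀, ∀ z, f z ≤ f z₀ := by
  have hne : (Icc (0:ℝ) (2 * π) ×ˢ Icc (0:ℝ) (2 * π)).Nonempty :=
    ⟨(0, 0), by simp [Real.pi_nonneg]⟩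
  obtain ⟨z₀, -, h₀⟩ := (isCompact_Icc.prod isCompact_Icc).exists_isMaxOn hne hf.continuousOn
  refine ⟨z₀, fun z => ?_⟩
  obtain ⟨w, hw, e⟩ := exists_square_rep hp z
  rw [← e]
  exact h₀ hw

/-- The form with coefficients `A, B` as a linear map. -/
def form (A B : ℂ) : ℝ × ℝ →L[ℝ] ℂ :=
  (ContinuousLinearMap.fst ℝ ℝ ℝ).smulRight A + (ContinuousLinearMap.snd ℝ ℝ ℝ).smulRight B

theorem form_apply (A B : ℂ) (a : ℝ × ℝ) : form A B a = a.1 * A + a.2 * B := by
  simp [form]

theorem form_injective {μ T : ℂ} (hμ : ‖μ‖ < 1) (hT : T ≠ 0) :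
    Function.Injective (form (T * (1 + μ)) (Complex.I * T * (1 - μ))) := by
  refine (injective_iff_map_eq_zero _).2 fun a ha => ?_
  rw [form_apply] at ha
  set w : ℂ := (a.1 : ℂ) + Complex.I * a.2 with hw
  have h : T * (w + μ * conj w) = 0 := by
    rw [hw, ← ha]; simp only [map_add, map_mul, Complex.conj_ofReal, Complex.conj_I]; ring
  have h' : w = -(μ * conj w) := by
    linear_combination (mul_eq_zero.1 h).resolve_left hT
  have h'' : ‖w‖ = ‖μ‖ * ‖w‖ := by
    conv_lhs => rw [h', norm_neg, norm_mul, Complex.norm_conj]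
  have hz : w = 0 := by
    by_contra hne
    nlinarith [norm_pos_iff.2 hne]
  have h1 := congrArg Complex.re hz
  have h2 := congrArg Complex.im hz
  simp [hw] at h1 h2
  exact Prod.ext h1 h2

/-- A smooth local diffeomorphism to `ℂ` equivariant under translations has trivial rotation part
and independent translation parts. -/
theorem monodromy {P : ℝ × ℝ → ℂ} (hP : ContDiff ℝ ∞ P)
    (hinj : ∀ z, Function.Injective (fderiv ℝ P z)) {R₁ R₂ w₁ w₂ : ℂ}
    (hR₁ : ‖R₁‖ = 1) (hR₂ : ‖R₂‖ = 1)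
    (h1 : ∀ u v, P (u + 2 * π, v) = R₁ * P (u, v) + w₁)
    (h2 : ∀ u v, P (u, v + 2 * π) = R₂ * P (u, v) + w₂) :
    R₁ = 1 ∧ R₂ = 1 ∧ w₁ ≠ 0 ∧ (w₂ / w₁).im ≠ 0 := by
  have hopen : ∀ z d, ∃ t : ℝ, 0 < t ∧ ∃ z', P z' = P z + (t : ℂ) * d := by
    intro z d
    have hs : HasStrictFDerivAt P (fderiv ℝ P z) z :=
      hP.contDiffAt.hasStrictFDerivAt (by norm_num)
    have hfin : Module.finrank ℝ (ℝ × ℝ) = Module.finrank ℝ ℂ := by
      simp [Complex.finrank_real_complex]
    have hsurj : Function.Surjective (fderiv ℝ P z) :=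
      (LinearMap.injective_iff_surjective_of_finrank_eq_finrank hfin).1 (hinj z)
    have hmem : range P ∈ 𝓝 (P z) := by
      rw [← hs.map_nhds_eq_of_surj (LinearMap.range_eq_top.2 hsurj)]
      exact Filter.mem_of_superset (Filter.image_mem_map univ_mem) (image_subset_range _ _)
    have ht : Tendsto (fun t : ℝ => P z + (t : ℂ) * d) (𝓝 0) (𝓝 (P z)) :=
      (by fun_prop : Continuous fun t : ℝ => P z + (t : ℂ) * d).tendsto' 0 _ (by simp)
    obtain ⟨ε, hε, hball⟩ := Metric.eventually_nhds_iff.1 (ht.eventually hmem)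
    obtain ⟨z', hz'⟩ := hball (y := ε / 2) (by simp [abs_of_pos hε]; linarith)
    exact ⟨ε / 2, by linarith, z', hz'⟩
  -- no common fixed point
  have nofix : ∀ a, R₁ * a + w₁ = a → R₂ * a + w₂ = a → False := by
    intro a e1 e2
    obtain ⟨z₀, h₀⟩ := exists_max_per (f := fun z => ‖P z - a‖) (by fun_prop) fun u v => by
      constructor
      · change ‖P (u + 2 * π, v) - a‖ = ‖P (u, v) - a‖
        rw [h1, show R₁ * P (u, v) + w₁ - a = R₁ * (P (u, v) - a) by linear_combination e1,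
          norm_mul, hR₁, one_mul]
      · change ‖P (u, v + 2 * π) - a‖ = ‖P (u, v) - a‖
        rw [h2, show R₂ * P (u, v) + w₂ - a = R₂ * (P (u, v) - a) by linear_combination e2,
          norm_mul, hR₂, one_mul]
    by_cases hb : P z₀ - a = 0
    · obtain ⟨t, ht, z, hz⟩ := hopen z₀ 1
      have := h₀ z
      simp only [hz, hb, norm_zero, show P z₀ + (t : ℂ) * 1 - a = (t : ℂ) by
        linear_combination hb, Complex.norm_real, Real.norm_eq_abs, abs_of_pos ht] at this
      linarith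
    · obtain ⟨t, ht, z, hz⟩ := hopen z₀ (P z₀ - a)
      have := h₀ z
      simp only [hz, show P z₀ + (t : ℂ) * (P z₀ - a) - a = ((1 + t : ℝ) : ℂ) * (P z₀ - a) by
        push_cast; ring, norm_mul, Complex.norm_real, Real.norm_eq_abs,
        abs_of_pos (show 0 < 1 + t by linarith)] at this
      nlinarith [norm_pos_iff.2 hb]
  have comm : R₁ * w₂ + w₁ = R₂ * w₁ + w₂ := by
    have a := h1 0 (0 + 2 * π)
    have b := h2 (0 + 2 * π) 0
    linear_combination b - a + R₂ * h1 0 0 - R₁ * h2 0 0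
  have hr1 : R₁ = 1 := by
    by_contra h
    have hne : (1 - R₁) ≠ 0 := sub_ne_zero.2 (Ne.symm h)
    refine nofix (w₁ / (1 - R₁)) ?_ ?_
    · field_simp; ring
    · field_simp; linear_combination -comm
  have hr2 : R₂ = 1 := by
    by_contra h
    have hne : (1 - R₂) ≠ 0 := sub_ne_zero.2 (Ne.symm h)
    refine nofix (w₂ / (1 - R₂)) ?_ ?_
    · field_simp; linear_combination comm
    · field_simp; ring
  -- no functional kills both translations
  have indep : ∀ d : ℂ, d ≠ 0 → (conj d * w₁).re = 0 → (conj d * w₂).re = 0 → False := by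
    intro d hd e1 e2
    obtain ⟨z₀, h₀⟩ := exists_max_per (f := fun z => (conj d * P z).re) (by fun_prop) fun u v => by
      constructor
      · change (conj d * P (u + 2 * π, v)).re = (conj d * P (u, v)).re
        rw [h1, hr1, one_mul, mul_add, Complex.add_re, e1, add_zero]
      · change (conj d * P (u, v + 2 * π)).re = (conj d * P (u, v)).re
        rw [h2, hr2, one_mul, mul_add, Complex.add_re, e2, add_zero]
    obtain ⟨t, ht, z, hz⟩ := hopen z₀ d
    have := h₀ z
    rw [hz, mul_add, Complex.add_re, show conj d * ((t : ℂ) * d) = ((t * Complex.normSq d : ℝ) : ℂ) by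
      push_cast; rw [Complex.normSq_eq_conj_mul_self]; ring, Complex.ofReal_re] at this
    nlinarith [Complex.normSq_pos.2 hd]
  have hw1 : w₁ ≠ 0 := by
    intro h
    by_cases h' : w₂ = 0
    · exact indep 1 one_ne_zero (by simp [h]) (by simp [h'])
    · exact indep (Complex.I * w₂) (mul_ne_zero Complex.I_ne_zero h') (by simp [h])
        (by simp [Complex.mul_re, Complex.mul_im]; ring)
  refine ⟨hr1, hr2, hw1, fun h => ?_⟩
  refine indep (Complex.I * w₁) (mul_ne_zero Complex.I_ne_zero hw1)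
    (by simp [Complex.mul_re, Complex.mul_im]; ring) ?_
  have : w₂ = (((w₂ / w₁).re : ℝ) : ℂ) * w₁ := by
    rw [show (((w₂ / w₁).re : ℝ) : ℂ) = w₂ / w₁ by apply Complex.ext <;> simp [h]]
    field_simp
  rw [this]
  simp [Complex.mul_re, Complex.mul_im]; ring

/-- A map with invertible derivative that is a bounded perturbation of the identity is bijective. -/
theorem bijective_of_near_id {Ψ : ℝ × ℝ → ℝ × ℝ} (hΨ : ContDiff ℝ ∞ Ψ)
    (hinj : ∀ z, Function.Injective (fderiv ℝ Ψ z)) {C : ℝ} (hC : ∀ z, ‖Ψ z - z‖ ≤ C) :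
    ∃ e : (ℝ × ℝ) ≃ₜ (ℝ × ℝ), (∀ z, e z = Ψ z) ∧ ContDiff ℝ ∞ e.symm := by
  let D : ∀ z, (ℝ × ℝ) ≃L[ℝ] (ℝ × ℝ) := fun z =>
    (LinearEquiv.ofInjectiveEndo (fderiv ℝ Ψ z).toLinearMap (hinj z)).toContinuousLinearEquiv
  have hD : ∀ z, ((D z : (ℝ × ℝ) ≃L[ℝ] (ℝ × ℝ)) : (ℝ × ℝ) →L[ℝ] (ℝ × ℝ)) = fderiv ℝ Ψ z := by
    intro z; ext <;> simp [D]
  have hs : ∀ z, HasStrictFDerivAt Ψ (D z : (ℝ × ℝ) →L[ℝ] (ℝ × ℝ)) z := fun z => by
    rw [hD]; exact hΨ.contDiffAt.hasStrictFDerivAt (by norm_num)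
  have hloc : IsLocalHomeomorph Ψ := fun z =>
    ⟨(hs z).toOpenPartialHomeomorph Ψ, (hs z).mem_toOpenPartialHomeomorph_source,
      ((hs z).toOpenPartialHomeomorph_coe).symm⟩
  have hprop : IsProperMap Ψ := by
    refine isProperMap_iff_tendsto_cocompact.2 ⟨hΨ.continuous, ?_⟩
    rw [← Metric.cobounded_eq_cocompact, ← tendsto_norm_atTop_iff_cobounded]
    refine Filter.tendsto_atTop_mono (fun z => ?_)
      (Filter.tendsto_atTop_add_const_right _ (-C) tendsto_norm_cobounded_atTop)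
    have h1 : ‖z‖ ≤ ‖Ψ z‖ + ‖Ψ z - z‖ := by
      simpa using norm_sub_le (Ψ z) (Ψ z - z)
    linarith [hC z]
  have hfib : ∀ y ∈ (univ : Set (ℝ × ℝ)), (Ψ ⁻¹' {y}).Finite := by
    intro y _
    refine (hprop.isCompact_preimage isCompact_singleton).finite ?_
    refine IsLocalHomeomorphOn.isDiscrete_of_image (f := Ψ) hloc.isLocalHomeomorphOn ?_
    exact (Set.subsingleton_singleton.anti (image_preimage_subset _ _)).isDiscrete
  have hcov : IsCoveringMap Ψ := isCoveringMap_iff_isCoveringMapOn_univ.2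
    (hprop.isClosedMap.isCoveringMapOn_of_isLocalHomeomorphOn hfib hloc.isLocalHomeomorphOn)
  have hbij : Function.Bijective Ψ := by
    constructor
    · intro x y hxy
      obtain ⟨F, ⟨hF0, hF⟩, -⟩ := hcov.existsUnique_continuousMap_lifts
        (ContinuousMap.id _) (Ψ x) x rfl
      have hu : ∀ a, F (Ψ a) = a := by
        obtain ⟨G, -, huniq⟩ := hcov.existsUnique_continuousMap_lifts
          ⟨Ψ, hΨ.continuous⟩ x x rfl
        have e1 := huniq (F.comp ⟨Ψ, hΨ.continuous⟩) ⟨hF0, funext fun a => congrFun hF (Ψ a)⟩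
        have e2 := huniq (ContinuousMap.id _) ⟨rfl, rfl⟩
        intro a
        exact DFunLike.congr_fun (e1.trans e2.symm) a
      rw [← hu x, ← hu y, hxy]
    · have hcl : IsClopen (range Ψ) := ⟨hprop.isClosedMap.isClosed_range, hloc.isOpenMap.isOpen_range⟩
      exact range_eq_univ.1 (hcl.eq_univ (range_nonempty _))
  refine ⟨IsLocalHomeomorph.toHomeomorphOfBijective hloc hbij, fun z => rfl, ?_⟩
  exact Homeomorph.contDiff_symm _ (fun a => (hs a).hasFDerivAt) hΨ

end Vale.Agent.P205.Beltrami
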