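import Vale.Agent.P205.Full.Beltrami

/-!
# Closed isothermal form on the torus (P205)
-/

noncomputable section

open scoped ENNReal NNReal ContDiff ComplexConjugate
open Real Complex Filter Topology

namespace Vale.Agent.P205.Beltrami

theorem ev_smul (a : ℂ) (c : Seq) (z : ℝ × ℝ) : ev (a • c) z = a * ev c z := by
  simp only [ev, Pi.smul_apply, smul_eq_mul, mul_assoc, tsum_mul_left]

theorem N_smul_ne {n : ℕ} {c : Seq} (a : ℂ) (h : N n c ≠ ⊤) : N n (a • c) ≠ ⊤ :=
  ne_top_of_le_ne_top (ENNReal.mul_ne_top enorm_ne_top h)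
    (N_mult n (fun _ => a) c fun _ => le_rfl)

theorem rapid_smul {c : Seq} (a : ℂ) (h : Rapid c) : Rapid (a • c) := fun n => N_smul_ne a (h n)

theorem ev_eq_evR (c : Seq) (z : ℝ × ℝ) :
    ev c z = (evR c z : ℂ) + Complex.I * (evR ((-Complex.I) • c) z : ℂ) := by
  simp only [evR, ev_smul]
  refine Complex.ext ?_ ?_ <;> simp

theorem ev_smooth {c : Seq} (h : Rapid c) : ContDiff ℝ ∞ (ev c) := by
  rw [funext (ev_eq_evR c)]
  exact (Complex.ofRealCLM.contDiff.comp (evR_smooth h)).add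
    (contDiff_const.mul (Complex.ofRealCLM.contDiff.comp (evR_smooth (rapid_smul _ h))))

theorem ev_fderiv {c : Seq} (h : Rapid c) (z a : ℝ × ℝ) :
    fderiv ℝ (ev c) z a = ev (mult (dmul a) c) z := by
  have h1 := (Complex.ofRealCLM.hasFDerivAt.comp z
    ((evR_smooth h).differentiable (by norm_num) z).hasFDerivAt)
  have h2 := (Complex.ofRealCLM.hasFDerivAt.comp z
    ((evR_smooth (rapid_smul (-Complex.I) h)).differentiable (by norm_num) z).hasFDerivAt)
  have h3 := h1.add (h2.const_mul Complex.I)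
  rw [funext (ev_eq_evR c), ev_eq_evR (mult _ c),
    show (-Complex.I) • mult (dmul a) c = mult (dmul a) ((-Complex.I) • c) by
      funext k; simp [mult]; ring]
  rw [← evR_fderiv h, ← evR_fderiv (rapid_smul _ h)]
  exact DFunLike.congr_fun h3.fderiv a

theorem ev_dzb {c : Seq} (h : Rapid c) (z : ℝ × ℝ) :
    ev (mult dzb c) z
      = (fderiv ℝ (ev c) z (1, 0) + Complex.I * fderiv ℝ (ev c) z (0, 1)) / 2 := by
  have : mult dzb c = (1 / 2 : ℂ) • (mult (dmul (1, 0)) c + Complex.I • mult (dmul (0, 1)) c) := by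
    funext k; simp [mult, dzb, dmul]; ring
  rw [this, ev_smul, ev_add (rapid_dmul h _ 0) (N_smul_ne _ (rapid_dmul h _ 0)), ev_smul,
    ev_fderiv h, ev_fderiv h]
  ring

theorem ev_dz {c : Seq} (h : Rapid c) (z : ℝ × ℝ) :
    ev (mult dz c) z
      = (fderiv ℝ (ev c) z (1, 0) - Complex.I * fderiv ℝ (ev c) z (0, 1)) / 2 := by
  have : mult dz c = (1 / 2 : ℂ) • (mult (dmul (1, 0)) c + (-Complex.I) • mult (dmul (0, 1)) c) := by
    funext k; simp [mult, dz, dmul]; ring
  rw [this, ev_smul, ev_add (rapid_dmul h _ 0) (N_smul_ne _ (rapid_dmul h _ 0)), ev_smul,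
    ev_fderiv h, ev_fderiv h]
  ring

theorem rapid_dz {c : Seq} (h : Rapid c) : Rapid (mult dz c) ∧ Rapid (mult dzb c) := by
  constructor
  · have : mult dz c
        = (1 / 2 : ℂ) • (mult (dmul (1, 0)) c + (-Complex.I) • mult (dmul (0, 1)) c) := by
      funext k; simp [mult, dz, dmul]; ring
    rw [this]
    exact rapid_smul _ (rapid_add (rapid_dmul h _) (rapid_smul _ (rapid_dmul h _)))
  · have : mult dzb c = (1 / 2 : ℂ) • (mult (dmul (1, 0)) c + Complex.I • mult (dmul (0, 1)) c) := by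
      funext k; simp [mult, dzb, dmul]; ring
    rw [this]
    exact rapid_smul _ (rapid_add (rapid_dmul h _) (rapid_smul _ (rapid_dmul h _)))

theorem isothermal {μ : ℝ × ℝ → ℂ} (hμ : ContDiff ℝ ∞ μ) (pμ : Per μ) {κ : ℝ} (hκ1 : κ < 1)
    (hκ : ∀ z, ‖μ z‖ ≤ κ) :
    ∃ (σ : ℝ × ℝ → ℂ) (γ₁ γ₂ : ℝ), ContDiff ℝ ∞ σ ∧ Per σ ∧ ∀ z,
      (fderiv ℝ σ z (1, 0) + Complex.I * γ₁) + Complex.I * (fderiv ℝ σ z (0, 1) + Complex.I * γ₂)
        = μ z * ((fderiv ℝ σ z (1, 0) + Complex.I * γ₁)
            - Complex.I * (fderiv ℝ σ z (0, 1) + Complex.I * γ₂))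
          + (fderiv ℝ μ z (1, 0) - Complex.I * fderiv ℝ μ z (0, 1)) := by
  obtain ⟨cA, hA, rA, eA⟩ := exists_coef (f := fun z => (μ z).re)
    (Complex.reCLM.contDiff.comp hμ) fun u v => by simp [(pμ u v).1, (pμ u v).2]
  obtain ⟨cB, hB, rB, eB⟩ := exists_coef (f := fun z => (μ z).im)
    (Complex.imCLM.contDiff.comp hμ) fun u v => by simp [(pμ u v).1, (pμ u v).2]
  obtain ⟨m, rfl⟩ : ∃ m : Seq, m = cA + Complex.I • cB := ⟨_, rfl⟩
  have hm : Rapid (cA + Complex.I • cB) := rapid_add rA (rapid_smul _ rB)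
  have hμm : ev (cA + Complex.I • cB) = μ := funext fun z => by
    rw [ev_add (rA 0) (N_smul_ne _ (rB 0)), ev_smul, ev_real hA, ev_real hB, eA, eB, mul_comm,
      Complex.re_add_im]
  revert hm hμm
  generalize cA + Complex.I • cB = m
  intro hm hμm
  subst hμm
  obtain ⟨ν, hν, heq⟩ := exists_beltrami hm hκ1 hκ
  let c : Seq := mult (fun k => if k = 0 then 0 else (dzb k)⁻¹) ν
  have hc : Rapid c := fun n => by
    refine ne_top_of_le_ne_top (ENNReal.mul_ne_top (ENNReal.ofReal_ne_top (r := 2)) (hν n))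
      (N_mult n _ ν fun k => ?_)
    rw [← ofReal_norm]
    refine ENNReal.ofReal_le_ofReal ?_
    split_ifs with hk
    · simp
    · rw [norm_inv, inv_le_comm₀ (norm_pos_iff.2 (dzb_ne hk)) two_pos]
      simp only [dzb, norm_mul, norm_div, Complex.norm_I, Complex.norm_ofNat]
      have : (1 : ℝ) ≤ ‖(k.1 : ℂ) + Complex.I * k.2‖ := by
        rw [Complex.norm_def]
        refine Real.one_le_sqrt.2 ?_
        simp only [Complex.normSq_apply, Complex.add_re, Complex.intCast_re, Complex.mul_re,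
          Complex.I_re, Complex.I_im, Complex.intCast_im, Complex.add_im, Complex.mul_im]
        have h1 : (1 : ℤ) ≤ k.1 * k.1 + k.2 * k.2 := by
          rcases k with ⟨p, q⟩
          rcases eq_or_ne p 0 with rfl | hp
          · have : q ≠ 0 := fun h => hk (by simp [h])
            nlinarith [mul_self_pos.2 this]
          · nlinarith [mul_self_pos.2 hp]
        have h2 : (1 : ℝ) ≤ (k.1 : ℝ) * k.1 + (k.2 : ℝ) * k.2 := by exact_mod_cast h1
        ring_nf
        ring_nf at h2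
        linarith
      linarith
  set g : ℂ := -2 * Complex.I * ν 0 with hg
  have hν0 : ν 0 = Complex.I / 2 * ((g.re : ℂ) + Complex.I * g.im) := by
    rw [mul_comm Complex.I (g.im : ℂ), Complex.re_add_im, hg]
    have := Complex.I_mul_I
    linear_combination (ν 0) * this
  have h1 : ν = mult dzb c + kron (ν 0) := by
    funext k
    rcases eq_or_ne k 0 with rfl | hk
    · simp [c, mult, kron]
    · simp [c, mult, kron, hk, dzb_ne hk]
  have h2 : S ν = mult dz c + kron (-conj (ν 0)) := by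
    funext k
    rcases eq_or_ne k 0 with rfl | hk
    · simp [S, c, mult, kron]
    · simp [S, c, mult, kron, hk, div_eq_mul_inv]; ring
  refine ⟨ev c, g.re, g.im, ev_smooth hc, ev_per c, fun z => ?_⟩
  have key := congrArg (fun e => ev e z) heq
  simp only [ev_add ((rapid_dz hm).1 0) (rapid_conv hm (rapid_S hν) 0),
    ev_conv (hm 0) (rapid_S hν 0), ev_dz hm] at key
  rw [h2, ev_add ((rapid_dz hc).1 0) (rapid_kron _ 0), ev_dz hc, ev_kron] at key
  conv_lhs at key =>
    rw [h1, ev_add ((rapid_dz hc).2 0) (rapid_kron _ 0), ev_dzb hc, ev_kron]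
  rw [hν0] at key
  simp only [map_mul, map_div₀, map_add, Complex.conj_ofReal, Complex.conj_I, map_ofNat] at key
  linear_combination 2 * key

end Vale.Agent.P205.Beltrami
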