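import Vale.Agent.P205.Full.Eval

/-!
# Square sums of coefficient sequences (P205)
-/

noncomputable section

open scoped ENNReal NNReal ContDiff ComplexConjugate
open Real MeasureTheory Complex Filter Topology

namespace Vale.Agent.P205.Beltrami

/-- Mean value of `efun k` in the second variable. -/
theorem integral_exp_int (n : ℤ) :
    (∫ v in (0:ℝ)..2 * π, Complex.exp (((n : ℂ) * Complex.I) * v))
      = if n = 0 then ((2 * π : ℝ) : ℂ) else 0 := by
  split_ifs with h
  · simp [h]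
  · have hc : (n : ℂ) * Complex.I ≠ 0 := mul_ne_zero (by exact_mod_cast h) Complex.I_ne_zero
    rw [integral_exp_mul_complex hc]
    have : Complex.exp ((n : ℂ) * Complex.I * ((2 * π : ℝ) : ℂ)) = 1 := by
      rw [← Complex.exp_int_mul_two_pi_mul_I n]; congr 1; push_cast; ring
    rw [this]
    simp

theorem efun_split (k : Freq) (u v : ℝ) :
    efun k (u, v) = Complex.exp (((k.1 : ℂ) * Complex.I) * u)
      * Complex.exp (((k.2 : ℂ) * Complex.I) * v) := by
  rw [efun, ← Complex.exp_add]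
  congr 1
  push_cast
  ring

/-- The mean over a period square picks the constant coefficient. -/
theorem mean_ev {e : Seq} (h : N 0 e ≠ ⊤) :
    (∫ u in (0:ℝ)..2 * π, ∫ v in (0:ℝ)..2 * π, ev e (u, v)) = ((2 * π : ℝ) : ℂ) ^ 2 * e 0 := by
  have hs := summable_norm_of_N h
  let J : ℤ → ℂ := fun n => if n = 0 then ((2 * π : ℝ) : ℂ) else 0
  have inner : ∀ u : ℝ, HasSum (fun k : Freq => e k * Complex.exp (((k.1 : ℂ) * Complex.I) * u) * J k.2)
      (∫ v in (0:ℝ)..2 * π, ev e (u, v)) := by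
    intro u
    have := intervalIntegral.hasSum_integral_of_dominated_convergence
      (μ := volume) (a := (0:ℝ)) (b := 2 * π)
      (F := fun k v => e k * efun k (u, v)) (f := fun v => ev e (u, v))
      (bound := fun k _ => ‖e k‖) ?_ ?_ ?_ ?_ ?_
    · convert! this using 1
      funext k
      simp only [efun_split, ← mul_assoc]
      rw [intervalIntegral.integral_const_mul, integral_exp_int]
    · intro k
      refine Continuous.aestronglyMeasurable ?_
      simp only [efun]; fun_prop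
    · intro k; refine .of_forall fun v _ => ?_; simp [norm_efun]
    · exact .of_forall fun v _ => hs
    · exact intervalIntegrable_const
    · refine .of_forall fun v _ => ?_
      refine (Summable.of_norm ?_).hasSum
      simpa [norm_efun] using hs
  have outer := intervalIntegral.hasSum_integral_of_dominated_convergence
      (μ := volume) (a := (0:ℝ)) (b := 2 * π)
      (F := fun (k : Freq) u => e k * Complex.exp (((k.1 : ℂ) * Complex.I) * u) * J k.2)
      (f := fun u => ∫ v in (0:ℝ)..2 * π, ev e (u, v))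
      (bound := fun k _ => ‖e k‖ * (2 * π)) ?_ ?_ ?_ ?_ ?_
  · have h2 : (fun k : Freq => ∫ u in (0:ℝ)..2 * π,
        e k * Complex.exp (((k.1 : ℂ) * Complex.I) * u) * J k.2)
        = fun k => if k = 0 then ((2 * π : ℝ) : ℂ) ^ 2 * e 0 else 0 := by
      funext k
      rw [intervalIntegral.integral_mul_const, intervalIntegral.integral_const_mul, integral_exp_int]
      obtain ⟨m, n⟩ := k
      by_cases hm : m = 0 <;> by_cases hn : n = 0
      all_goals simp [J, hm, hn, Prod.ext_iff]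
      change e (0, 0) * _ * _ = _ * e (0, 0)
      ring
    rw [h2] at outer
    exact outer.unique (hasSum_ite_eq (0 : Freq) _)
  · intro k
    refine Continuous.aestronglyMeasurable ?_
    fun_prop
  · intro k
    refine .of_forall fun u _ => ?_
    have : ‖J k.2‖ ≤ 2 * π := by
      simp only [J]; split_ifs
      · rw [Complex.norm_real, Real.norm_eq_abs, abs_of_pos (by positivity)]
      · simp [pi_nonneg]
    rw [norm_mul, norm_mul,
      show ((k.1 : ℂ) * Complex.I) * u = (((k.1 : ℝ) * u : ℝ) : ℂ) * Complex.I by push_cast; ring,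
      Complex.norm_exp_ofReal_mul_I, mul_one]
    gcongr
  · exact .of_forall fun u _ => hs.mul_right _
  · exact intervalIntegrable_const
  · exact .of_forall fun u _ => inner u

/-- Square sum. -/
def L2 (c : Seq) : ℝ := ∑' k, ‖c k‖ ^ 2

theorem summable_sq {c : Seq} (h : N 0 c ≠ ⊤) : Summable fun k => ‖c k‖ ^ 2 := by
  have hs := summable_norm_of_N h
  refine Summable.of_nonneg_of_le (fun k => sq_nonneg _) (fun k => ?_) (hs.mul_left (∑' j, ‖c j‖))
  rw [sq]
  exact mul_le_mul_of_nonneg_right (hs.le_tsum k fun j _ => norm_nonneg _) (norm_nonneg _)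

theorem L2_nonneg (c : Seq) : 0 ≤ L2 c := tsum_nonneg fun _ => sq_nonneg _

theorem sq_le_L2 {c : Seq} (h : N 0 c ≠ ⊤) (k : Freq) : ‖c k‖ ^ 2 ≤ L2 c :=
  (summable_sq h).le_tsum k fun _ _ => sq_nonneg _

theorem norm_le_sqrt_L2 {c : Seq} (h : N 0 c ≠ ⊤) (k : Freq) : ‖c k‖ ≤ √(L2 c) := by
  calc ‖c k‖ = √(‖c k‖ ^ 2) := (Real.sqrt_sq (norm_nonneg _)).symm
    _ ≤ _ := Real.sqrt_le_sqrt (sq_le_L2 h k)

/-- Reflection: coefficients of the complex conjugate function. -/
def refl' (c : Seq) : Seq := fun k => conj (c (-k))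

theorem N_refl' (c : Seq) : N 0 (refl' c) = N 0 c := by
  simp only [N, pow_zero, one_mul, refl']
  rw [← (Equiv.neg Freq).tsum_eq fun k => ‖c k‖ₑ]
  refine tsum_congr fun k => ?_
  rw [← ofReal_norm, ← ofReal_norm, Complex.norm_conj]
  rfl

theorem ev_refl' (c : Seq) (z : ℝ × ℝ) : ev (refl' c) z = conj (ev c z) := by
  simp only [ev, Complex.conj_tsum]
  rw [← (Equiv.neg Freq).tsum_eq]
  refine tsum_congr fun k => ?_
  simp only [refl', Equiv.neg_apply, neg_neg, efun, map_mul, ← Complex.exp_conj,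
    Complex.conj_ofReal, Complex.conj_I, Prod.fst_neg, Prod.snd_neg]
  push_cast
  congr 2
  ring

theorem parseval {c : Seq} (h : N 0 c ≠ ⊤) :
    (∫ u in (0:ℝ)..2 * π, ∫ v in (0:ℝ)..2 * π, ‖ev c (u, v)‖ ^ 2) = (2 * π) ^ 2 * L2 c := by
  have hr : N 0 (refl' c) ≠ ⊤ := by rwa [N_refl']
  have hc : N 0 (conv c (refl' c)) ≠ ⊤ :=
    ne_top_of_le_ne_top (ENNReal.mul_ne_top h hr) (N_conv_zero _ _)
  have h0 : conv c (refl' c) 0 = (L2 c : ℂ) := by
    simp only [conv, refl', L2, zero_sub, neg_neg, Complex.ofReal_tsum]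
    refine tsum_congr fun j => ?_
    rw [Complex.mul_conj, Complex.normSq_eq_norm_sq]
  have hz : ∀ z, ev (conv c (refl' c)) z = ((‖ev c z‖ ^ 2 : ℝ) : ℂ) := by
    intro z
    rw [ev_conv h hr, ev_refl', Complex.mul_conj, Complex.normSq_eq_norm_sq]
  have := mean_ev hc
  simp only [hz, h0, intervalIntegral.integral_ofReal] at this
  exact_mod_cast this

/-- Multiplication by a function bounded by `κ`, in square sum. -/
theorem L2_conv_le {m c : Seq} (hm : N 0 m ≠ ⊤) (hc : N 0 c ≠ ⊤) {κ : ℝ}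
    (hκ : ∀ z, ‖ev m z‖ ≤ κ) : L2 (conv m c) ≤ κ ^ 2 * L2 c := by
  have hmc : N 0 (conv m c) ≠ ⊤ :=
    ne_top_of_le_ne_top (ENNReal.mul_ne_top hm hc) (N_conv_zero _ _)
  have h2 : (0:ℝ) ≤ 2 * π := by positivity
  have cont : ∀ {e : Seq}, N 0 e ≠ ⊤ → Continuous fun p : ℝ × ℝ => ‖ev e p‖ ^ 2 :=
    fun he => (ev_continuous he).norm.pow 2
  have cont1 : ∀ {f : ℝ × ℝ → ℝ}, Continuous f →
      Continuous fun u => ∫ v in (0:ℝ)..2 * π, f (u, v) := fun hf =>
    intervalIntegral.continuous_parametric_intervalIntegral_of_continuous' (by fun_prop) _ _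
  have key : (2 * π) ^ 2 * L2 (conv m c) ≤ (2 * π) ^ 2 * (κ ^ 2 * L2 c) := by
    rw [← parseval hmc, mul_left_comm, ← parseval hc,
      ← intervalIntegral.integral_const_mul]
    refine intervalIntegral.integral_mono_on h2 ((cont1 (cont hmc)).intervalIntegrable _ _)
      (((cont1 (cont hc)).intervalIntegrable _ _).const_mul _) fun u _ => ?_
    rw [← intervalIntegral.integral_const_mul]
    refine intervalIntegral.integral_mono_on h2
      (((cont hmc).comp (Continuous.prodMk_right u)).intervalIntegrable _ _)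
      ((((cont hc).comp (Continuous.prodMk_right u)).intervalIntegrable _ _).const_mul _)
      fun v _ => ?_
    rw [ev_conv hm hc, norm_mul, mul_pow]
    gcongr
    exact hκ _
  exact le_of_mul_le_mul_left key (by positivity)

theorem L2_add_le {c d : Seq} (hc : N 0 c ≠ ⊤) (hd : N 0 d ≠ ⊤) {t : ℝ} (ht : 0 < t) :
    L2 (c + d) ≤ (1 + t⁻¹) * L2 c + (1 + t) * L2 d := by
  have hcd : N 0 (c + d) ≠ ⊤ := ne_top_of_le_ne_top (ENNReal.add_ne_top.2 ⟨hc, hd⟩) (N_add _ _ _)
  simp only [L2]
  rw [← tsum_mul_left, ← tsum_mul_left,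
    ← ((summable_sq hc).mul_left _).tsum_add ((summable_sq hd).mul_left _)]
  refine (summable_sq hcd).tsum_le_tsum (fun k => ?_)
    (((summable_sq hc).mul_left _).add ((summable_sq hd).mul_left _))
  have h1 : ‖(c + d) k‖ ≤ ‖c k‖ + ‖d k‖ := norm_add_le _ _
  have h2 : 0 ≤ t⁻¹ * (‖c k‖ - t * ‖d k‖) ^ 2 := by positivity
  have e : t⁻¹ * (‖c k‖ - t * ‖d k‖) ^ 2
      = t⁻¹ * ‖c k‖ ^ 2 - 2 * ‖c k‖ * ‖d k‖ + t * ‖d k‖ ^ 2 := by field_simp; ring
  nlinarith [pow_le_pow_left₀ (norm_nonneg _) h1 2]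

end Vale.Agent.P205.Beltrami
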