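import Vale.Agent.P205.Full.Tame
import Vale.Agent.P205.Full.Geom

/-!
# Solving the flatness equation in the Wiener algebra (P205)

Unknown `u = Δv`, `v = s - 1`; the equation `T = const` is a fixed point of a tiny polynomial map.
-/

noncomputable section

open scoped ENNReal NNReal ContDiff ComplexConjugate
open Real

namespace Vale.Agent.P205

variable (b c : ℝ)

/-- First frame vector. -/
def fr₁ : ℝ × ℝ := (1, 0)
/-- Second frame vector: with the first it is orthonormal for `(du + b dv)² + c² dv²`. -/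
def fr₂ : ℝ × ℝ := (-b / c, c⁻¹)

/-- Squared frequency. -/
def nsq (k : Freq) : ℝ := (k.1 : ℝ) ^ 2 + (((k.2 : ℝ) - b * k.1) / c) ^ 2

/-- Inverse Laplacian multiplier. -/
def inv₀ (k : Freq) : ℂ := if k = 0 then 0 else ((-1 / nsq b c k : ℝ) : ℂ)

/-- Removal of the mean. -/
def nomean (k : Freq) : ℂ := if k = 0 then 0 else 1

theorem freq_eq (k : Freq) :
    ((k.1 : ℝ) * fr₁.1 + (k.2 : ℝ) * fr₁.2 = k.1) ∧
    ((k.1 : ℝ) * (fr₂ b c).1 + (k.2 : ℝ) * (fr₂ b c).2 = ((k.2 : ℝ) - b * k.1) / c) := by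
  constructor
  · simp [fr₁]
  · simp [fr₂]; ring

theorem nsq_lb (hc : 0 < c) {k : Freq} (hk : k ≠ 0) : (1 + c ^ 2)⁻¹ ≤ nsq b c k := by
  rw [inv_le_iff_one_le_mul₀ (by positivity)]
  simp only [nsq]
  by_cases h : k.1 = 0
  · have h2 : k.2 ≠ 0 := fun h2 => hk (Prod.ext h h2)
    have : (1 : ℝ) ≤ (k.2 : ℝ) ^ 2 := by
      have : (1 : ℤ) ≤ k.2 ^ 2 := by nlinarith [mul_self_pos.2 h2]
      exact_mod_cast this
    rw [h]
    push_cast
    field_simp
    nlinarith [sq_nonneg c]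
  · have : (1 : ℝ) ≤ (k.1 : ℝ) ^ 2 := by
      have : (1 : ℤ) ≤ k.1 ^ 2 := by nlinarith [mul_self_pos.2 h]
      exact_mod_cast this
    nlinarith [sq_nonneg c, sq_nonneg (((k.2 : ℝ) - b * k.1) / c)]

theorem herm_inv₀ : Herm (inv₀ b c) := by
  intro k
  have hn : nsq b c (-k) = nsq b c k := by
    simp only [nsq, Prod.fst_neg, Prod.snd_neg]; push_cast; ring
  simp only [inv₀, neg_eq_zero, hn]
  split <;> simp

theorem herm_nomean : Herm nomean := by
  intro k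
  simp only [nomean, neg_eq_zero]
  split <;> simp

theorem norm_nomean (k : Freq) : ‖nomean k‖ₑ ≤ 1 := by
  simp only [nomean]; split <;> simp

/-- First derivative of `v`. -/
def d1 (a : ℝ × ℝ) (k : Freq) : ℂ := dmul a k * inv₀ b c k
/-- Second derivative of `v`. -/
def d2 (a a' : ℝ × ℝ) (k : Freq) : ℂ := dmul a k * (dmul a' k * inv₀ b c k)

theorem herm_d1 (a : ℝ × ℝ) : Herm (d1 b c a) := fun k => by
  simp only [d1, map_mul, herm_dmul a k, herm_inv₀ b c k]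

theorem herm_d2 (a a' : ℝ × ℝ) : Herm (d2 b c a a') := fun k => by
  simp only [d2, map_mul, herm_dmul a k, herm_dmul a' k, herm_inv₀ b c k]

/-- A bound for all the multipliers. -/
def mb : ℝ≥0 := ⟨2 + c ^ 2, by positivity⟩

theorem enorm_le_mb {x : ℂ} (h : ‖x‖ ≤ 2 + c ^ 2) : ‖x‖ₑ ≤ (mb c : ℝ≥0∞) := by
  rw [← ofReal_norm]
  exact (ENNReal.ofReal_le_ofReal h).trans_eq (ENNReal.ofReal_eq_coe_nnreal (by positivity))

theorem norm_inv₀ (hc : 0 < c) (k : Freq) : ‖inv₀ b c k‖ ≤ 1 + c ^ 2 := by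
  simp only [inv₀]
  split
  · rw [norm_zero]; positivity
  · rename_i hk
    have h := nsq_lb b c hc hk
    have hpos : 0 < nsq b c k := lt_of_lt_of_le (by positivity) h
    rw [Complex.norm_real, norm_eq_abs, abs_div, abs_neg, abs_one, abs_of_pos hpos,
      div_le_iff₀ hpos]
    rw [inv_le_iff_one_le_mul₀ (by positivity)] at h
    linarith

theorem freq_sq_le (a : ℝ × ℝ) (ha : a = fr₁ ∨ a = fr₂ b c) (k : Freq) :
    ((k.1 : ℝ) * a.1 + (k.2 : ℝ) * a.2) ^ 2 ≤ nsq b c k := by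
  rcases ha with rfl | rfl
  · rw [(freq_eq b c k).1]; simp only [nsq]; nlinarith [sq_nonneg (((k.2 : ℝ) - b * k.1) / c)]
  · rw [(freq_eq b c k).2]; simp only [nsq]; nlinarith [sq_nonneg (k.1 : ℝ)]

theorem norm_d1 (hc : 0 < c) {a : ℝ × ℝ} (ha : a = fr₁ ∨ a = fr₂ b c) (k : Freq) :
    ‖d1 b c a k‖ ≤ 2 + c ^ 2 := by
  simp only [d1, norm_mul, dmul, Complex.norm_I, one_mul, Complex.norm_real, norm_eq_abs]
  by_cases hk : k = 0
  · simp [hk]; positivity
  have h := nsq_lb b c hc hk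
  have hpos : 0 < nsq b c k := lt_of_lt_of_le (by positivity) h
  have hsq := freq_sq_le b c a ha k
  simp only [inv₀, hk, if_false, Complex.norm_real, norm_eq_abs, abs_div, abs_neg, abs_one,
    abs_of_pos hpos]
  rw [mul_one_div, div_le_iff₀ hpos]
  rw [inv_le_iff_one_le_mul₀ (by positivity)] at h
  have hx : |(k.1 : ℝ) * a.1 + (k.2 : ℝ) * a.2| ≤ 1 + nsq b c k := by
    nlinarith [sq_abs ((k.1 : ℝ) * a.1 + (k.2 : ℝ) * a.2),
      sq_nonneg (|(k.1 : ℝ) * a.1 + (k.2 : ℝ) * a.2| - 1)]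
  nlinarith

theorem norm_d2 (hc : 0 < c) {a a' : ℝ × ℝ} (ha : a = fr₁ ∨ a = fr₂ b c)
    (ha' : a' = fr₁ ∨ a' = fr₂ b c) (k : Freq) : ‖d2 b c a a' k‖ ≤ 2 + c ^ 2 := by
  simp only [d2, norm_mul, dmul, Complex.norm_I, one_mul, Complex.norm_real, norm_eq_abs]
  by_cases hk : k = 0
  · simp [hk]; positivity
  have h := nsq_lb b c hc hk
  have hpos : 0 < nsq b c k := lt_of_lt_of_le (by positivity) h
  simp only [inv₀, hk, if_false, Complex.norm_real, norm_eq_abs, abs_div, abs_neg, abs_one,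
    abs_of_pos hpos]
  rw [mul_one_div, ← mul_div_assoc, div_le_iff₀ hpos]
  have h1 := freq_sq_le b c a ha k
  have h2 := freq_sq_le b c a' ha' k
  nlinarith [sq_abs ((k.1 : ℝ) * a.1 + (k.2 : ℝ) * a.2),
    sq_abs ((k.1 : ℝ) * a'.1 + (k.2 : ℝ) * a'.2),
    sq_nonneg (|(k.1 : ℝ) * a.1 + (k.2 : ℝ) * a.2| - |(k.1 : ℝ) * a'.1 + (k.2 : ℝ) * a'.2|),
    sq_nonneg c]

/-- The solution family. -/
theorem solve (hc : 0 < c) {ψ : ℝ × ℝ → ℝ} (hψ : ContDiff ℝ ∞ ψ) (hψp : Per ψ) :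
    ∃ (e₀ K : ℝ) (s : ℝ → ℝ × ℝ → ℝ), 0 < e₀ ∧ e₀ ≤ 1 ∧ 0 ≤ K ∧
      ∀ ε, |ε| ≤ e₀ → ContDiff ℝ ∞ (s ε) ∧ Per (s ε) ∧
        (∃ C, ∀ z, (Data.mk (s ε) ψ ε fr₁ (fr₂ b c)).T z = C) ∧
        (∀ a a', (a = fr₁ ∨ a = fr₂ b c) → (a' = fr₁ ∨ a' = fr₂ b c) → ∀ z,
          |s ε z - 1| ≤ K * |ε| ∧ |D a (s ε) z| ≤ K * |ε| ∧ |D a (D a' (s ε)) z| ≤ K * |ε| ∧
          ∀ ε', |ε'| ≤ e₀ → |s ε z - s ε' z| ≤ K * |ε - ε'| ∧
            |D a (s ε) z - D a (s ε') z| ≤ K * |ε - ε'| ∧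
            |D a (D a' (s ε)) z - D a (D a' (s ε')) z| ≤ K * |ε - ε'|) := by
  obtain ⟨cψ, hHψ, hRψ, hev⟩ := exists_coef hψ hψp
  let e1 := fr₁
  let e2 := fr₂ b c
  have hD : ∀ a, ∀ c' : Seq, Rapid c' → ∀ f : ℝ × ℝ → ℝ, (∀ z, evR c' z = f z) →
      ∀ z, evR (mult (dmul a) c') z = D a f z := by
    intro a c' hc' f hf z
    have : f = evR c' := funext fun z => (hf z).symm
    rw [this, D, evR_fderiv hc']
  let ψ1 := mult (dmul e1) cψ
  let ψ2 := mult (dmul e2) cψ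
  let ψ11 := mult (dmul e1) ψ1
  let ψ12 := mult (dmul e1) ψ2
  let ψ22 := mult (dmul e2) ψ2
  have r1 : Rapid ψ1 := rapid_dmul hRψ _
  have r2 : Rapid ψ2 := rapid_dmul hRψ _
  have r11 : Rapid ψ11 := rapid_dmul r1 _
  have r12 : Rapid ψ12 := rapid_dmul r2 _
  have r22 : Rapid ψ22 := rapid_dmul r2 _
  have h1 : Herm ψ1 := herm_mult (herm_dmul _) hHψ
  have h2 : Herm ψ2 := herm_mult (herm_dmul _) hHψ
  have h11 : Herm ψ11 := herm_mult (herm_dmul _) h1
  have h12 : Herm ψ12 := herm_mult (herm_dmul _) h2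
  have h22 : Herm ψ22 := herm_mult (herm_dmul _) h2
  -- slots
  have M1 := fun a (ha : a = e1 ∨ a = e2) k => enorm_le_mb c (norm_d1 b c hc ha k)
  have M2 := fun a a' (ha : a = e1 ∨ a = e2) (ha' : a' = e1 ∨ a' = e2) k =>
    enorm_le_mb c (norm_d2 b c hc ha ha' k)
  have M0 := fun k => enorm_le_mb c ((norm_inv₀ b c hc k).trans (by linarith))
  have Mu : ∀ k : Freq, ‖(fun _ => (1 : ℂ)) k‖ₑ ≤ ((1 : ℝ≥0) : ℝ≥0∞) := fun k => by simp
  have Hu : Herm (fun _ : Freq => (1 : ℂ)) := fun k => by simp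
  have bOne : Big fun _ _ => kron ((1 : ℝ) : ℂ) := big_const (rapid_kron _) (herm_kron 1)
  have vOne := val_kron 1
  have sV : Small fun _ u => mult (inv₀ b c) u := small_linear M0 (herm_inv₀ b c)
  have vV := val_linear M0 (herm_inv₀ b c)
  have sU : Small fun _ u => mult (fun _ => (1 : ℂ)) u := small_linear Mu Hu
  have vU := val_linear Mu Hu
  have sA : Small fun _ u => mult (d1 b c e1) u := small_linear (M1 e1 (Or.inl rfl)) (herm_d1 b c _)
  have vA := val_linear (M1 e1 (Or.inl rfl)) (herm_d1 b c e1)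
  have sB : Small fun _ u => mult (d1 b c e2) u := small_linear (M1 e2 (Or.inr rfl)) (herm_d1 b c _)
  have vB := val_linear (M1 e2 (Or.inr rfl)) (herm_d1 b c e2)
  have sAA : Small fun _ u => mult (d2 b c e1 e1) u :=
    small_linear (M2 e1 e1 (Or.inl rfl) (Or.inl rfl)) (herm_d2 b c _ _)
  have vAA := val_linear (M2 e1 e1 (Or.inl rfl) (Or.inl rfl)) (herm_d2 b c e1 e1)
  have sAB : Small fun _ u => mult (d2 b c e1 e2) u :=
    small_linear (M2 e1 e2 (Or.inl rfl) (Or.inr rfl)) (herm_d2 b c _ _)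
  have vAB := val_linear (M2 e1 e2 (Or.inl rfl) (Or.inr rfl)) (herm_d2 b c e1 e2)
  have sBB : Small fun _ u => mult (d2 b c e2 e2) u :=
    small_linear (M2 e2 e2 (Or.inr rfl) (Or.inr rfl)) (herm_d2 b c _ _)
  have vBB := val_linear (M2 e2 e2 (Or.inr rfl) (Or.inr rfl)) (herm_d2 b c e2 e2)
  -- composite polynomials
  have bS := bOne.add sV.big
  have vS := vOne.add vV
  have bS2 := bS.mul bS
  have vS2 := vS.mul vS
  have bS4 := bS2.mul bS2
  have vS4 := vS2.mul vS2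
  have bq1 := (bS.mul (big_const r1 h1)).sub sA.big
  have vq1 := (vS.mul (val_const r1 h1)).sub vA
  have bq2 := (bS.mul (big_const r2 h2)).sub sB.big
  have vq2 := (vS.mul (val_const r2 h2)).sub vB
  have bQ := (bq1.mul bq1).add (bq2.mul bq2)
  have vQ := (vq1.mul vq1).add (vq2.mul vq2)
  have bG11 := (((bS2.mul (big_const r11 h11)).add (sA.big.mul sA.big)).sub
    (bS.mul sAA.big)).sub ((sA.big.mul bq1).sub (sB.big.mul bq2))
  have vG11 := (((vS2.mul (val_const r11 h11)).add (vA.mul vA)).sub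
    (vS.mul vAA)).sub ((vA.mul vq1).sub (vB.mul vq2))
  have bG22 := (((bS2.mul (big_const r22 h22)).add (sB.big.mul sB.big)).sub
    (bS.mul sBB.big)).sub ((sB.big.mul bq2).sub (sA.big.mul bq1))
  have vG22 := (((vS2.mul (val_const r22 h22)).add (vB.mul vB)).sub
    (vS.mul vBB)).sub ((vB.mul vq2).sub (vA.mul vq1))
  have bG12 := (((bS2.mul (big_const r12 h12)).add (sA.big.mul sB.big)).sub
    (bS.mul sAB.big)).sub ((sA.big.mul bq2).add (sB.big.mul bq1))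
  have vG12 := (((vS2.mul (val_const r12 h12)).add (vA.mul vB)).sub
    (vS.mul vAB)).sub ((vA.mul vq2).add (vB.mul vq1))
  have bdet := (bG11.mul bG22).sub (bG12.mul bG12)
  have vdet := (vG11.mul vG22).sub (vG12.mul vG12)
  have tg := (sA.mul_small sA).add (sB.mul_small sB)
  have vg := (vA.mul vA).add (vB.mul vB)
  have bpoly := ((bS4.add (bS2.mul bS)).add (bS2.add bS)).add bOne
  have vpoly := ((vS4.add (vS2.mul vS)).add (vS2.add vS)).add vOne
  have tF := (((tg.mul_big bS4).sub (bQ.smul_eps.mul_big ((tg.small.big).sub (bS.mul sU.big)))).sub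
    ((sV.mul_small sU).mul_big bpoly)).sub bdet.smul_eps
  have vF := (((vg.mul vS4).sub (vQ.smul_eps.mul (vg.sub (vS.mul vU)))).sub
    ((vV.mul vU).mul vpoly)).sub vdet.smul_eps
  have tΦ := tF.post norm_nomean herm_nomean
  obtain ⟨e₀, K₀, sol, he0, he1, hsol⟩ := fixed_point tΦ (by
    funext k; simp [mult, scal, conv])
  let s : ℝ → ℝ × ℝ → ℝ := fun ε z => 1 + evR (mult (inv₀ b c) (sol ε)) z
  have key : ∀ ε, |ε| ≤ (e₀ : ℝ) → ContDiff ℝ ∞ (s ε) ∧ Per (s ε) ∧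
      (∀ a z, D a (s ε) z = evR (mult (d1 b c a) (sol ε)) z) ∧
      (∀ a a' z, D a (D a' (s ε)) z = evR (mult (d2 b c a a') (sol ε)) z) ∧
      ∃ C, ∀ z, (Data.mk (s ε) ψ ε fr₁ (fr₂ b c)).T z = C := by
    intro ε hε
    have hε' : ‖ε‖ₑ ≤ (e₀ : ℝ≥0∞) := by
      rw [← ofReal_norm, norm_eq_abs, ← ENNReal.ofReal_coe_nnreal]
      exact ENNReal.ofReal_le_ofReal hε
    obtain ⟨hfix, hrap, hher, hone, -⟩ := hsol ε hε'
    have hrv : Rapid (mult (inv₀ b c) (sol ε)) := fun n =>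
      ne_top_of_le_ne_top (ENNReal.mul_ne_top ENNReal.coe_ne_top (hrap n)) (N_mult n _ _ M0)
    have hsm : ContDiff ℝ ∞ (s ε) := contDiff_const.add (evR_smooth hrv)
    have hd1 : ∀ a z, D a (s ε) z = evR (mult (d1 b c a) (sol ε)) z := by
      intro a z
      have : mult (d1 b c a) (sol ε) = mult (dmul a) (mult (inv₀ b c) (sol ε)) := by
        funext k; simp [mult, d1, mul_assoc]
      rw [this, ← evR_fderiv hrv]
      simp only [D, s]
      rw [fderiv_const_add]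
    have hd2 : ∀ a a' z, D a (D a' (s ε)) z = evR (mult (d2 b c a a') (sol ε)) z := by
      intro a a' z
      have h' : Rapid (mult (dmul a') (mult (inv₀ b c) (sol ε))) := rapid_dmul hrv _
      have : mult (d2 b c a a') (sol ε)
          = mult (dmul a) (mult (dmul a') (mult (inv₀ b c) (sol ε))) := by
        funext k; simp [mult, d2, mul_assoc]
      rw [this]
      refine (hD a _ h' (D a' (s ε)) (fun z => ?_) z).symm
      rw [hd1]
      congr 1
      funext k; simp [mult, d1, mul_assoc]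
    refine ⟨hsm, fun u v => ⟨?_, ?_⟩, hd1, hd2, ?_⟩
    · simp only [s, ((evR_per _) u v).1]
    · simp only [s, ((evR_per _) u v).2]
    obtain ⟨hfin, hval⟩ := vF ε (sol ε) (hε'.trans (by exact_mod_cast he1)) hone hher
    set Fc := (fun ε u => _) ε (sol ε) with hFc
    refine ⟨((Fc 0 : ℂ)).re, fun z => ?_⟩
    have hsplit : Fc - sol ε = kron (Fc 0) := by
      funext k
      have hk := congrFun hfix k
      simp only [mult, nomean] at hk
      simp only [Pi.sub_apply, kron]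
      rw [← hk]
      by_cases h : k = 0 <;> simp [h, hFc]
    have hev2 := congrArg Complex.re (congrArg (fun e => ev e z) hsplit)
    simp only [ev_sub hfin (hrap 0), ev_kron, hval, ev_real hher, Complex.sub_re,
      Complex.ofReal_re] at hev2
    rw [← hev2]
    have one : mult (fun _ => (1 : ℂ)) (sol ε) = sol ε := by funext k; simp [mult]
    have lap : evR (sol ε) z = D e1 (D e1 (s ε)) z + D e2 (D e2 (s ε)) z := by
      rw [hd2, hd2]
      have hsum : sol ε - kron (sol ε 0)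
          = mult (d2 b c e1 e1) (sol ε) + mult (d2 b c e2 e2) (sol ε) := by
        funext k
        simp only [Pi.sub_apply, Pi.add_apply, kron, mult, d2, dmul, inv₀, e1, e2,
          (freq_eq b c k).1, (freq_eq b c k).2]
        by_cases hk : k = 0
        · simp [hk]
        · have hpos : 0 < nsq b c k := lt_of_lt_of_le (by positivity) (nsq_lb b c hc hk)
          simp only [hk, if_false, sub_zero]
          have : ((k.1 : ℝ) ^ 2 + (((k.2 : ℝ) - b * k.1) / c) ^ 2) * (1 / nsq b c k) = 1 := by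
            rw [mul_one_div, div_eq_one_iff_eq hpos.ne']; rfl
          have hcx := congrArg (fun x : ℝ => (x : ℂ) * sol ε k) this
          push_cast at hcx ⊢
          linear_combination -hcx
            + ((k.1 : ℂ) ^ 2 + (((k.2 : ℂ) - b * k.1) / c) ^ 2) * (1 / (nsq b c k : ℂ)) * sol ε k
              * Complex.I_mul_I
      have h0 : sol ε 0 = 0 := by
        have := congrFun hfix 0
        simpa [mult, nomean] using this.symm
      have hf : ∀ a, (a = e1 ∨ a = e2) → N 0 (mult (d2 b c a a) (sol ε)) ≠ ⊤ := fun a ha =>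
        ne_top_of_le_ne_top (ENNReal.mul_ne_top ENNReal.coe_ne_top (hrap 0))
          (N_mult 0 _ _ (M2 a a ha ha))
      rw [h0, show kron (0 : ℂ) = 0 by funext k; simp [kron], sub_zero] at hsum
      conv_lhs => rw [hsum]
      simp only [evR, ev_add (hf e1 (Or.inl rfl)) (hf e2 (Or.inr rfl)), Complex.add_re]
    have p1 := hD e1 cψ hRψ ψ hev
    have p2 := hD e2 cψ hRψ ψ hev
    have p11 : evR ψ11 z = D e1 (D e1 ψ) z := hD e1 ψ1 r1 _ p1 z
    have p12 : evR ψ12 z = D e1 (D e2 ψ) z := hD e1 ψ2 r2 _ p2 z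
    have p22 : evR ψ22 z = D e2 (D e2 ψ) z := hD e2 ψ2 r2 _ p2 z
    simp only [one, p11, p12, p22, show evR ψ1 z = D e1 ψ z from p1 z,
      show evR ψ2 z = D e2 ψ z from p2 z, ← hd1, ← hd2, lap,
      show 1 + evR (mult (inv₀ b c) (sol ε)) z = s ε z from rfl,
      show evR (mult (inv₀ b c) (sol ε)) z = s ε z - 1 by simp [s]]
    simp only [Data.T, Data.Rsq, Data.U, Data.G11, Data.G12, Data.G22, Data.sq, Data.q1, Data.q2,
      Data.s1, Data.s2, e1, e2]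
    ring
  refine ⟨e₀, (mb c * K₀ : ℝ≥0), s, by exact_mod_cast he0, by exact_mod_cast he1,
    NNReal.coe_nonneg _, fun ε hε => ?_⟩
  obtain ⟨k1, k2, k3, k4, k5⟩ := key ε hε
  refine ⟨k1, k2, k5, fun a a' ha ha' z => ?_⟩
  have toE : ∀ x, |x| ≤ (e₀ : ℝ) → ‖x‖ₑ ≤ (e₀ : ℝ≥0∞) := fun x hx => by
    rw [← ofReal_norm, norm_eq_abs, ← ENNReal.ofReal_coe_nnreal]
    exact ENNReal.ofReal_le_ofReal hx
  obtain ⟨-, hrap, -, -, hK, hLip⟩ := hsol ε (toE ε hε)
  have est : ∀ (μ : Freq → ℂ), (∀ k, ‖μ k‖ₑ ≤ (mb c : ℝ≥0∞)) → ∀ (w : Seq) (x : ℝ),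
      N 0 w ≤ K₀ * ‖x‖ₑ → |evR (mult μ w) z| ≤ (mb c * K₀ : ℝ≥0) * |x| := by
    intro μ hμ w x hw
    have hb : N 0 (mult μ w) ≤ ((mb c * K₀ : ℝ≥0) : ℝ≥0∞) * ‖x‖ₑ :=
      (N_mult 0 μ w hμ).trans ((mul_le_mul' le_rfl hw).trans_eq (by push_cast; ring))
    have ht : ((mb c * K₀ : ℝ≥0) : ℝ≥0∞) * ‖x‖ₑ ≠ ⊤ :=
      ENNReal.mul_ne_top ENNReal.coe_ne_top enorm_ne_top
    refine le_trans (Complex.abs_re_le_norm _) ((norm_ev_le (ne_top_of_le_ne_top ht hb) z).trans ?_)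
    refine (ENNReal.toReal_mono ht hb).trans_eq ?_
    simp [toReal_enorm]
  refine ⟨?_, ?_, ?_, fun ε' hε' => ?_⟩
  · simpa [s] using est _ M0 _ ε hK
  · rw [k3]; exact est _ (M1 a ha) _ ε hK
  · rw [k4]; exact est _ (M2 a a' ha ha') _ ε hK
  · obtain ⟨-, -, l3, l4, -⟩ := key ε' hε'
    obtain ⟨-, hrap', -, -, -, -⟩ := hsol ε' (toE ε' hε')
    have lin : ∀ μ : Freq → ℂ, (∀ k, ‖μ k‖ₑ ≤ (mb c : ℝ≥0∞)) →
        |evR (mult μ (sol ε)) z - evR (mult μ (sol ε')) z| ≤ (mb c * K₀ : ℝ≥0) * |ε - ε'| := by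
      intro μ hμ
      have hf : ∀ w, Rapid w → N 0 (mult μ w) ≠ ⊤ := fun w hw => ne_top_of_le_ne_top
        (ENNReal.mul_ne_top ENNReal.coe_ne_top (hw 0)) (N_mult 0 μ w hμ)
      have := est μ hμ _ (ε - ε') (hLip ε' (toE ε' hε'))
      simpa [mult_sub, evR, ev_sub (hf _ hrap) (hf _ hrap')] using this
    refine ⟨?_, ?_, ?_⟩
    · simpa [s] using lin _ M0
    · rw [k3, l3]; exact lin _ (M1 a ha)
    · rw [k4, l4]; exact lin _ (M2 a a' ha ha')

end Vale.Agent.P205
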