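import Vale.Agent.P205.Full.Eval

/-!
# Tame polynomial maps on coefficient sequences and their fixed points (P205)
-/

noncomputable section

open scoped ENNReal NNReal ComplexConjugate
open Filter Topology

namespace Vale.Agent.P205

/-- Multiplication by a real scalar. -/
def scal (ε : ℝ) (c : Seq) : Seq := mult (fun _ => (ε : ℂ)) c

theorem herm_add {c d : Seq} (hc : Herm c) (hd : Herm d) : Herm (c + d) := fun k => by
  simp [hc k, hd k]

theorem herm_sub {c d : Seq} (hc : Herm c) (hd : Herm d) : Herm (c - d) := fun k => by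
  simp [hc k, hd k]

theorem herm_scal {c : Seq} (ε : ℝ) (hc : Herm c) : Herm (scal ε c) :=
  herm_mult (fun _ => by simp) hc

theorem mult_sub (μ : Freq → ℂ) (c d : Seq) : mult μ (c - d) = mult μ c - mult μ d := by
  funext k; simp [mult, mul_sub]

theorem N_sub_triangle (n : ℕ) (a b c : Seq) : N n (a - c) ≤ N n (a - b) + N n (b - c) := by
  rw [show a - c = (a - b) + (b - c) by abel]; exact N_add n _ _

theorem N_sub_le (n : ℕ) (c d : Seq) : N n (c - d) ≤ N n c + N n d := by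
  rw [sub_eq_add_neg]
  exact (N_add n _ _).trans (by rw [N_neg])

/-- Bounds for a map on the ball `N 0 u ≤ ρ`, `|ε| ≤ e₀`; `high` is the tame estimate. -/
structure Tame (ρ e₀ : ℝ≥0) (P : ℝ → Seq → Seq) (B L M : ℝ≥0) : Prop where
  bound : ∀ ε u, ‖ε‖ₑ ≤ e₀ → N 0 u ≤ ρ → N 0 (P ε u) ≤ B
  lip : ∀ ε ε' u u', ‖ε‖ₑ ≤ e₀ → ‖ε'‖ₑ ≤ e₀ → N 0 u ≤ ρ → N 0 u' ≤ ρ →
    N 0 (P ε u - P ε' u') ≤ L * N 0 (u - u') + M * ‖ε - ε'‖ₑ
  high : ∀ (n : ℕ) (A : ℝ≥0), ∃ C : ℝ≥0, ∀ ε u, ‖ε‖ₑ ≤ e₀ → N 0 u ≤ ρ →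
    (∀ j < n, N j u ≤ A) → N n (P ε u) ≤ L * N n u + C
  herm : ∀ ε u, Herm u → Herm (P ε u)

namespace Tame

variable {ρ e₀ B B' L L' M M' : ℝ≥0} {P Q : ℝ → Seq → Seq}

theorem mono (h : Tame ρ e₀ P B L M) (hB : B ≤ B') (hL : L ≤ L') (hM : M ≤ M') :
    Tame ρ e₀ P B' L' M' where
  bound ε u hε hu := (h.bound ε u hε hu).trans (by exact_mod_cast hB)
  lip ε ε' u u' a b c d := (h.lip ε ε' u u' a b c d).trans (by gcongr)
  high n A := by
    obtain ⟨C, hC⟩ := h.high n A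
    exact ⟨C, fun ε u a b c => (hC ε u a b c).trans (by gcongr)⟩
  herm := h.herm

theorem const {c : Seq} (hc : Rapid c) (hh : Herm c) :
    Tame ρ e₀ (fun _ _ => c) (N 0 c).toNNReal 0 0 where
  bound _ _ _ _ := (ENNReal.coe_toNNReal (hc 0)).ge
  lip _ _ _ _ _ _ _ _ := by simp [N]
  high n _ := ⟨(N n c).toNNReal, fun _ _ _ _ _ => by simp [ENNReal.coe_toNNReal (hc n)]⟩
  herm _ _ _ := hh

theorem linear {μ : Freq → ℂ} {K : ℝ≥0} (hμ : ∀ k, ‖μ k‖ₑ ≤ K) (hh : Herm μ) :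
    Tame ρ e₀ (fun _ u => mult μ u) (K * ρ) K 0 where
  bound _ u _ hu := (N_mult 0 μ u hμ).trans (by push_cast; gcongr)
  lip _ _ u u' _ _ _ _ := by
    rw [← mult_sub]; exact (N_mult 0 μ _ hμ).trans le_self_add
  high n _ := ⟨0, fun _ u _ _ _ => (N_mult n μ u hμ).trans le_self_add⟩
  herm _ _ hu := herm_mult hh hu

theorem add (hP : Tame ρ e₀ P B L M) (hQ : Tame ρ e₀ Q B' L' M') :
    Tame ρ e₀ (fun ε u => P ε u + Q ε u) (B + B') (L + L') (M + M') where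
  bound ε u a b := (N_add 0 _ _).trans (by push_cast; exact add_le_add (hP.bound ε u a b) (hQ.bound ε u a b))
  lip ε ε' u u' a b c d := by
    rw [show P ε u + Q ε u - (P ε' u' + Q ε' u') = (P ε u - P ε' u') + (Q ε u - Q ε' u') by abel]
    refine ((N_add 0 _ _).trans (add_le_add (hP.lip ε ε' u u' a b c d)
      (hQ.lip ε ε' u u' a b c d))).trans (le_of_eq ?_)
    push_cast; ring
  high n A := by
    obtain ⟨C, hC⟩ := hP.high n A
    obtain ⟨C', hC'⟩ := hQ.high n A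
    refine ⟨C + C', fun ε u a b c => ((N_add n _ _).trans
      (add_le_add (hC ε u a b c) (hC' ε u a b c))).trans (le_of_eq ?_)⟩
    push_cast; ring
  herm ε u hu := herm_add (hP.herm ε u hu) (hQ.herm ε u hu)

theorem neg (hP : Tame ρ e₀ P B L M) : Tame ρ e₀ (fun ε u => -P ε u) B L M where
  bound ε u a b := by simpa [N_neg] using hP.bound ε u a b
  lip ε ε' u u' a b c d := by
    rw [show -P ε u - -P ε' u' = -(P ε u - P ε' u') by abel, N_neg]
    exact hP.lip ε ε' u u' a b c d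
  high n A := by simpa [N_neg] using hP.high n A
  herm ε u hu := fun k => by simp [hP.herm ε u hu k]

theorem sub (hP : Tame ρ e₀ P B L M) (hQ : Tame ρ e₀ Q B' L' M') :
    Tame ρ e₀ (fun ε u => P ε u - Q ε u) (B + B') (L + L') (M + M') := by
  simpa only [sub_eq_add_neg] using hP.add hQ.neg

theorem bound_of (h : Tame ρ e₀ P B L M) (j : ℕ) (A : ℝ≥0) :
    ∃ D : ℝ≥0, ∀ ε u, ‖ε‖ₑ ≤ e₀ → N 0 u ≤ ρ → (∀ i ≤ j, N i u ≤ A) → N j (P ε u) ≤ D := by
  obtain ⟨C, hC⟩ := h.high j A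
  refine ⟨L * A + C, fun ε u a b c => (hC ε u a b fun i hi => c i hi.le).trans ?_⟩
  push_cast
  gcongr
  exact c j le_rfl

theorem mul (hP : Tame ρ e₀ P B L M) (hQ : Tame ρ e₀ Q B' L' M') :
    Tame ρ e₀ (fun ε u => conv (P ε u) (Q ε u)) (B * B') (L * B' + B * L') (M * B' + B * M') where
  bound ε u a b := (N_conv_zero _ _).trans (by
    push_cast; exact mul_le_mul' (hP.bound ε u a b) (hQ.bound ε u a b))
  lip ε ε' u u' a b c d := by
    have f1 := ne_top_of_le_ne_top ENNReal.coe_ne_top (hP.bound ε u a c)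
    have f2 := ne_top_of_le_ne_top ENNReal.coe_ne_top (hP.bound ε' u' b d)
    have g1 := ne_top_of_le_ne_top ENNReal.coe_ne_top (hQ.bound ε u a c)
    have g2 := ne_top_of_le_ne_top ENNReal.coe_ne_top (hQ.bound ε' u' b d)
    have : conv (P ε u) (Q ε u) - conv (P ε' u') (Q ε' u')
        = conv (P ε u - P ε' u') (Q ε u) + conv (P ε' u') (Q ε u - Q ε' u') := by
      rw [conv_sub_left f1 f2 g1, conv_sub_right f2 g1 g2]; abel
    rw [this]
    refine (N_add 0 _ _).trans ((add_le_add (N_conv_zero _ _) (N_conv_zero _ _)).trans ?_)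
    refine (add_le_add (mul_le_mul' (hP.lip ε ε' u u' a b c d) (hQ.bound ε u a c))
      (mul_le_mul' (hP.bound ε' u' b d) (hQ.lip ε ε' u u' a b c d))).trans (le_of_eq ?_)
    push_cast; ring
  high n A := by
    match n with
    | 0 =>
      exact ⟨B * B', fun ε u a b _ => ((N_conv_zero _ _).trans (by
        push_cast; exact mul_le_mul' (hP.bound ε u a b) (hQ.bound ε u a b))).trans le_add_self⟩
    | 1 =>
      obtain ⟨C, hC⟩ := hP.high 1 A
      obtain ⟨C', hC'⟩ := hQ.high 1 A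
      refine ⟨C * B' + B * C', fun ε u a b c => (N_conv_one _ _).trans ?_⟩
      refine (add_le_add (mul_le_mul' (hC ε u a b c) (hQ.bound ε u a b))
        (mul_le_mul' (hP.bound ε u a b) (hC' ε u a b c))).trans (le_of_eq ?_)
      push_cast; ring
    | m + 2 =>
      obtain ⟨C, hC⟩ := hP.high (m + 2) A
      obtain ⟨C', hC'⟩ := hQ.high (m + 2) A
      obtain ⟨D₁, hD₁⟩ := hP.bound_of 1 A
      obtain ⟨D₁', hD₁'⟩ := hQ.bound_of 1 A
      obtain ⟨E₁, hE₁⟩ := hP.bound_of (m + 1) A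
      obtain ⟨E₁', hE₁'⟩ := hQ.bound_of (m + 1) A
      refine ⟨C * B' + B * C' + 2 ^ (m + 2) * (E₁ * D₁' + D₁ * E₁'), fun ε u a b c =>
        (N_conv_le (m + 2) (by omega) _ _).trans ?_⟩
      have h1 : ∀ i ≤ 1, N i u ≤ A := fun i hi => c i (by omega)
      have hm : ∀ i ≤ m + 1, N i u ≤ A := fun i hi => c i (by omega)
      refine (add_le_add (add_le_add (mul_le_mul' (hC ε u a b c) (hQ.bound ε u a b))
        (mul_le_mul' (hP.bound ε u a b) (hC' ε u a b c)))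
        (mul_le_mul' le_rfl (add_le_add
          (mul_le_mul' (hE₁ ε u a b hm) (hD₁' ε u a b h1))
          (mul_le_mul' (hD₁ ε u a b h1) (hE₁' ε u a b hm))))).trans (le_of_eq ?_)
      push_cast; ring
  herm ε u hu := herm_conv (hP.herm ε u hu) (hQ.herm ε u hu)

theorem smul_eps (hP : Tame ρ e₀ P B L M) :
    Tame ρ e₀ (fun ε u => scal ε (P ε u)) (e₀ * B) (e₀ * L) (e₀ * M + B) where
  bound ε u a b := (N_mult 0 _ _ (K := e₀) fun _ => by simpa [← ofReal_norm] using a).trans (by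
    push_cast; gcongr; exact hP.bound ε u a b)
  lip ε ε' u u' a b c d := by
    rw [show scal ε (P ε u) - scal ε' (P ε' u')
      = scal ε (P ε u - P ε' u') + scal (ε - ε') (P ε' u') by
        funext k; simp [scal, mult]; ring]
    refine (N_add 0 _ _).trans ((add_le_add
      ((N_mult 0 _ _ (K := e₀) fun _ => by simpa [← ofReal_norm] using a).trans
        (mul_le_mul' le_rfl (hP.lip ε ε' u u' a b c d)))
      ((N_mult 0 _ _ (K := ‖ε - ε'‖ₑ) fun _ => le_of_eq (by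
        rw [← ofReal_norm, ← ofReal_norm, Complex.norm_real])).trans
        (mul_le_mul' le_rfl (hP.bound ε' u' b d)))).trans (le_of_eq ?_))
    push_cast; ring
  high n A := by
    obtain ⟨C, hC⟩ := hP.high n A
    refine ⟨e₀ * C, fun ε u a b c =>
      ((N_mult n _ _ (K := e₀) fun _ => by simpa [← ofReal_norm] using a).trans
        (mul_le_mul' le_rfl (hC ε u a b c))).trans (le_of_eq ?_)⟩
    push_cast; ring
  herm ε u hu := herm_scal ε (hP.herm ε u hu)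

theorem post {μ : Freq → ℂ} (hμ : ∀ k, ‖μ k‖ₑ ≤ 1) (hh : Herm μ) (hP : Tame ρ e₀ P B L M) :
    Tame ρ e₀ (fun ε u => mult μ (P ε u)) B L M where
  bound ε u a b := ((N_mult 0 μ _ hμ).trans (by rw [one_mul])).trans (hP.bound ε u a b)
  lip ε ε' u u' a b c d := by
    rw [← mult_sub]
    exact ((N_mult 0 μ _ hμ).trans (by rw [one_mul])).trans (hP.lip ε ε' u u' a b c d)
  high n A := by
    obtain ⟨C, hC⟩ := hP.high n A
    exact ⟨C, fun ε u a b c =>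
      ((N_mult n μ _ hμ).trans (by rw [one_mul])).trans (hC ε u a b c)⟩
  herm ε u hu := herm_mult hh (hP.herm ε u hu)

end Tame

/-- Bounded on the unit ball. -/
def Big (P : ℝ → Seq → Seq) : Prop :=
  ∃ K : ℝ≥0, ∀ ρ e₀ : ℝ≥0, ρ ≤ 1 → e₀ ≤ 1 → Tame ρ e₀ P K K K

/-- Small values. -/
def Small (P : ℝ → Seq → Seq) : Prop :=
  ∃ K : ℝ≥0, ∀ ρ e₀ : ℝ≥0, ρ ≤ 1 → e₀ ≤ 1 → Tame ρ e₀ P (K * (ρ + e₀)) K K

/-- Small values and small Lipschitz constant. -/
def Tiny (P : ℝ → Seq → Seq) : Prop :=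
  ∃ K : ℝ≥0, ∀ ρ e₀ : ℝ≥0, ρ ≤ 1 → e₀ ≤ 1 → Tame ρ e₀ P (K * (ρ + e₀)) (K * (ρ + e₀)) K

variable {P Q : ℝ → Seq → Seq}

theorem two_bound {ρ e₀ : ℝ≥0} (hρ : ρ ≤ 1) (he : e₀ ≤ 1) : ρ + e₀ ≤ 2 :=
  (add_le_add hρ he).trans_eq one_add_one_eq_two

theorem Small.big (h : Small P) : Big P := by
  obtain ⟨K, hK⟩ := h
  exact ⟨2 * K, fun ρ e₀ hρ he => (hK ρ e₀ hρ he).mono
    ((mul_le_mul' le_rfl (two_bound hρ he)).trans_eq (mul_comm _ _))
    (le_mul_of_one_le_left' one_le_two) (le_mul_of_one_le_left' one_le_two)⟩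

theorem Tiny.small (h : Tiny P) : Small P := by
  obtain ⟨K, hK⟩ := h
  refine ⟨2 * K, fun ρ e₀ hρ he => (hK ρ e₀ hρ he).mono ?_ ?_ ?_⟩
  · exact mul_le_mul' (le_mul_of_one_le_left' one_le_two) le_rfl
  · exact (mul_le_mul' le_rfl (two_bound hρ he)).trans_eq (mul_comm _ _)
  · exact le_mul_of_one_le_left' one_le_two

theorem big_const {c : Seq} (hc : Rapid c) (hh : Herm c) : Big fun _ _ => c :=
  ⟨(N 0 c).toNNReal, fun _ _ _ _ => (Tame.const hc hh).mono le_rfl zero_le zero_le⟩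

theorem small_linear {μ : Freq → ℂ} {K : ℝ≥0} (hμ : ∀ k, ‖μ k‖ₑ ≤ K) (hh : Herm μ) :
    Small fun _ u => mult μ u :=
  ⟨K, fun _ _ _ _ => (Tame.linear hμ hh).mono (mul_le_mul' le_rfl le_self_add) le_rfl zero_le⟩

theorem Big.add (hP : Big P) (hQ : Big Q) : Big fun ε u => P ε u + Q ε u := by
  obtain ⟨K, hK⟩ := hP
  obtain ⟨K', hK'⟩ := hQ
  exact ⟨K + K', fun ρ e₀ a b => (hK ρ e₀ a b).add (hK' ρ e₀ a b)⟩

theorem Big.sub (hP : Big P) (hQ : Big Q) : Big fun ε u => P ε u - Q ε u := by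
  obtain ⟨K, hK⟩ := hP
  obtain ⟨K', hK'⟩ := hQ
  exact ⟨K + K', fun ρ e₀ a b => (hK ρ e₀ a b).sub (hK' ρ e₀ a b)⟩

theorem Big.mul (hP : Big P) (hQ : Big Q) : Big fun ε u => conv (P ε u) (Q ε u) := by
  obtain ⟨K, hK⟩ := hP
  obtain ⟨K', hK'⟩ := hQ
  exact ⟨2 * K * K', fun ρ e₀ a b => ((hK ρ e₀ a b).mul (hK' ρ e₀ a b)).mono
    (by rw [mul_assoc]; exact le_mul_of_one_le_left' one_le_two)
    (le_of_eq (by ring)) (le_of_eq (by ring))⟩

theorem Big.smul_eps (hP : Big P) : Tiny fun ε u => scal ε (P ε u) := by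
  obtain ⟨K, hK⟩ := hP
  refine ⟨2 * K, fun ρ e₀ a b => (hK ρ e₀ a b).smul_eps.mono ?_ ?_ ?_⟩
  · calc e₀ * K = K * e₀ := mul_comm _ _
      _ ≤ 2 * K * (ρ + e₀) := mul_le_mul' (le_mul_of_one_le_left' one_le_two) le_add_self
  · calc e₀ * K = K * e₀ := mul_comm _ _
      _ ≤ 2 * K * (ρ + e₀) := mul_le_mul' (le_mul_of_one_le_left' one_le_two) le_add_self
  · calc e₀ * K + K ≤ 1 * K + K := by gcongr
      _ = 2 * K := by ring

theorem Small.mul_small (hP : Small P) (hQ : Small Q) :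
    Tiny fun ε u => conv (P ε u) (Q ε u) := by
  obtain ⟨K, hK⟩ := hP
  obtain ⟨K', hK'⟩ := hQ
  refine ⟨4 * K * K', fun ρ e₀ a b => ((hK ρ e₀ a b).mul (hK' ρ e₀ a b)).mono ?_ ?_ ?_⟩
  · calc K * (ρ + e₀) * (K' * (ρ + e₀)) = K * K' * (ρ + e₀) * (ρ + e₀) := by ring
      _ ≤ K * K' * (ρ + e₀) * 2 := by gcongr; exact two_bound a b
      _ ≤ 4 * K * K' * (ρ + e₀) := le_of_le_of_eq (mul_le_mul' le_rfl (by norm_num : (2:ℝ≥0) ≤ 4)) (by ring)
  · calc K * (K' * (ρ + e₀)) + K * (ρ + e₀) * K' = K * K' * (ρ + e₀) * 2 := by ring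
      _ ≤ 4 * K * K' * (ρ + e₀) := le_of_le_of_eq (mul_le_mul' le_rfl (by norm_num : (2:ℝ≥0) ≤ 4)) (by ring)
  · calc K * (K' * (ρ + e₀)) + K * (ρ + e₀) * K' = K * K' * (ρ + e₀) * 2 := by ring
      _ ≤ K * K' * 2 * 2 := by gcongr; exact two_bound a b
      _ = 4 * K * K' := by ring

theorem Tiny.mul_big (hP : Tiny P) (hQ : Big Q) : Tiny fun ε u => conv (P ε u) (Q ε u) := by
  obtain ⟨K, hK⟩ := hP
  obtain ⟨K', hK'⟩ := hQ
  refine ⟨3 * K * K', fun ρ e₀ a b => ((hK ρ e₀ a b).mul (hK' ρ e₀ a b)).mono ?_ ?_ ?_⟩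
  · calc K * (ρ + e₀) * K' = K * K' * (ρ + e₀) := by ring
      _ ≤ 3 * K * K' * (ρ + e₀) := by gcongr; exact le_mul_of_one_le_left' (by norm_num)
  · calc K * (ρ + e₀) * K' + K * (ρ + e₀) * K' = 2 * K * K' * (ρ + e₀) := by ring
      _ ≤ 3 * K * K' * (ρ + e₀) := by gcongr; norm_num
  · calc K * K' + K * (ρ + e₀) * K' ≤ K * K' + K * 2 * K' := by gcongr; exact two_bound a b
      _ = 3 * K * K' := by ring

theorem Tiny.add (hP : Tiny P) (hQ : Tiny Q) : Tiny fun ε u => P ε u + Q ε u := by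
  obtain ⟨K, hK⟩ := hP
  obtain ⟨K', hK'⟩ := hQ
  exact ⟨K + K', fun ρ e₀ a b => ((hK ρ e₀ a b).add (hK' ρ e₀ a b)).mono
    (le_of_eq (by ring)) (le_of_eq (by ring)) le_rfl⟩

theorem Tiny.sub (hP : Tiny P) (hQ : Tiny Q) : Tiny fun ε u => P ε u - Q ε u := by
  obtain ⟨K, hK⟩ := hP
  obtain ⟨K', hK'⟩ := hQ
  exact ⟨K + K', fun ρ e₀ a b => ((hK ρ e₀ a b).sub (hK' ρ e₀ a b)).mono
    (le_of_eq (by ring)) (le_of_eq (by ring)) le_rfl⟩

theorem Tiny.post {μ : Freq → ℂ} (hμ : ∀ k, ‖μ k‖ₑ ≤ 1) (hh : Herm μ) (hP : Tiny P) :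
    Tiny fun ε u => mult μ (P ε u) := by
  obtain ⟨K, hK⟩ := hP
  exact ⟨K, fun ρ e₀ a b => (hK ρ e₀ a b).post hμ hh⟩

/-- The value of a map on the unit ball is the real function `f`. -/
def Val (P : ℝ → Seq → Seq) (f : ℝ → Seq → ℝ × ℝ → ℝ) : Prop :=
  ∀ ε u, ‖ε‖ₑ ≤ 1 → N 0 u ≤ 1 → Herm u →
    N 0 (P ε u) ≠ ⊤ ∧ ∀ z, ev (P ε u) z = (f ε u z : ℂ)

section Val

variable {f g : ℝ → Seq → ℝ × ℝ → ℝ}

theorem val_const {c : Seq} (hc : Rapid c) (hh : Herm c) :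
    Val (fun _ _ => c) fun _ _ z => evR c z :=
  fun _ _ _ _ _ => ⟨hc 0, ev_real hh⟩

theorem val_kron (a : ℝ) : Val (fun _ _ => kron a) fun _ _ _ => a :=
  fun _ _ _ _ _ => ⟨rapid_kron _ 0, ev_kron _⟩

theorem val_linear {μ : Freq → ℂ} {K : ℝ≥0} (hμ : ∀ k, ‖μ k‖ₑ ≤ K) (hh : Herm μ) :
    Val (fun _ u => mult μ u) fun _ u z => evR (mult μ u) z :=
  fun _ u _ hu hH => ⟨ne_top_of_le_ne_top
    (ENNReal.mul_ne_top ENNReal.coe_ne_top (ne_top_of_le_ne_top ENNReal.one_ne_top hu))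
    (N_mult 0 μ u hμ), ev_real (herm_mult hh hH)⟩

theorem Val.add (hP : Val P f) (hQ : Val Q g) :
    Val (fun ε u => P ε u + Q ε u) fun ε u z => f ε u z + g ε u z := fun ε u a b c => by
  obtain ⟨p, p'⟩ := hP ε u a b c
  obtain ⟨q, q'⟩ := hQ ε u a b c
  refine ⟨ne_top_of_le_ne_top (ENNReal.add_ne_top.2 ⟨p, q⟩) (N_add 0 _ _), fun z => ?_⟩
  rw [ev_add p q, p', q']; push_cast; rfl

theorem Val.sub (hP : Val P f) (hQ : Val Q g) :
    Val (fun ε u => P ε u - Q ε u) fun ε u z => f ε u z - g ε u z := fun ε u a b c => by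
  obtain ⟨p, p'⟩ := hP ε u a b c
  obtain ⟨q, q'⟩ := hQ ε u a b c
  refine ⟨ne_top_of_le_ne_top (ENNReal.add_ne_top.2 ⟨p, q⟩) (N_sub_le 0 _ _), fun z => ?_⟩
  rw [ev_sub p q, p', q']; push_cast; rfl

theorem Val.mul (hP : Val P f) (hQ : Val Q g) :
    Val (fun ε u => conv (P ε u) (Q ε u)) fun ε u z => f ε u z * g ε u z := fun ε u a b c => by
  obtain ⟨p, p'⟩ := hP ε u a b c
  obtain ⟨q, q'⟩ := hQ ε u a b c
  refine ⟨ne_top_of_le_ne_top (ENNReal.mul_ne_top p q) (N_conv_zero _ _), fun z => ?_⟩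
  rw [ev_conv p q, p', q']; push_cast; rfl

theorem Val.smul_eps (hP : Val P f) :
    Val (fun ε u => scal ε (P ε u)) fun ε u z => ε * f ε u z := fun ε u a b c => by
  obtain ⟨p, p'⟩ := hP ε u a b c
  refine ⟨ne_top_of_le_ne_top (ENNReal.mul_ne_top enorm_ne_top p)
    (N_mult 0 _ _ fun _ => le_of_eq (by rfl : ‖(ε : ℂ)‖ₑ = _)), fun z => ?_⟩
  have : scal ε (P ε u) = conv (kron (ε : ℂ)) (P ε u) := by
    funext k
    simp only [scal, mult, conv, kron]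
    rw [tsum_eq_single 0 (fun j hj => by simp [hj])]
    simp
  show ev (scal ε (P ε u)) z = _
  rw [this, ev_conv (rapid_kron _ 0) p, ev_kron, p']; push_cast; rfl

end Val

theorem N_le_of_tendsto {f : ℕ → Seq} {g : Seq} {n : ℕ} {A : ℝ≥0∞}
    (h : ∀ᶠ m in atTop, N n (f m) ≤ A) (hg : ∀ k, Tendsto (fun m => f m k) atTop (𝓝 (g k))) :
    N n g ≤ A := by
  simp only [N]
  rw [ENNReal.tsum_eq_iSup_sum]
  refine iSup_le fun s => ?_
  refine le_of_tendsto (f := fun m => ∑ k ∈ s, wt k ^ n * ‖f m k‖ₑ) ?_ ?_ (x := atTop)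
  · exact tendsto_finset_sum s fun k _ =>
      ENNReal.Tendsto.const_mul ((hg k).enorm) (Or.inr (by simp [wt]))
  · exact h.mono fun m hm => (ENNReal.sum_le_tsum s).trans hm

theorem enorm_le_N (c : Seq) (k : Freq) : ‖c k‖ₑ ≤ N 0 c := by
  simpa [N] using ENNReal.le_tsum (f := fun j => ‖c j‖ₑ) k

/-- The fixed point of a tiny map vanishing at the origin. -/
theorem fixed_point {Φ : ℝ → Seq → Seq} (hΦ : Tiny Φ) (h0 : Φ 0 0 = 0) :
    ∃ (e₀ : ℝ≥0) (K : ℝ≥0) (u : ℝ → Seq), 0 < e₀ ∧ e₀ ≤ 1 ∧ ∀ ε, ‖ε‖ₑ ≤ e₀ →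
      Φ ε (u ε) = u ε ∧ Rapid (u ε) ∧ Herm (u ε) ∧ N 0 (u ε) ≤ 1 ∧ N 0 (u ε) ≤ K * ‖ε‖ₑ ∧
      ∀ ε', ‖ε'‖ₑ ≤ e₀ → N 0 (u ε - u ε') ≤ K * ‖ε - ε'‖ₑ := by
  obtain ⟨K₀, hK₀⟩ := hΦ
  set K : ℝ≥0 := K₀ + 1 with hK
  set e₀ : ℝ≥0 := (2 * K * (2 * K + 1))⁻¹ with he
  set ρ : ℝ≥0 := 2 * K * e₀ with hρ
  have hK1 : 1 ≤ K := le_add_self
  have he0 : 0 < e₀ := by positivity
  have hρ1 : ρ ≤ 1 := by
    rw [hρ, he, ← div_eq_mul_inv, div_le_one₀ (by positivity)]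
    exact le_mul_of_one_le_right' le_add_self
  have he1 : e₀ ≤ 1 := le_trans (le_mul_of_one_le_left'
    (le_trans (one_le_two) (le_mul_of_one_le_right' hK1))) hρ1
  have hL : K₀ * (ρ + e₀) ≤ (1 / 2 : ℝ≥0) := by
    calc K₀ * (ρ + e₀) ≤ K * (ρ + e₀) := by gcongr; exact le_self_add
      _ = K * (2 * K + 1) * e₀ := by rw [hρ]; ring
      _ = 1 / 2 := by rw [he]; field_simp
  have hT : Tame ρ e₀ Φ (K₀ * (ρ + e₀)) (1 / 2) K :=
    (hK₀ ρ e₀ hρ1 he1).mono le_rfl hL le_self_add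
  have zero_dom : N 0 (0 : Seq) ≤ ρ := by simp [N]
  have self_map : ∀ ε u, ‖ε‖ₑ ≤ e₀ → N 0 u ≤ ρ → N 0 (Φ ε u) ≤ ρ := by
    intro ε u hε hu
    have h := hT.lip ε 0 u 0 hε (by simp) hu zero_dom
    rw [h0, sub_zero, sub_zero, sub_zero] at h
    refine h.trans ?_
    calc ((1 / 2 : ℝ≥0) : ℝ≥0∞) * N 0 u + K * ‖ε‖ₑ ≤ ((1 / 2 : ℝ≥0) : ℝ≥0∞) * ρ + K * e₀ := by
          gcongr
      _ = ρ := by rw [hρ]; norm_cast; ring
  let it : ℝ → ℕ → Seq := fun ε m => (Φ ε)^[m] 0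
  have it_succ : ∀ ε m, it ε (m + 1) = Φ ε (it ε m) := fun ε m =>
    Function.iterate_succ_apply' _ _ _
  have it_dom : ∀ ε, ‖ε‖ₑ ≤ e₀ → ∀ m, N 0 (it ε m) ≤ ρ := by
    intro ε hε m
    induction m with
    | zero => exact zero_dom
    | succ m ih => rw [it_succ]; exact self_map ε _ hε ih
  have step : ∀ ε, ‖ε‖ₑ ≤ e₀ → ∀ m, N 0 (it ε (m + 1) - it ε m) ≤ ((1 / 2 : ℝ≥0) ^ m : ℝ≥0) * ρ := by
    intro ε hε m
    induction m with
    | zero =>
      simp only [pow_zero, ENNReal.coe_one, one_mul]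
      simpa [it] using it_dom ε hε 1
    | succ m ih =>
      rw [it_succ ε (m + 1)]
      nth_rewrite 2 [it_succ ε m]
      refine (hT.lip ε ε _ _ hε hε (it_dom ε hε _) (it_dom ε hε _)).trans ?_
      rw [sub_self, enorm_zero, mul_zero, add_zero, pow_succ', ENNReal.coe_mul, mul_assoc]
      gcongr
  have cauchy : ∀ ε, ‖ε‖ₑ ≤ e₀ → ∀ k, CauchySeq fun m => it ε m k := by
    intro ε hε k
    refine cauchySeq_of_le_geometric (1 / 2 : ℝ) ρ (by norm_num) fun m => ?_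
    rw [dist_eq_norm', ← toReal_enorm]
    have h := (enorm_le_N _ k).trans (step ε hε m)
    have := ENNReal.toReal_mono (ENNReal.mul_ne_top ENNReal.coe_ne_top ENNReal.coe_ne_top) h
    simpa [mul_comm] using this
  let u : ℝ → Seq := fun ε k => limUnder atTop fun m => it ε m k
  have tends : ∀ ε, ‖ε‖ₑ ≤ e₀ → ∀ k, Tendsto (fun m => it ε m k) atTop (𝓝 (u ε k)) :=
    fun ε hε k => (cauchy ε hε k).tendsto_limUnder
  have u_dom : ∀ ε, ‖ε‖ₑ ≤ e₀ → N 0 (u ε) ≤ ρ := fun ε hε =>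
    N_le_of_tendsto (Eventually.of_forall (it_dom ε hε)) (tends ε hε)
  have far : ∀ ε, ‖ε‖ₑ ≤ e₀ → ∀ m, N 0 (u ε - it ε m) ≤ ((1 / 2 : ℝ≥0) ^ m : ℝ≥0) * (2 * ρ) := by
    intro ε hε m
    have hj : ∀ j, N 0 (it ε (m + j) - it ε m) ≤
        (((1 / 2 : ℝ≥0) ^ m * (2 - 2 * (1 / 2) ^ j)) * ρ : ℝ≥0) := by
      intro j
      induction j with
      | zero => simp [N]
      | succ j ih =>
        refine (N_sub_triangle 0 _ (it ε (m + j)) _).trans ?_
        refine (add_le_add (step ε hε (m + j)) ih).trans (le_of_eq ?_)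
        rw [← ENNReal.coe_mul, ← ENNReal.coe_add, ENNReal.coe_inj]
        have h1 : 2 * (1 / 2 : ℝ≥0) ^ j ≤ 2 := by
          calc 2 * (1 / 2 : ℝ≥0) ^ j ≤ 2 * 1 := by
                gcongr; exact pow_le_one₀ zero_le (by norm_num)
            _ = 2 := mul_one _
        have h2 : 2 * (1 / 2 : ℝ≥0) ^ (j + 1) ≤ 2 := by
          calc 2 * (1 / 2 : ℝ≥0) ^ (j + 1) ≤ 2 * 1 := by
                gcongr; exact pow_le_one₀ zero_le (by norm_num)
            _ = 2 := mul_one _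
        rw [← NNReal.coe_inj]
        push_cast [NNReal.coe_sub h1, NNReal.coe_sub h2]
        ring
    refine N_le_of_tendsto (f := fun j => it ε (m + j) - it ε m)
      (Eventually.of_forall fun j => (hj j).trans ?_) fun k => ?_
    · rw [← ENNReal.coe_ofNat, ← ENNReal.coe_mul, ← ENNReal.coe_mul, ENNReal.coe_le_coe, mul_assoc]
      gcongr
      exact tsub_le_self
    · simp only [Pi.sub_apply]
      refine Tendsto.sub_const ?_ _
      simpa [add_comm] using (tendsto_add_atTop_iff_nat m).2 (tends ε hε k)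
  have fix : ∀ ε, ‖ε‖ₑ ≤ e₀ → Φ ε (u ε) = u ε := by
    intro ε hε
    funext k
    refine tendsto_nhds_unique ?_ ((tendsto_add_atTop_iff_nat 1).2 (tends ε hε k))
    rw [tendsto_iff_norm_sub_tendsto_zero]
    refine squeeze_zero (g := fun m => (1 / 2 : ℝ) ^ m * ρ) (fun _ => norm_nonneg _) (fun m => ?_) ?_
    · rw [← toReal_enorm]
      have h : ‖it ε (m + 1) k - Φ ε (u ε) k‖ₑ ≤ (((1 / 2 : ℝ≥0) ^ m * ρ : ℝ≥0) : ℝ≥0∞) := by
        refine (enorm_le_N (it ε (m + 1) - Φ ε (u ε)) k).trans ?_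
        rw [N_sub_comm, it_succ]
        refine (hT.lip ε ε _ _ hε hε (u_dom ε hε) (it_dom ε hε m)).trans ?_
        rw [sub_self, enorm_zero, mul_zero, add_zero]
        refine (mul_le_mul' le_rfl (far ε hε m)).trans (le_of_eq ?_)
        rw [← ENNReal.coe_ofNat, ← ENNReal.coe_mul, ← ENNReal.coe_mul, ← ENNReal.coe_mul,
          ENNReal.coe_inj]
        ring
      simpa using ENNReal.toReal_mono ENNReal.coe_ne_top h
    · simpa using (tendsto_pow_atTop_nhds_zero_of_lt_one (r := (1 / 2 : ℝ)) (by norm_num)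
        (by norm_num)).mul_const (ρ : ℝ)
  have itb : ∀ (n : ℕ), ∃ A : ℝ≥0, ∀ j ≤ n, ∀ ε, ‖ε‖ₑ ≤ e₀ → ∀ m, N j (it ε m) ≤ A := by
    intro n
    induction n with
    | zero => exact ⟨ρ, fun j hj => by obtain rfl := Nat.le_zero.1 hj; exact it_dom⟩
    | succ n ih =>
      obtain ⟨A, hA⟩ := ih
      obtain ⟨C, hC⟩ := hT.high (n + 1) A
      refine ⟨max A (2 * C), fun j hj ε hε m => ?_⟩
      rcases Nat.lt_or_eq_of_le hj with hj | rfl
      · exact (hA j (by omega) ε hε m).trans (by simp)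
      have : N (n + 1) (it ε m) ≤ (2 * C : ℝ≥0) := by
        induction m with
        | zero => simp [it, N]
        | succ m ihm =>
          rw [it_succ]
          refine (hC ε _ hε (it_dom ε hε m) fun i hi => hA i (by omega) ε hε m).trans ?_
          refine (add_le_add (mul_le_mul' le_rfl ihm) le_rfl).trans (le_of_eq ?_)
          rw [← ENNReal.coe_mul, ← ENNReal.coe_add, ENNReal.coe_inj]; ring
      exact this.trans (by simp)
  refine ⟨e₀, 2 * K, u, he0, he1, fun ε hε => ⟨fix ε hε, fun n => ?_, ?_, ?_, ?_, ?_⟩⟩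
  · obtain ⟨A, hA⟩ := itb n
    exact ne_top_of_le_ne_top ENNReal.coe_ne_top
      (N_le_of_tendsto (Eventually.of_forall (hA n le_rfl ε hε)) (tends ε hε))
  · intro k
    refine tendsto_nhds_unique (tends ε hε (-k)) ?_
    have : ∀ m, Herm (it ε m) := fun m => by
      induction m with
      | zero => intro j; simp [it]
      | succ m ih => rw [it_succ]; exact hT.herm ε _ ih
    simp only [fun m => this m k]
    exact (Complex.continuous_conj.tendsto _).comp (tends ε hε k)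
  · exact (u_dom ε hε).trans (by exact_mod_cast hρ1)
  all_goals
    have main : ∀ ε', ‖ε'‖ₑ ≤ e₀ → N 0 (u ε - u ε') ≤ (2 * K : ℝ≥0) * ‖ε - ε'‖ₑ := by
      intro ε' hε'
      have hf : N 0 (u ε - u ε') ≠ ⊤ := ne_top_of_le_ne_top
        (ENNReal.add_ne_top.2 ⟨ENNReal.coe_ne_top, ENNReal.coe_ne_top⟩)
        ((N_sub_le 0 _ _).trans (add_le_add (u_dom ε hε) (u_dom ε' hε')))
      have h := hT.lip ε ε' _ _ hε hε' (u_dom ε hε) (u_dom ε' hε')
      rw [fix ε hε, fix ε' hε'] at h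
      lift N 0 (u ε - u ε') to ℝ≥0 using hf with x hx
      rw [enorm_eq_nnnorm] at h ⊢
      norm_cast at h ⊢
      rw [← NNReal.coe_le_coe] at h ⊢
      push_cast at h ⊢
      linarith
  · have := main 0 (by simp)
    have u0 : u 0 = 0 := by
      funext k
      refine tendsto_nhds_unique (tends 0 (by simp) k) ?_
      have : ∀ m, it 0 m = 0 := fun m => by
        induction m with
        | zero => rfl
        | succ m ih => rw [it_succ, ih, h0]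
      simp [this]
    simpa [u0] using this
  · exact main

end Vale.Agent.P205
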