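import Vale.Agent.P205.Full.Global

/-!
# Uniformization of smooth metrics on the torus (P205)
-/

noncomputable section

open scoped ContDiff ComplexConjugate
open Real Complex

namespace Vale.Agent.P205

open Beltrami

/-- Conformal factor and Beltrami coefficient of `E du² + 2F du dv + G dv²`. -/
theorem beltrami_coeff {E F G : ℝ × ℝ → ℝ} (hE : ContDiff ℝ ∞ E) (hF : ContDiff ℝ ∞ F)
    (hG : ContDiff ℝ ∞ G) (pE : Per E) (pF : Per F) (pG : Per G)
    (hEpos : ∀ z, 0 < E z) (hdet : ∀ z, F z ^ 2 < E z * G z) :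
    ∃ (ρ : ℝ × ℝ → ℝ) (μ : ℝ × ℝ → ℂ) (κ : ℝ), ContDiff ℝ ∞ ρ ∧ Per ρ ∧ (∀ z, 0 < ρ z) ∧
      ContDiff ℝ ∞ μ ∧ Per μ ∧ κ < 1 ∧ (∀ z, ‖μ z‖ ≤ κ) ∧ ∀ z (a a' : ℝ × ℝ),
        E z * (a.1 * a'.1) + F z * (a.1 * a'.2 + a.2 * a'.1) + G z * (a.2 * a'.2)
          = ρ z * (((1 + μ z) * a.1 + Complex.I * (1 - μ z) * a.2)
              * conj ((1 + μ z) * a'.1 + Complex.I * (1 - μ z) * a'.2)).re := by
  set s : ℝ × ℝ → ℝ := fun z => √(E z * G z - F z ^ 2) with hsdef
  have hspos : ∀ z, 0 < s z := fun z => Real.sqrt_pos.2 (sub_pos.2 (hdet z))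
  have hssq : ∀ z, s z ^ 2 = E z * G z - F z ^ 2 := fun z =>
    Real.sq_sqrt (sub_pos.2 (hdet z)).le
  have hs : ContDiff ℝ ∞ s := ((hE.mul hG).sub (hF.pow 2)).sqrt fun z => (sub_pos.2 (hdet z)).ne'
  have hGpos : ∀ z, 0 < G z := fun z => pos_of_mul_pos_right
    (lt_of_le_of_lt (sq_nonneg _) (hdet z)) (hEpos z).le
  set ρ : ℝ × ℝ → ℝ := fun z => (E z + G z + 2 * s z) / 4 with hρdef
  have hρpos : ∀ z, 0 < ρ z := fun z => by
    simp only [hρdef]; linarith [hEpos z, hGpos z, hspos z]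
  have hρ : ContDiff ℝ ∞ ρ := ((hE.add hG).add (contDiff_const.mul hs)).div_const _
  set μ : ℝ × ℝ → ℂ := fun z =>
    (((E z - G z) / (4 * ρ z) : ℝ) : ℂ) + Complex.I * ((F z / (2 * ρ z) : ℝ) : ℂ) with hμdef
  have hμ : ContDiff ℝ ∞ μ := by
    refine (Complex.ofRealCLM.contDiff.comp ?_).add
      (contDiff_const.mul (Complex.ofRealCLM.contDiff.comp ?_))
    · exact (hE.sub hG).div (contDiff_const.mul hρ) fun z => by linarith [hρpos z]
    · exact hF.div (contDiff_const.mul hρ) fun z => by linarith [hρpos z]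
  have pρ : Per ρ := fun u v => by
    simp [hρdef, hsdef, (pE u v).1, (pE u v).2, (pF u v).1, (pF u v).2, (pG u v).1, (pG u v).2]
  have pμ : Per μ := fun u v => by
    simp [hμdef, (pρ u v).1, (pρ u v).2, (pE u v).1, (pE u v).2, (pF u v).1, (pF u v).2,
      (pG u v).1, (pG u v).2]
  have hre : ∀ z, (μ z).re = (E z - G z) / (4 * ρ z) := fun z => by
    simp only [hμdef, Complex.add_re, Complex.mul_re, Complex.I_re, Complex.I_im,
      Complex.ofReal_re, Complex.ofReal_im]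
    ring
  have him : ∀ z, (μ z).im = F z / (2 * ρ z) := fun z => by
    simp only [hμdef, Complex.add_im, Complex.mul_im, Complex.I_re, Complex.I_im,
      Complex.ofReal_re, Complex.ofReal_im]
    ring
  have hnorm : ∀ z, 16 * ρ z ^ 2 * ‖μ z‖ ^ 2 = (E z - G z) ^ 2 + 4 * F z ^ 2 := fun z => by
    have := (hρpos z).ne'
    rw [← Complex.normSq_eq_norm_sq, Complex.normSq_apply, hre, him]
    field_simp; ring
  have hlt : ∀ z, ‖μ z‖ < 1 := fun z => by
    have h := hnorm z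
    have h2 : (E z - G z) ^ 2 + 4 * F z ^ 2 < 16 * ρ z ^ 2 := by
      simp only [hρdef]; nlinarith [hssq z, hspos z, hEpos z, hGpos z]
    by_contra hge
    nlinarith [mul_le_mul_of_nonneg_left (one_le_pow₀ (not_lt.1 hge) (n := 2))
      (show 0 ≤ 16 * ρ z ^ 2 by positivity)]
  obtain ⟨z₀, h₀⟩ := exists_max_per (f := fun z => ‖μ z‖) hμ.continuous.norm
    fun u v => by simp [(pμ u v).1, (pμ u v).2]
  refine ⟨ρ, μ, ‖μ z₀‖, hρ, pρ, hρpos, hμ, pμ, hlt _, h₀, fun z a a' => ?_⟩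
  have := (hρpos z).ne'
  have h4 : 4 * ρ z = E z + G z + 2 * s z := by simp only [hρdef]; ring
  have := hssq z
  simp only [Complex.mul_re, Complex.mul_im, Complex.add_re, Complex.add_im, Complex.sub_re,
    Complex.sub_im, Complex.one_re, Complex.one_im, Complex.I_re, Complex.I_im, Complex.conj_re,
    Complex.conj_im, Complex.ofReal_re, Complex.ofReal_im, hre, him]
  field_simp
  grind

/-- Every smooth metric on `ℝ²/(2πℤ)²` is the pullback, by a periodicity-preserving smooth map,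
of a conformally flat one `Λ ((du + b dv)² + c² dv²)`. -/
theorem uniformization {E F G : ℝ × ℝ → ℝ} (hE : ContDiff ℝ ∞ E) (hF : ContDiff ℝ ∞ F)
    (hG : ContDiff ℝ ∞ G) (pE : Per E) (pF : Per F) (pG : Per G)
    (hEpos : ∀ z, 0 < E z) (hdet : ∀ z, F z ^ 2 < E z * G z) :
    ∃ (b c : ℝ) (Ψ : ℝ × ℝ → ℝ × ℝ) (Λ : ℝ × ℝ → ℝ),
      0 < c ∧ ContDiff ℝ ∞ Ψ ∧ ContDiff ℝ ∞ Λ ∧ Per Λ ∧ (∀ z, 0 < Λ z) ∧
      (∀ u v, Ψ (u + 2 * π, v) = Ψ (u, v) + (2 * π, 0) ∧
        Ψ (u, v + 2 * π) = Ψ (u, v) + (0, 2 * π)) ∧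
      ∀ z a a',
        E z * (a.1 * a'.1) + F z * (a.1 * a'.2 + a.2 * a'.1) + G z * (a.2 * a'.2)
          = Λ (Ψ z) * (((fderiv ℝ Ψ z a).1 + b * (fderiv ℝ Ψ z a).2)
              * ((fderiv ℝ Ψ z a').1 + b * (fderiv ℝ Ψ z a').2)
            + c ^ 2 * ((fderiv ℝ Ψ z a).2 * (fderiv ℝ Ψ z a').2)) := by
  obtain ⟨ρ, μ, κ, hρ, pρ, hρpos, hμ, pμ, hκ1, hκ, hmet⟩ :=
    beltrami_coeff hE hF hG pE pF pG hEpos hdet
  obtain ⟨σ, γ₁, γ₂, hσ, pσ, hcl⟩ := isothermal hμ pμ hκ1 hκ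
  set L : ℝ × ℝ →L[ℝ] ℂ := form (Complex.I * γ₁) (Complex.I * γ₂) with hL
  set T : ℝ × ℝ → ℂ := fun z => Complex.exp (σ z + L z) with hT
  have hTs : ContDiff ℝ ∞ T := (hσ.add L.contDiff).cexp
  set W : ℝ × ℝ → (ℝ × ℝ →L[ℝ] ℂ) :=
    fun z => form (T z * (1 + μ z)) (Complex.I * T z * (1 - μ z)) with hW
  have hW1 : ContDiff ℝ ∞ fun z => T z * (1 + μ z) := hTs.mul (contDiff_const.add hμ)
  have hW2 : ContDiff ℝ ∞ fun z => Complex.I * T z * (1 - μ z) :=
    (contDiff_const.mul hTs).mul (contDiff_const.sub hμ)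
  have hWs : ContDiff ℝ ∞ W := by
    simp only [hW, form]
    exact (contDiff_const.smulRight hW1).add (contDiff_const.smulRight hW2)
  -- closedness
  have hTd : ∀ z, HasFDerivAt T (T z • (fderiv ℝ σ z + L)) z := fun z =>
    (((hσ.differentiable (by norm_num)) z).hasFDerivAt.add L.hasFDerivAt).cexp
  obtain ⟨P, hP⟩ := Convex.exists_forall_hasFDerivAt_of_fderiv_symmetric convex_univ
      isOpen_univ (hWs.differentiable (by norm_num)).differentiableOn (by
    intro z _ x y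
    have hm := ((hμ.differentiable (by norm_num)) z).hasFDerivAt
    have d1 := (hTd z).mul (hm.const_add 1)
    have d2 := ((hTd z).const_mul Complex.I).mul (hm.const_sub 1)
    have d := (((ContinuousLinearMap.smulRightL ℝ (ℝ × ℝ) ℂ
        (ContinuousLinearMap.fst ℝ ℝ ℝ)).hasFDerivAt).comp z d1).add
      (((ContinuousLinearMap.smulRightL ℝ (ℝ × ℝ) ℂ
        (ContinuousLinearMap.snd ℝ ℝ ℝ)).hasFDerivAt).comp z d2)
    have hd : fderiv ℝ W z = _ := HasFDerivAt.fderiv d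
    rw [hd]
    have h := hcl z
    have ex : ∀ (Φ : ℝ × ℝ →L[ℝ] ℂ) (a : ℝ × ℝ), Φ a = a.1 * Φ (1, 0) + a.2 * Φ (0, 1) := by
      intro Φ a
      conv_lhs => rw [show a = a.1 • ((1, 0) : ℝ × ℝ) + a.2 • ((0, 1) : ℝ × ℝ) by ext <;> simp]
      rw [map_add, map_smul, map_smul, Complex.real_smul, Complex.real_smul]
    simp [hL, form_apply]
    rw [ex (fderiv ℝ σ z) x, ex (fderiv ℝ σ z) y, ex (fderiv ℝ μ z) x, ex (fderiv ℝ μ z) y]
    have hI := Complex.I_mul_I
    grind)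
  replace hP : ∀ z, HasFDerivAt P (W z) z := fun z => hP z trivial
  have hPs : ContDiff ℝ ∞ P := contDiff_infty_iff_fderiv.2
    ⟨fun z => (hP z).differentiableAt, by rw [funext fun z => (hP z).fderiv]; exact hWs⟩
  have hTne : ∀ z, T z ≠ 0 := fun z => Complex.exp_ne_zero _
  have hWinj : ∀ z, Function.Injective (W z) := fun z =>
    form_injective ((hκ z).trans_lt hκ1) (hTne z)
  -- translations
  have shift : ∀ p : ℝ × ℝ, (∀ z, σ (z + p) = σ z ∧ μ (z + p) = μ z) →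
      ∀ z, P (z + p) = Complex.exp (L p) * P z + (P p - Complex.exp (L p) * P 0) := by
    intro p hp z
    have hd : ∀ z, HasFDerivAt (fun y => P (y + p) - Complex.exp (L p) * P y)
        (0 : ℝ × ℝ →L[ℝ] ℂ) z := fun z => by
      refine (((hP (z + p)).comp z ((hasFDerivAt_id z).add_const p)).sub
        ((hP z).const_mul (Complex.exp (L p)))).congr_fderiv ?_
      ext <;>
        simp [hW, hT, form_apply, (hp z).1, (hp z).2, Complex.exp_add, -map_add, L.map_add] <;>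
        ring
    have := is_const_of_fderiv_eq_zero (fun z => (hd z).differentiableAt)
      (fun z => (hd z).fderiv) z 0
    simp only [zero_add] at this
    linear_combination this
  have hp1 : ∀ z : ℝ × ℝ, σ (z + (2 * π, 0)) = σ z ∧ μ (z + (2 * π, 0)) = μ z := fun ⟨u, v⟩ => by
    simp [(pσ u v).1, (pμ u v).1]
  have hp2 : ∀ z : ℝ × ℝ, σ (z + (0, 2 * π)) = σ z ∧ μ (z + (0, 2 * π)) = μ z := fun ⟨u, v⟩ => by
    simp [(pσ u v).2, (pμ u v).2]
  have hR : ∀ p : ℝ × ℝ, ‖Complex.exp (L p)‖ = 1 := fun p => by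
    rw [Complex.norm_exp, hL, form_apply]; simp
  obtain ⟨hR1, hR2, hw1, him⟩ := monodromy hPs
    (fun z => by rw [(hP z).fderiv]; exact hWinj z) (hR (2 * π, 0)) (hR (0, 2 * π))
    (fun u v => by have := shift _ hp1 (u, v); simpa using this)
    (fun u v => by have := shift _ hp2 (u, v); simpa using this)
  set w₁ : ℂ := P (2 * π, 0) - Complex.exp (L (2 * π, 0)) * P 0
  set w₂ : ℂ := P (0, 2 * π) - Complex.exp (L (0, 2 * π)) * P 0
  set τ : ℂ := w₂ / w₁ with hτ
  set K : ℂ := ((2 * π : ℝ) : ℂ) / w₁ with hK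
  have hKne : K ≠ 0 := div_ne_zero (by exact_mod_cast Real.two_pi_pos.ne') hw1
  -- linear normalisation `ℂ → ℝ²`
  set A : ℂ →L[ℝ] ℝ × ℝ :=
    (Complex.reCLM - (τ.re / τ.im) • Complex.imCLM).prod (τ.im⁻¹ • Complex.imCLM) with hA
  set M : ℂ →L[ℝ] ℂ := ContinuousLinearMap.mul ℝ ℂ K with hM
  set B : ℂ →L[ℝ] ℝ × ℝ := A.comp M with hB
  have hBinj : Function.Injective B := by
    refine (injective_iff_map_eq_zero _).2 fun q hq => ?_
    simp [hB, hA, hM, Prod.ext_iff] at hq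
    have e2 : (K * q).im = 0 := by
      rw [Complex.mul_im]; exact hq.2.resolve_left him
    have e1 : (K * q).re = 0 := by
      have := hq.1
      rw [← Complex.mul_re, ← Complex.mul_im, e2, mul_zero, sub_zero] at this
      exact this
    exact (mul_eq_zero.1 (Complex.ext e1 e2 : K * q = 0)).resolve_left hKne
  set Ψ : ℝ × ℝ → ℝ × ℝ := fun z => B (P z) with hΨ
  have hΨs : ContDiff ℝ ∞ Ψ := B.contDiff.comp hPs
  have hΨd : ∀ z, fderiv ℝ Ψ z = B.comp (W z) := fun z =>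
    (B.hasFDerivAt.comp z (hP z)).fderiv
  have q1 : B w₁ = (2 * π, 0) := by
    have : K * w₁ = ((2 * π : ℝ) : ℂ) := by rw [hK]; field_simp
    change A (M w₁) = _
    rw [show M w₁ = K * w₁ from rfl, this]
    simp [hA]
  have q2 : B w₂ = (0, 2 * π) := by
    have : K * w₂ = ((2 * π : ℝ) : ℂ) * τ := by rw [hK, hτ]; field_simp
    change A (M w₂) = _
    rw [show M w₂ = K * w₂ from rfl, this]
    refine Prod.ext ?_ ?_
    · simp [hA]; field_simp; ring
    · simp [hA]; field_simp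
  have hper : ∀ z : ℝ × ℝ, Ψ (z + (2 * π, 0)) = Ψ z + (2 * π, 0) ∧
      Ψ (z + (0, 2 * π)) = Ψ z + (0, 2 * π) := fun z => by
    constructor
    · have q1' : B (P (2 * π, 0) - P 0) = (2 * π, 0) := by simpa only [w₁, hR1, one_mul] using q1
      simp only [hΨ]; rw [shift _ hp1 z, map_add, hR1, one_mul, one_mul, q1']
    · have q2' : B (P (0, 2 * π) - P 0) = (0, 2 * π) := by simpa only [w₂, hR2, one_mul] using q2
      simp only [hΨ]; rw [shift _ hp2 z, map_add, hR2, one_mul, one_mul, q2']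
  obtain ⟨z₀, h₀⟩ := exists_max_per (f := fun z => ‖Ψ z - z‖)
    (hΨs.continuous.sub continuous_id).norm (fun u v => by
      have h := hper (u, v)
      simp only [Prod.mk_add_mk, add_zero] at h
      constructor
      · beta_reduce; rw [h.1]; congr 1; ext <;> simp
      · beta_reduce; rw [h.2]; congr 1; ext <;> simp)
  obtain ⟨e, he, hes⟩ := bijective_of_near_id hΨs
    (fun z => by rw [hΨd]; exact hBinj.comp (hWinj z)) h₀
  set lam : ℝ × ℝ → ℝ := fun z => ρ z / (Complex.normSq K * Real.exp (2 * (σ z).re)) with hlam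
  have hlams : ContDiff ℝ ∞ lam :=
    hρ.div (contDiff_const.mul (contDiff_const.mul (Complex.reCLM.contDiff.comp hσ)).exp)
      fun z => (mul_pos (Complex.normSq_pos.2 hKne) (Real.exp_pos _)).ne'
  refine ⟨τ.re, |τ.im|, Ψ, fun y => lam (e.symm y), abs_pos.2 him, hΨs, hlams.comp hes, ?_,
    fun y => div_pos (hρpos _) (mul_pos (Complex.normSq_pos.2 hKne) (Real.exp_pos _)), ?_, ?_⟩
  · have key : ∀ p : ℝ × ℝ, (∀ z, Ψ (z + p) = Ψ z + p) → (∀ z, lam (z + p) = lam z) →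
        ∀ y, lam (e.symm (y + p)) = lam (e.symm y) := by
      intro p h1 h2 y
      have : e.symm (y + p) = e.symm y + p := by
        rw [e.symm_apply_eq, he, h1, ← he, e.apply_symm_apply]
      rw [this, h2]
    intro u v
    have k1 := key _ (fun z => (hper z).1) (fun ⟨a, b⟩ => by
      simp [hlam, (pρ a b).1, (pσ a b).1]) (u, v)
    have k2 := key _ (fun z => (hper z).2) (fun ⟨a, b⟩ => by
      simp [hlam, (pρ a b).2, (pσ a b).2]) (u, v)
    simp only [Prod.mk_add_mk, add_zero] at k1 k2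
    exact ⟨k1, k2⟩
  · intro u v
    have h := hper (u, v)
    simp only [Prod.mk_add_mk, add_zero] at h
    exact h
  · intro z a a'
    set Z : ℝ × ℝ → ℂ := fun a => (1 + μ z) * a.1 + Complex.I * (1 - μ z) * a.2 with hZ
    have hq : ∀ a, fderiv ℝ Ψ z a = A (K * T z * Z a) := fun a => by
      rw [hΨd]
      change A (K * form (T z * (1 + μ z)) (Complex.I * T z * (1 - μ z)) a) = _
      rw [form_apply, hZ]; congr 1; ring
    have hsym : lam (e.symm (Ψ z)) = lam z := by rw [← he, e.symm_apply_apply]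
    have hA1 : ∀ q, (A q).1 + τ.re * (A q).2 = q.re := fun q => by simp [hA]; ring
    have hA2 : ∀ q q', |τ.im| ^ 2 * ((A q).2 * (A q').2) = q.im * q'.im := fun q q' => by
      simp [hA, sq_abs]; field_simp
    have hTn : Complex.normSq (T z) = Real.exp (2 * (σ z).re) := by
      rw [hT, Complex.normSq_eq_norm_sq, Complex.norm_exp, ← Real.exp_nat_mul]
      simp [hL, form_apply]
    beta_reduce
    rw [hmet, hsym, hq, hq, hA1, hA1, hA2]
    change ρ z * (Z a * conj (Z a')).re = _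
    have hdot : ∀ p q : ℂ, p.re * q.re + p.im * q.im = (p * conj q).re := fun p q => by simp
    rw [hdot, show K * T z * Z a * conj (K * T z * Z a')
        = ((Complex.normSq K * Complex.normSq (T z) : ℝ) : ℂ) * (Z a * conj (Z a')) by
      push_cast; rw [← Complex.mul_conj, ← Complex.mul_conj, map_mul, map_mul]; ring,
      Complex.re_ofReal_mul, hTn, hlam]
    have := Complex.normSq_pos.2 hKne
    have := Real.exp_pos (2 * (σ z).re)
    field_simp

end Vale.Agent.P205
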